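import Crest.Agent.R17.M1.Defs

/-!
Row 17, block M1: Minkowski, dyadic blocks, counting.
-/

set_option autoImplicit false

namespace Crest.Agent.R17.M1

open scoped ComplexConjugate

variable {j : ℕ}

/-- Minkowski (weighted Cauchy–Schwarz; terms with `w p = 0` vanish) -/
theorem mink {κ π : Type*} (A : Finset κ) (B : Finset π) (F : π → κ → ℂ) (w : π → ℝ) {M : ℝ}
    (hM : 0 ≤ M) (hw : ∀ p ∈ B, 0 ≤ w p) (h : ∀ p ∈ B, ∑ k ∈ A, ‖F p k‖ ^ 2 ≤ M * w p ^ 2) :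
    ∑ k ∈ A, ‖∑ p ∈ B, F p k‖ ^ 2 ≤ M * (∑ p ∈ B, w p) ^ 2 := by
  let v : π → EuclideanSpace ℂ A := fun p => WithLp.toLp 2 fun k : A => F p k
  have h1 : ∀ p ∈ B, ‖v p‖ ≤ Real.sqrt M * w p := by
    intro p hp
    refine abs_le_of_sq_le_sq' ?_ (mul_nonneg (Real.sqrt_nonneg _) (hw p hp)) |>.2
    rw [mul_pow, Real.sq_sqrt hM, EuclideanSpace.norm_sq_eq]
    exact (Finset.sum_coe_sort A fun k => ‖F p k‖ ^ 2).trans_le (h p hp)
  have h2 : ‖∑ p ∈ B, v p‖ ≤ Real.sqrt M * ∑ p ∈ B, w p := by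
    rw [Finset.mul_sum]
    exact (norm_sum_le _ _).trans (Finset.sum_le_sum h1)
  have h3 := pow_le_pow_left₀ (norm_nonneg _) h2 2
  rw [mul_pow, Real.sq_sqrt hM, EuclideanSpace.norm_sq_eq] at h3
  refine le_of_eq_of_le ?_ h3
  rw [← Finset.sum_coe_sort A]
  refine Finset.sum_congr rfl fun k _ => ?_
  simp [v]

theorem norm_sum_sq_le {π : Type*} (B : Finset π) (F : π → ℂ) :
    ‖∑ p ∈ B, F p‖ ^ 2 ≤ B.card * ∑ p ∈ B, ‖F p‖ ^ 2 := by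
  exact (pow_le_pow_left₀ (norm_nonneg _) (norm_sum_le _ _) 2).trans sq_sum_le_card_mul_sum_sq

theorem norm_add_sq_le (x y : ℂ) : ‖x + y‖ ^ 2 ≤ 2 * ‖x‖ ^ 2 + 2 * ‖y‖ ^ 2 := by
  have h := pow_le_pow_left₀ (norm_nonneg _) (norm_add_le x y) 2
  nlinarith [sq_nonneg (‖x‖ - ‖y‖)]

theorem norm_sub_sq_le (x y : ℂ) : ‖x - y‖ ^ 2 ≤ 2 * ‖x‖ ^ 2 + 2 * ‖y‖ ^ 2 := by
  have h := pow_le_pow_left₀ (norm_nonneg _) (norm_sub_le x y) 2
  nlinarith [sq_nonneg (‖x‖ - ‖y‖)]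

theorem card_powerset_le (S : Finset (Fin j)) : (S.powerset.card : ℝ) ≤ 2 ^ j := by
  rw [Finset.card_powerset]
  have h : S.card ≤ j := by simpa using S.card_le_univ
  exact_mod_cast Nat.pow_le_pow_right two_pos h

theorem blk_le {n : O} (hn : n ≠ 0) : (2 : ℝ) ^ blk n ≤ nm n := by
  have h := Nat.pow_log_le_self 2 (fun h => hn (nN_eq_zero.1 h))
  unfold nm blk
  exact_mod_cast h

theorem lt_blk (n : O) : nm n < 2 * (2 : ℝ) ^ blk n := by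
  have h := Nat.lt_pow_succ_log_self one_lt_two (nN n)
  rw [← pow_succ']
  unfold nm blk
  exact_mod_cast h

theorem blk_lt_nblk {n : O} {W : ℝ} (h : nm n ≤ W) : blk n < nblk W := by
  exact Nat.lt_succ_of_le (Nat.log_mono_right (Nat.le_floor h))

theorem nblk_le {δ : ℝ} (hδ : 0 < δ) : ∃ C : ℝ, 0 < C ∧ ∀ W : ℝ, 1 ≤ W → (nblk W : ℝ) ≤ C * W ^ δ := by
  have hl : 0 < Real.log 2 := Real.log_pos one_lt_two
  refine ⟨1 / (δ * Real.log 2) + 1, by positivity, fun W hW => ?_⟩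
  have h0 : ⌊W⌋₊ ≠ 0 := (Nat.floor_pos.2 hW).ne'
  have h1 : (2 : ℝ) ^ Nat.log 2 ⌊W⌋₊ ≤ W := by
    refine le_trans ?_ (Nat.floor_le (zero_le_one.trans hW))
    exact_mod_cast Nat.pow_log_le_self 2 h0
  have h2 := Real.log_le_log (by positivity) h1
  rw [Real.log_pow] at h2
  have h3 := Real.log_le_rpow_div (zero_le_one.trans hW) hδ
  have h4 : 1 ≤ W ^ δ := Real.one_le_rpow hW hδ.le
  have h5 : (Nat.log 2 ⌊W⌋₊ : ℝ) ≤ 1 / (δ * Real.log 2) * W ^ δ := by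
    calc (Nat.log 2 ⌊W⌋₊ : ℝ) ≤ W ^ δ / δ / Real.log 2 := (le_div_iff₀ hl).2 (h2.trans h3)
      _ = 1 / (δ * Real.log 2) * W ^ δ := by field_simp
  rw [nblk]
  push_cast
  linarith

/-- `sum_inv_nm_le` -/
theorem sum_inv_le {δ : ℝ} (hδ : 0 < δ) : ∃ C : ℝ, 0 < C ∧ ∀ (W : ℝ) (A : Finset O), 1 ≤ W →
    (∀ n ∈ A, nm n ≤ W) → ∑ n ∈ A, (nm n)⁻¹ ≤ C * W ^ δ := by
  refine ⟨44 * (1 + 1 / δ), by positivity, fun W A hW hA => (sum_inv_nm_le hW hA).trans ?_⟩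
  have h3 := Real.log_le_rpow_div (zero_le_one.trans hW) hδ
  have h4 : 1 ≤ W ^ δ := Real.one_le_rpow hW hδ.le
  have h5 : W ^ δ / δ = 1 / δ * W ^ δ := by ring
  linarith

/-- `sum_nm_rpow_le` -/
theorem sum_inv_sqrt_le : ∃ C : ℝ, 1 ≤ C ∧ ∀ (P : ℝ) (A : Finset O), 0 ≤ P →
    (∀ n ∈ A, n ≠ 0 ∧ nm n ≤ P) → (∑ n ∈ A, (Real.sqrt (nm n))⁻¹) ^ 2 ≤ C * P := by
  obtain ⟨C, hC, h⟩ := sum_nm_rpow_le (σ := 1 / 2) (by norm_num)
  refine ⟨1 + C ^ 2, by nlinarith, fun P A hP hA => ?_⟩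
  have h1 : ∑ n ∈ A, (Real.sqrt (nm n))⁻¹ ≤ C * Real.sqrt P := by
    have h2 := h P A hP hA
    rw [show (1 : ℝ) - 1 / 2 = 1 / 2 by norm_num, ← Real.sqrt_eq_rpow] at h2
    refine le_of_eq_of_le (Finset.sum_congr rfl fun n _ => ?_) h2
    rw [Real.rpow_neg (nm_nonneg n), Real.sqrt_eq_rpow]
  have h3 := pow_le_pow_left₀ (Finset.sum_nonneg fun n _ => by positivity) h1 2
  rw [mul_pow, Real.sq_sqrt hP] at h3
  linarith

theorem card_rows_le {H : ℝ} (hH : 0 ≤ H) : ((rows H).card : ℝ) ≤ 11 * H := by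
  exact card_le_of_nm_le hH fun n hn => mem_rows.1 hn

theorem rows_mono {H H' : ℝ} (h : H ≤ H') : rows H ⊆ rows H' := by
  exact fun n hn => mem_rows.2 ⟨(mem_rows.1 hn).1, (mem_rows.1 hn).2.trans h⟩

theorem rows_eq_empty {H : ℝ} (h : H < 1) : rows H = ∅ := by
  refine Finset.eq_empty_of_forall_notMem fun n hn => ?_
  linarith [one_le_nm (mem_rows.1 hn).1, (mem_rows.1 hn).2]

theorem Blk.card_le {J₀ : ℝ} {J : Finset O} (h : Blk J₀ J) (hJ : 0 ≤ J₀) :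
    (J.card : ℝ) ≤ 22 * J₀ := by
  have := card_le_of_nm_le (X := 2 * J₀) (by positivity) fun n hn =>
    ⟨(h n hn).1.ne_zero, (h n hn).2.2⟩
  linarith

theorem Blk.sum_inv_le {J₀ : ℝ} {J : Finset O} (h : Blk J₀ J) (hJ : 0 < J₀) :
    ∑ i ∈ J, (nm i)⁻¹ ≤ 22 := by
  have h1 := Finset.sum_le_card_nsmul J (fun i => (nm i)⁻¹) J₀⁻¹ fun i hi =>
    inv_anti₀ hJ (h i hi).2.1
  rw [nsmul_eq_mul] at h1
  calc ∑ i ∈ J, (nm i)⁻¹ ≤ J.card * J₀⁻¹ := h1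
    _ ≤ 22 * J₀ * J₀⁻¹ := mul_le_mul_of_nonneg_right (h.card_le hJ.le) (by positivity)
    _ = 22 := by field_simp

theorem four_le_nm {p : O} (hp : Prime p) (hp' : Prim p) : 4 ≤ nm p := by
  have h1 := nN_mod_three hp'.coprime_three
  have h2 : nN p ≠ 1 := fun h => hp.not_isUnit (nN_eq_one.1 h)
  have h3 : 4 ≤ nN p := by omega
  unfold nm
  exact_mod_cast h3

theorem norm_one_le (D n : O) : ‖one D n‖ ≤ 1 := by
  unfold one
  split_ifs <;> simp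

theorem one_mul_left (D D' n : O) : one (D * D') n = one D n * one D' n := by
  unfold one
  by_cases h : IsCoprime n D <;> by_cases h' : IsCoprime n D' <;>
    simp [h, h', IsCoprime.mul_right_iff]

theorem one_mul_right (D m n : O) : one D (m * n) = one D m * one D n := by
  unfold one
  by_cases h : IsCoprime m D <;> by_cases h' : IsCoprime n D <;>
    simp [h, h', IsCoprime.mul_left_iff]

@[simp] theorem one_one (n : O) : one 1 n = 1 := by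
  unfold one
  exact if_pos isCoprime_one_right

end Crest.Agent.R17.M1
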