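import Crest.Agent.R17.M1.CubeC
import Crest.Agent.R17.M1.Cube
import Crest.Agent.R17.M1.Step2

/-!
Row 17, block M1: the large cubes.
-/

set_option autoImplicit false

namespace Crest.Agent.R17.M1

variable {j : ℕ}

theorem mbig_compl : ∃ C : ℝ, 0 < C ∧ ∀ (g : O → ℂ) (K Z : ℝ), 0 ≤ K → 0 < Z →
    (∀ n, ‖g n‖ ≤ K * nm n ^ (-(4 : ℝ))) →
    ‖(∑' n, g n) - ∑ n ∈ ball Z, g n‖ ≤ K * (C * Z ^ (1 - 4 : ℝ)) := by
  obtain ⟨C₃, hC₃, h₃⟩ := sum_nm_rpow_tail (σ := 4) (by norm_num)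
  refine ⟨C₃, hC₃, fun g K Z hK hZ hgb => ?_⟩
  have hs4 := (summable_nm_rpow (σ := 4) (by norm_num)).mul_left K
  have hgs : Summable g := Summable.of_norm_bounded hs4 hgb
  rw [← hgs.sum_add_tsum_compl (s := ball Z), add_sub_cancel_left]
  have hn : Summable fun n : ↑((ball Z : Set O)ᶜ) => ‖g n‖ := hgs.norm.subtype _
  refine (norm_tsum_le_tsum_norm hn).trans (tsum_le_of_sum_le' (by positivity) fun T => ?_)
  have a1 := h₃ Z (T.map (Function.Embedding.subtype _)) hZ fun n hn => by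
    obtain ⟨m, -, rfl⟩ := Finset.mem_map.1 hn
    have := m.2
    simp only [Set.mem_compl_iff, Finset.mem_coe, mem_ball, not_le] at this
    exact this.le
  rw [Finset.sum_map] at a1
  refine (Finset.sum_le_sum (s := T) fun n _ => hgb n.1).trans ?_
  rw [← Finset.mul_sum]
  exact mul_le_mul_of_nonneg_left a1 hK

open Classical in
theorem mbig_tail : ∃ C : ℝ, 0 < C ∧ ∀ (F : O → ℂ) (K Z Θ : ℝ), 0 ≤ K → 0 < Z →
    (∀ n, Prim n → ‖F n‖ ≤ K * nm n ^ (-(4 : ℝ))) →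
    ‖(∑' B : Pr, if Θ < nm B then F B else 0) -
      ∑ B ∈ (prims Z).filter (fun B => Θ < nm B), F B‖ ≤ K * (C * Z ^ (1 - 4 : ℝ)) := by
  obtain ⟨C, hC, h⟩ := mbig_compl
  refine ⟨C, hC, fun F K Z Θ hK hZ hb => ?_⟩
  rw [tsum_Pr_eq fun n => if Θ < nm n then F n else 0, prims, Finset.sum_filter, Finset.sum_filter]
  refine h _ K Z hK hZ fun n => ?_
  have := mul_nonneg hK (Real.rpow_nonneg (nm_nonneg n) (-(4 : ℝ)))
  split_ifs with h1 h2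
  · exact hb n h1
  · simpa using this
  · simpa using this

open Classical in
/-- the cubes beyond `Z` are negligible: `norm_FB_le`, `norm_gm_le`, `card_pdiv_le` (`ε = 1`),
`sum_nm_rpow_tail` (`σ = 4`); also gives the summability -/
theorem big_tail (j : ℕ) {q : O} (hq : Lev q) {a : ℝ} (ha : 0 < a) : ∃ C : ℝ, 0 < C ∧
    ∀ (Z Θ P : ℝ) (s : ℕ) (ψ : O → ℂ) (D : O) (ω : Fin j → O → ℂ) (S : Finset (Fin j)) (X t : ℝ)
      (v k : O), Ok q P s ψ D ω S → 1 ≤ Z → 0 < X → X ≤ Z →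
      ‖(∑' B : Pr, if Θ < nm B then gm Θ B * FB (fd ψ D ω S a X t v k) B else 0) -
        ∑ B ∈ (prims Z).filter (fun B => Θ < nm B), gm Θ B * FB (fd ψ D ω S a X t v k) B‖ ≤ C := by
  obtain ⟨C₁, hC₁, h₁⟩ := norm_FB_le j hq ha
  obtain ⟨C₂, hC₂, h₂⟩ := card_pdiv_le (ε := 1) one_pos
  obtain ⟨C₃, hC₃, h₃⟩ := mbig_tail
  refine ⟨C₂ * C₁ * C₃, by positivity, ?_⟩
  intro Z Θ P s ψ D ω S X t v k hk hZ hX hXZ
  have hZ0 : 0 < Z := by linarith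
  refine (h₃ (fun B => gm Θ B * FB (fd ψ D ω S a X t v k) B) (C₂ * C₁ * X ^ 2) Z Θ (by positivity) hZ0
    fun B hB => ?_).trans ?_
  · have a1 := h₁ P s ψ D ω S X t v k B hk hX hB
    have a2 := (norm_gm_le Θ hB.ne_zero).trans (h₂ B hB.ne_zero)
    have a3 : nm B ^ (-(4 : ℝ)) = nm B ^ (1 : ℝ) * nm B ^ (-5 : ℝ) := by
      rw [← Real.rpow_add (nm_pos hB.ne_zero)]; norm_num
    have a4 := Real.rpow_nonneg (nm_nonneg B) 1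
    rw [norm_mul, a3]
    calc _ ≤ C₂ * nm B ^ (1 : ℝ) * (C₁ * X ^ 2 * nm B ^ (-5 : ℝ)) := by gcongr
      _ = _ := by ring
  have a2 : X ^ 2 * Z ^ (1 - 4 : ℝ) ≤ 1 := by
    calc X ^ 2 * Z ^ (1 - 4 : ℝ) ≤ Z ^ 2 * Z ^ (1 - 4 : ℝ) := by gcongr
      _ = Z ^ (-1 : ℝ) := by rw [← Real.rpow_natCast, ← Real.rpow_add hZ0]; norm_num
      _ ≤ 1 := Real.rpow_le_one_of_one_le_of_nonpos hZ (by norm_num)
  calc _ = C₂ * C₁ * C₃ * (X ^ 2 * Z ^ (1 - 4 : ℝ)) := by ring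
    _ ≤ _ := mul_le_of_le_one_right (by positivity) a2

theorem mbig_fin {a w n β c z₁ z₂ cw Y L τ H x : ℝ} (ha : 0 ≤ a) (hβ : 0 < β) (hc : 0 ≤ c)
    (hz₁ : 0 ≤ z₁) (hY0 : 0 ≤ Y) (hτ : 0 ≤ τ) (hH : 0 ≤ H) (hw : w ≤ cw * z₂) (hw0 : 0 ≤ w)
    (hn : n ≤ a) (hn0 : 0 ≤ n) (hY : Y ≤ L)
    (hx : x ≤ a * w * β * (n * (c * z₁ * (Y / β ^ 3 + L / β ^ 3) * τ * H))) :
    x ≤ 2 * a * a * cw * c * (z₁ * z₂) * L * τ * H * β⁻¹ ^ 2 := by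
  have hL : 0 ≤ L := hY0.trans hY
  have hcz : 0 ≤ cw * z₂ := hw0.trans hw
  calc x ≤ a * w * β * (n * (c * z₁ * (Y / β ^ 3 + L / β ^ 3) * τ * H)) := hx
    _ ≤ a * (cw * z₂) * β * (a * (c * z₁ * (L / β ^ 3 + L / β ^ 3) * τ * H)) := by gcongr
    _ = _ := by field_simp; ring

/-- one large cube: `FB_le`, then `step2` with `Y := Y / β³`, `U := U / β⁶`, `Λ := Λ U / β³`,
`β = N B` (`MB.mono` from `X / β³` to `Y / β³ / J₀`; `N D ≤ Θ ≤ Z ≤ Z²`); `wj B ^ 2 ≤ C Z^δ`,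
`Y ≤ X ≤ U ≤ Λ U`. -/
theorem big_one (j : ℕ) {q : O} (hq : Lev q) {a δ C₁ : ℝ} (ha : 0 < a) (hδ : 0 < δ) (hδ1 : δ ≤ 1)
    (hC₁ : 0 ≤ C₁) : ∃ C : ℝ, 0 < C ∧ ∀ (Z P U X Λ : ℝ) (s : ℕ) (ψ : O → ℂ) (D : O)
      (ω : Fin j → O → ℂ) (S : Finset (Fin j)) (t : ℝ) (e : O) (Y J₀ H : ℝ) (J : Finset O) (B : O),
      1 ≤ U → X ≤ U → U ≤ Z → 1 ≤ Λ → Ok q P s ψ D ω S → DC (Z ^ δ) U X e D Y J₀ H J → nm D ≤ Z →
      Prim B → nm B ≤ Z →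
      MB j q (2 * a) P s (U / nm B ^ 6) (X / nm B ^ 3) (Λ * U / nm B ^ 3) C₁ →
      ∑ i ∈ J, ∑ h ∈ rows H, ‖FB (fd ψ D ω S a (Y / nm i) t (e * i ^ 2) h) B‖ ^ 2 ≤
        C * Z ^ (11 * δ) * Λ * U * (1 + |t|) ^ C₁ * H * (nm B)⁻¹ ^ 2 := by
  obtain ⟨C₂, hC₂, h₂⟩ := step2 j hq ha hδ hδ1 hC₁
  obtain ⟨C₃, hC₃, h₃⟩ := wj_le j (half_pos hδ)
  refine ⟨2 * 2 ^ j * 2 ^ j * C₃ ^ 2 * C₂, by positivity, ?_⟩
  intro Z P U X Λ s ψ D ω S t e Y J₀ H J B hU hXU hUZ hΛ hk hd hD hB hBZ hM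
  obtain ⟨ψ', ω', hψ', hω', hF⟩ := FB_le hq hk ha hB
  have hZ : 1 ≤ Z := hU.trans hUZ
  have hβ : 1 ≤ nm B := one_le_nm hB.ne_zero
  have hβ0 : 0 < nm B := by linarith
  have hβ3 : 1 ≤ nm B ^ 3 := one_le_pow₀ hβ
  have hβ6 : 1 ≤ nm B ^ 6 := one_le_pow₀ hβ
  have hY := hd.Y_pos
  have hYX : Y ≤ X := (le_mul_of_one_le_right hY.le (one_le_nm hk.prim.ne_zero)).trans hd.Y_le
  have hΛ' : 0 ≤ Λ * U / nm B ^ 3 := by positivity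
  have hH := hd.H_ge
  have hJ := hd.J_ge
  have key : ∀ S' ∈ S.powerset, DM ψ' D ω' S' a (Y / nm B ^ 3) t e J H ≤
      C₂ * Z ^ (10 * δ) * (Y / nm B ^ 3 + Λ * U / nm B ^ 3) * (1 + |t|) ^ C₁ * H := fun S' hS' =>
    h₂ Z P (U / nm B ^ 6) _ s ψ' D ω' S' t e _ J₀ H J hZ ((div_le_self (by linarith) hβ6).trans hUZ)
      hΛ' ⟨hψ', hk.prim, hω', (Finset.card_le_card (Finset.mem_powerset.1 hS')).trans hk.card⟩
      hd.prim (hD.trans (by nlinarith)) (by positivity)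
      ((div_le_self hY.le hβ3).trans (by linarith)) hJ hH
      (by
        have := hd.lo
        rw [div_pow, ← pow_mul, ← mul_div_assoc, ← mul_div_assoc, div_mul_eq_mul_div]
        gcongr)
      hd.blk (hM.mono le_rfl le_rfl
        ((div_le_self (by positivity) hJ).trans (by gcongr)) hΛ' le_rfl le_rfl)
  have e1 : ∑ i ∈ J, ∑ h ∈ rows H, ‖FB (fd ψ D ω S a (Y / nm i) t (e * i ^ 2) h) B‖ ^ 2 ≤
      2 ^ j * wj j B ^ 2 * nm B * ∑ S' ∈ S.powerset, DM ψ' D ω' S' a (Y / nm B ^ 3) t e J H := by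
    unfold DM
    rw [Finset.sum_comm (s := S.powerset), Finset.mul_sum]
    refine Finset.sum_le_sum fun i hi => ?_
    rw [Finset.sum_comm (s := S.powerset), Finset.mul_sum]
    refine Finset.sum_le_sum fun h _ => ?_
    rw [div_right_comm]
    exact hF _ t _ h (div_pos hY (nm_pos (hd.blk i hi).1.ne_zero))
  have e2 := Finset.sum_le_card_nsmul _ _ _ key
  rw [nsmul_eq_mul] at e2
  have hw1 := one_le_wj j B
  have e3 : wj j B ^ 2 ≤ C₃ ^ 2 * Z ^ δ := by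
    calc wj j B ^ 2 ≤ (C₃ * nm B ^ (δ / 2)) ^ 2 := by
          gcongr
          exact h₃ B hB.ne_zero
      _ ≤ (C₃ * Z ^ (δ / 2)) ^ 2 := by gcongr
      _ = _ := by
          rw [mul_pow, ← Real.rpow_natCast (Z ^ _), ← Real.rpow_mul (by linarith)]
          norm_num
  have e4 : Z ^ (11 * δ) = Z ^ (10 * δ) * Z ^ δ := by
    rw [← Real.rpow_add (by linarith)]; congr 1; ring
  have e5 := mbig_fin (L := Λ * U) (by positivity) hβ0 (by linarith) (by positivity) hY.le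
    (by positivity) (by linarith) e3 (by positivity) (card_powerset_le S) (Nat.cast_nonneg _)
    (by nlinarith) (e1.trans (mul_le_mul_of_nonneg_left e2 (by positivity)))
  rw [e4]
  exact e5.trans_eq (by ring)

theorem mbig_fin2 {x y₁ y₂ A B z Θ Λ U τ H : ℝ} (hA : 0 ≤ A) (hB : 0 ≤ B) (hz : 1 ≤ z) (hΘ : 0 ≤ Θ)
    (hΛ : 0 ≤ Λ) (hU : 1 ≤ U) (hτ : 1 ≤ τ) (hH : 0 ≤ H) (hx : x ≤ 2 * y₁ + 2 * y₂)
    (h₁ : y₁ ≤ A * Θ * H) (h₂ : y₂ ≤ B * z * Λ * U * τ * H) :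
    x ≤ (1 + 2 * A + 2 * B) * z * (Θ + Λ) * U * τ * H := by
  have hW : 1 ≤ z * U * τ := one_le_mul_of_one_le_of_one_le (one_le_mul_of_one_le_of_one_le hz hU) hτ
  obtain ⟨W, hW'⟩ : ∃ W, W = z * U * τ := ⟨_, rfl⟩
  rw [← hW'] at hW
  have e1 : (1 + 2 * A + 2 * B) * z * (Θ + Λ) * U * τ * H =
      (1 + 2 * A + 2 * B) * ((Θ + Λ) * H * W) := by rw [hW']; ring
  have e2 : B * z * Λ * U * τ * H = B * (Λ * H * W) := by rw [hW']; ring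
  have a1 : Θ * H ≤ (Θ + Λ) * H * W := by
    calc Θ * H ≤ (Θ + Λ) * H := by gcongr; linarith
      _ ≤ _ := le_mul_of_one_le_right (by positivity) hW
  have a2 : Λ * H * W ≤ (Θ + Λ) * H * W := by gcongr; linarith
  have a3 : 0 ≤ (Θ + Λ) * H * W := by positivity
  have a4 := mul_le_mul_of_nonneg_left a1 hA
  have a5 := mul_le_mul_of_nonneg_left a2 hB
  rw [e1]
  rw [e2] at h₂
  rw [mul_assoc] at h₁
  linarith

/-- `big_tail` (the number of pairs `(i, h)` is `≤ 22 Θ · 11 H`), `mink` over `B` on the index set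
`J ×ˢ rows H` with weights `(N B)⁻¹`, `big_one`, `norm_gm_le`, `card_pdiv_le`, `sum_inv_le`. -/
theorem big (j : ℕ) {q : O} (hq : Lev q) {a δ C₁ : ℝ} (ha : 0 < a) (hδ : 0 < δ) (hδ1 : δ ≤ 1)
    (hC₁ : 0 ≤ C₁) : ∃ C : ℝ, 1 ≤ C ∧ ∀ (Z Θ P U X Λ : ℝ) (s : ℕ) (ψ : O → ℂ) (D : O)
      (ω : Fin j → O → ℂ) (S : Finset (Fin j)) (t : ℝ) (e : O) (Y J₀ H : ℝ) (J : Finset O),
      Θ ≤ Z → 1 ≤ U → X ≤ U → U ≤ Z → 1 ≤ Λ → Ok q P s ψ D ω S → DC (Z ^ δ) U X e D Y J₀ H J →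
      nm D * J₀ ≤ Θ →
      (∀ β : ℝ, Θ < β → MB j q (2 * a) P s (U / β ^ 6) (X / β ^ 3) (Λ * U / β ^ 3) C₁) →
      DS2 Θ ψ D ω S a Y t e J H ≤ C * Z ^ (15 * δ) * (Θ + Λ) * U * (1 + |t|) ^ C₁ * H := by
  classical
  obtain ⟨C₂, hC₂, h₂⟩ := big_tail j hq ha
  obtain ⟨C₃, hC₃, h₃⟩ := big_one j hq ha hδ hδ1 hC₁
  obtain ⟨C₄, hC₄, h₄⟩ := card_pdiv_le hδ
  obtain ⟨C₅, hC₅, h₅⟩ := sum_inv_le hδ
  refine ⟨1 + 2 * (242 * C₂ ^ 2) + 2 * (C₄ ^ 2 * C₃ * C₅ ^ 2), by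
    have : 0 ≤ 2 * (242 * C₂ ^ 2) + 2 * (C₄ ^ 2 * C₃ * C₅ ^ 2) := by positivity
    linarith, ?_⟩
  intro Z Θ P U X Λ s ψ D ω S t e Y J₀ H J hΘ hU hXU hUZ hΛ hk hd hD hM
  have hZ : 1 ≤ Z := hU.trans hUZ
  have hZ0 : 0 < Z := by linarith
  have hD1 := one_le_nm hk.prim.ne_zero
  have hY := hd.Y_pos
  have hH := hd.H_ge
  have hJ := hd.J_ge
  have hYX : Y ≤ X := (le_mul_of_one_le_right hY.le hD1).trans hd.Y_le
  have hJΘ : J₀ ≤ Θ := (le_mul_of_one_le_left (by linarith) hD1).trans hD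
  have hDZ : nm D ≤ Z := ((le_mul_of_one_le_right (by linarith) hJ).trans hD).trans hΘ
  obtain ⟨T, hT⟩ : ∃ T, T = (prims Z).filter (fun B => Θ < nm B) := ⟨_, rfl⟩
  have mT : ∀ B ∈ T, nm B ≤ Z ∧ Prim B ∧ Θ < nm B := fun B hB => by
    rw [hT, Finset.mem_filter, mem_prims] at hB
    exact ⟨hB.1.1, hB.1.2, hB.2⟩
  obtain ⟨G, hG⟩ : ∃ G : O → O × O → ℂ, G = fun B k =>
    gm Θ B * FB (fd ψ D ω S a (Y / nm k.1) t (e * k.1 ^ 2) k.2) B := ⟨_, rfl⟩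
  have hτ : 1 ≤ (1 + |t|) ^ C₁ := Real.one_le_rpow (by linarith [abs_nonneg t]) hC₁
  have hzδ : 0 < Z ^ δ := Real.rpow_pos_of_pos hZ0 _
  have hz11 : 0 < Z ^ (11 * δ) := Real.rpow_pos_of_pos hZ0 _
  have k1 := mink (J ×ˢ rows H) T G (fun B => (nm B)⁻¹)
    (M := (C₄ * Z ^ δ) ^ 2 * (C₃ * Z ^ (11 * δ) * Λ * U * (1 + |t|) ^ C₁ * H)) (by positivity)
    (fun B _ => inv_nonneg.2 (nm_nonneg B)) fun B hB => by
      obtain ⟨b1, b2, b3⟩ := mT B hB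
      have a1 := h₃ Z P U X Λ s ψ D ω S t e Y J₀ H J B hU hXU hUZ hΛ hk hd hDZ b2 b1 (hM _ b3)
      have a2 : ‖gm Θ B‖ ≤ C₄ * Z ^ δ :=
        ((norm_gm_le Θ b2.ne_zero).trans (h₄ B b2.ne_zero)).trans
          (mul_le_mul_of_nonneg_left (Real.rpow_le_rpow (nm_nonneg B) b1 hδ.le) hC₄.le)
      rw [Finset.sum_product, hG]
      simp only [norm_mul, mul_pow _ ‖FB _ _‖, ← Finset.mul_sum]
      rw [mul_assoc]
      exact mul_le_mul (pow_le_pow_left₀ (norm_nonneg _) a2 2) a1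
        (Finset.sum_nonneg fun _ _ => Finset.sum_nonneg fun _ _ => sq_nonneg _) (sq_nonneg _)
  have k2 := h₅ Z T hZ fun B hB => (mT B hB).1
  have k3 : ∑ k ∈ J ×ˢ rows H, ‖∑ B ∈ T, G B k‖ ^ 2 ≤
      C₄ ^ 2 * C₃ * C₅ ^ 2 * Z ^ (15 * δ) * Λ * U * (1 + |t|) ^ C₁ * H := by
    refine k1.trans ((mul_le_mul_of_nonneg_left (pow_le_pow_left₀ (Finset.sum_nonneg fun B _ =>
      inv_nonneg.2 (nm_nonneg B)) k2 2) (by positivity)).trans_eq ?_)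
    have : Z ^ (15 * δ) = Z ^ δ * Z ^ δ * Z ^ δ * Z ^ δ * Z ^ (11 * δ) := by
      simp only [← Real.rpow_add hZ0]; congr 1; ring
    rw [this]; ring
  have k4 : ((J ×ˢ rows H).card : ℝ) * C₂ ^ 2 ≤ 242 * C₂ ^ 2 * Θ * H := by
    have a1 := hd.blk.card_le (by linarith)
    have a2 := card_rows_le (H := H) (by linarith)
    rw [Finset.card_product, Nat.cast_mul]
    calc (J.card : ℝ) * (rows H).card * C₂ ^ 2 ≤ (22 * Θ) * (11 * H) * C₂ ^ 2 := by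
          gcongr
          · linarith
          · linarith
      _ = _ := by ring
  refine mbig_fin2 (by positivity) (by positivity) (Real.one_le_rpow hZ (by positivity)) (by linarith)
    (by linarith) hU hτ (by linarith) ?_ k4 k3
  unfold DS2
  rw [← Finset.sum_product', ← nsmul_eq_mul, ← Finset.sum_const, Finset.mul_sum, Finset.mul_sum,
    ← Finset.sum_add_distrib]
  refine Finset.sum_le_sum fun k hk' => ?_
  have hi := hd.blk k.1 (Finset.mem_product.1 hk').1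
  have hi1 := one_le_nm hi.1.ne_zero
  have a1 := h₂ Z Θ P s ψ D ω S (Y / nm k.1) t (e * k.1 ^ 2) k.2 hk hZ (by positivity)
    ((div_le_self hY.le hi1).trans (by linarith))
  rw [← hT] at a1
  have a2 := norm_add_sq_le ((∑' B : Pr, if Θ < nm B then
    gm Θ B * FB (fd ψ D ω S a (Y / nm k.1) t (e * k.1 ^ 2) k.2) B else 0) -
      ∑ B ∈ T, gm Θ B * FB (fd ψ D ω S a (Y / nm k.1) t (e * k.1 ^ 2) k.2) B)
    (∑ B ∈ T, gm Θ B * FB (fd ψ D ω S a (Y / nm k.1) t (e * k.1 ^ 2) k.2) B)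
  rw [sub_add_cancel] at a2
  have a3 := pow_le_pow_left₀ (norm_nonneg _) a1 2
  rw [hG]
  linarith

end Crest.Agent.R17.M1
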