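import Crest.Agent.R17.M1.Ident

/-!
Row 17, block M1: the coefficients produced by Lemma P are combinations of columns.
-/

set_option autoImplicit false

namespace Crest.Agent.R17.M1

open scoped ComplexConjugate

variable {j : ℕ} {q : O} {P : ℝ} {s : ℕ} {ψ : O → ℂ} {D : O} {ω : Fin j → O → ℂ}
  {S : Finset (Fin j)} {a X : ℝ}

/-- the child of a column is a combination of columns (`mu_mul'`, `mk_mul_coprime`, `LN_mul_arg`,
`LN_mul_cpow` with `s = σ + τ i - 1/2`) -/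
theorem child_col (hq : Lev q) (h : Ok q P s ψ D ω S) (ha : 0 < a) (hX : 0 < X) (ρ : O → ℂ)
    {σ : ℝ} (hσ : 0 < σ) (hσ' : σ ≤ 1 / 2) (t τ : ℝ) {l : O × O × O}
    (hl : Prim (l.1 * l.2.1 * l.2.2)) :
    ∃ κ : Finset (Fin j) → ℂ,
      (∀ S', ‖κ S'‖ ≤ wj j (l.1 * l.2.1 * l.2.2) * (X / nm (l.1 * l.2.1 * l.2.2)) ^ (σ - 1 / 2) *
        Real.exp (a ^ 2 / 8)) ∧
      ∀ m, Prim m → child (col ψ D ω S a X t) ρ (σ + τ * Complex.I) l m =
        ∑ S' ∈ S.powerset, κ S' * col (fun n => ψ n * ρ n) (D * (l.1 * l.2.1 * l.2.2)) ω S' a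
          (X / nm (l.1 * l.2.1 * l.2.2) * Real.exp (a ^ 2 * (σ - 1 / 2))) (t + τ) m := by
  classical
  set L := l.1 * l.2.1 * l.2.2 with hL
  have hL0 : L ≠ 0 := hl.ne_zero
  have hY : 0 < X / nm L := div_pos hX (nm_pos hL0)
  set z : ℂ := (σ + τ * Complex.I) - 1 / 2 with hz
  have hre : z.re = σ - 1 / 2 := by simp [hz]
  have him : z.im = τ := by simp [hz]
  set E : ℂ := ((X / nm L : ℝ) : ℂ) ^ z * Complex.exp (((a ^ 2 * z.re ^ 2 / 2 : ℝ) : ℂ) +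
    Complex.I * ((a ^ 2 * z.re * (t + z.im) : ℝ) : ℂ)) with hE
  have hEn : ‖E‖ ≤ (X / nm L) ^ (σ - 1 / 2) * Real.exp (a ^ 2 / 8) := by
    rw [hE, norm_mul, Complex.norm_cpow_eq_rpow_re_of_pos hY, hre, Complex.norm_exp]
    refine mul_le_mul_of_nonneg_left ?_ (Real.rpow_nonneg hY.le _)
    rw [Real.exp_le_exp]
    simp only [Complex.add_re, Complex.ofReal_re, Complex.mul_re, Complex.I_re, zero_mul,
      Complex.I_im, Complex.ofReal_im, mul_zero, sub_zero, add_zero]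
    have h1 : (σ - 1 / 2) ^ 2 ≤ 1 / 4 := by nlinarith
    nlinarith [mul_le_mul_of_nonneg_left h1 (sq_nonneg a)]
  refine ⟨fun S' => mu L * ψ L * one D L * mk ω (S \ S') L * E, fun S' => ?_, fun m hm => ?_⟩
  · have h1 := norm_mu_le L
    have h2 := h.tw.norm_le hq.1 L
    have h3 := norm_one_le D L
    have h4 := norm_mk_le h.wt (S \ S') L
    have h5 : ‖mu L * ψ L * one D L * mk ω (S \ S') L‖ ≤ wj j L := by
      rw [norm_mul, norm_mul, norm_mul]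
      calc ‖mu L‖ * ‖ψ L‖ * ‖one D L‖ * ‖mk ω (S \ S') L‖ ≤ 1 * 1 * 1 * wj j L := by gcongr
        _ = wj j L := by ring
    rw [norm_mul, mul_assoc (wj j L)]
    exact mul_le_mul h5 hEn (norm_nonneg _) ((norm_nonneg _).trans h5)
  · have hm0 : m ≠ 0 := hm.ne_zero
    have hLN := LN_mul_cpow ha hY (nm_pos hm0) t z
    rw [← hE, hre, him] at hLN
    simp only [child, col, cf]
    rw [← hL, ← hz, nm_mul, LN_mul_arg, mu_mul', one_mul_left, one_mul_right, h.tw.mul]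
    by_cases hc : IsCoprime L m
    · have h1 : one L m = 1 := by simp [one, hc.symm]
      rw [if_pos hc, h1, mk_mul_coprime ω S hL0 hm0 hc]
      simp only [Finset.mul_sum, Finset.sum_mul]
      refine Finset.sum_congr rfl fun S' _ => ?_
      linear_combination (mu L * mu m * ψ L * ψ m * one D L * one D m * mk ω (S \ S') L *
        mk ω S' m * ρ m) * hLN
    · have h1 : one L m = 0 := by
        simp only [one, ite_eq_right_iff]
        exact fun h' => absurd h'.symm hc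
      rw [if_neg hc, h1]
      simp

private theorem chl_Sp (S : Finset (Fin j)) (b : O → ℂ) (c : Finset (Fin j) → O → ℂ)
    (κ : Finset (Fin j) → ℂ) (hc : ∀ S' ∈ S.powerset, AdmP (c S'))
    (h : ∀ m, Prim m → b m = ∑ S' ∈ S.powerset, κ S' * c S' m) {M : ℝ} (hκ : ∀ S', ‖κ S'‖ ≤ M)
    (sg : Bool) (k : O) :
    ‖Sp sg b k‖ ^ 2 ≤ 2 ^ j * M ^ 2 * ∑ S' ∈ S.powerset, ‖Sp sg (c S') k‖ ^ 2 := by
  have h1 : Sp sg b k = ∑ S' ∈ S.powerset, κ S' * Sp sg (c S') k := by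
    simp only [Sp]
    simp only [← tsum_mul_left]
    rw [← Summable.tsum_finsetSum fun S' hS' => ((hc S' hS').summable sg k).mul_left (κ S')]
    refine tsum_congr fun n => ?_
    rw [h n n.2, Finset.sum_mul]
    exact Finset.sum_congr rfl fun S' _ => mul_assoc _ _ _
  rw [h1]
  refine (norm_sum_sq_le _ _).trans ?_
  rw [mul_assoc, Finset.mul_sum _ _ (M ^ 2)]
  refine mul_le_mul (card_powerset_le S) (Finset.sum_le_sum fun S' _ => ?_)
    (Finset.sum_nonneg fun _ _ => sq_nonneg _) (by positivity)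
  rw [norm_mul, mul_pow]
  exact mul_le_mul_of_nonneg_right (pow_le_pow_left₀ (norm_nonneg _) (hκ S') 2) (sq_nonneg _)

private theorem chl_sq {Y : ℝ} (hY : 0 < Y) (w σ a : ℝ) :
    (w * Y ^ (σ - 1 / 2) * Real.exp (a ^ 2 / 8)) ^ 2 =
      Real.exp (a ^ 2 / 4) * w ^ 2 * Y ^ (2 * σ - 1) := by
  have h1 : (Y ^ (σ - 1 / 2)) ^ 2 = Y ^ (2 * σ - 1) := by
    rw [sq, ← Real.rpow_add hY]
    congr 1
    ring
  have h2 : Real.exp (a ^ 2 / 8) ^ 2 = Real.exp (a ^ 2 / 4) := by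
    rw [sq, ← Real.exp_add]
    congr 1
    ring
  rw [mul_pow, mul_pow, h1, h2]
  ring

/-- `child_col`, `Summable.tsum_finsetSum`, `norm_sum_sq_le`, `card_powerset_le` -/
theorem child_Am (hq : Lev q) (h : Ok q P s ψ D ω S) (ha : 0 < a) (hX : 0 < X) {ρ : O → ℂ}
    (hρ : IsTw 4 ρ) {σ : ℝ} (hσ : 0 < σ) (hσ' : σ ≤ 1 / 2) (t τ : ℝ) {l : O × O × O}
    (hl : Prim (l.1 * l.2.1 * l.2.2)) (u : O) :
    ‖Sp false (child (col ψ D ω S a X t) ρ (σ + τ * Complex.I) l) u‖ ^ 2 ≤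
      2 ^ j * Real.exp (a ^ 2 / 4) * wj j (l.1 * l.2.1 * l.2.2) ^ 2 *
        (X / nm (l.1 * l.2.1 * l.2.2)) ^ (2 * σ - 1) *
        ∑ S' ∈ S.powerset, ‖Am (fun n => ψ n * ρ n) (D * (l.1 * l.2.1 * l.2.2)) ω S' a
          (X / nm (l.1 * l.2.1 * l.2.2) * Real.exp (a ^ 2 * (σ - 1 / 2))) (t + τ) u‖ ^ 2 := by
  obtain ⟨κ, hκ, hc⟩ := child_col hq h ha hX ρ hσ hσ' t τ hl
  have hY : 0 < X / nm (l.1 * l.2.1 * l.2.2) := div_pos hX (nm_pos hl.ne_zero)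
  refine (chl_Sp S _ _ κ (fun S' hS' => ?_) hc hκ false u).trans (le_of_eq ?_)
  · exact (h.sub (h.tw.mul_dvd hρ hq.four_dvd) (h.prim.mul hl) (Finset.mem_powerset.1 hS')).admP hq
      ha (by positivity) _
  · rw [chl_sq hY]
    simp only [Am]
    ring

/-- the same for the dual coefficients (`dual_false`, `AdmP.gauss`) -/
theorem child_Gm (hq : Lev q) (h : Ok q P s ψ D ω S) (ha : 0 < a) (hX : 0 < X) {ρ : O → ℂ}
    (hρ : IsTw 4 ρ) {σ : ℝ} (hσ : 0 < σ) (hσ' : σ ≤ 1 / 2) (t τ : ℝ) {l : O × O × O}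
    (hl : Prim (l.1 * l.2.1 * l.2.2)) (k : O) :
    ‖Sp true (dual false (col ψ D ω S a X t) ρ (σ + τ * Complex.I) l) k‖ ^ 2 ≤
      2 ^ j * Real.exp (a ^ 2 / 4) * wj j (l.1 * l.2.1 * l.2.2) ^ 2 *
        (X / nm (l.1 * l.2.1 * l.2.2)) ^ (2 * σ - 1) *
        ∑ S' ∈ S.powerset, ‖Gm (fun n => ψ n * ρ n) (D * (l.1 * l.2.1 * l.2.2)) ω S' a
          (X / nm (l.1 * l.2.1 * l.2.2) * Real.exp (a ^ 2 * (σ - 1 / 2))) (t + τ)
          (l.1 * l.2.2 ^ 2) k‖ ^ 2 := by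
  obtain ⟨κ, hκ, hc⟩ := child_col hq h ha hX ρ hσ hσ' t τ hl
  have hY : 0 < X / nm (l.1 * l.2.1 * l.2.2) := div_pos hX (nm_pos hl.ne_zero)
  rw [dual_false]
  refine (chl_Sp S _ (fun S' m => col (fun n => ψ n * ρ n) (D * (l.1 * l.2.1 * l.2.2)) ω S' a
    (X / nm (l.1 * l.2.1 * l.2.2) * Real.exp (a ^ 2 * (σ - 1 / 2))) (t + τ) m * gt m *
      sx (l.1 * l.2.2 ^ 2) m) κ (fun S' hS' => ?_) (fun m hm => ?_) hκ true k).trans (le_of_eq ?_)
  · exact ((h.sub (h.tw.mul_dvd hρ hq.four_dvd) (h.prim.mul hl)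
      (Finset.mem_powerset.1 hS')).admP hq ha (by positivity) _).gauss _
  · rw [hc m hm, Finset.sum_mul, Finset.sum_mul]
    exact Finset.sum_congr rfl fun S' _ => by ring
  · rw [chl_sq hY]
    simp only [Gm]
    ring

end Crest.Agent.R17.M1
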