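import Crest.Agent.R17.M1.Triv

/-!
Row 17, block M1: the dual sum as a theta sum, trivial bounds.
-/

set_option autoImplicit false

namespace Crest.Agent.R17.M1

open scoped ComplexConjugate

variable {j : ℕ}

section
variable {q : O} {P : ℝ} {s : ℕ} {ψ : O → ℂ} {D : O} {ω : Fin j → O → ℂ} {S : Finset (Fin j)}
  {a X : ℝ}

theorem cbb_fd (hq : Lev q) (h : Ok q P s ψ D ω S) (t : ℝ) (v k : O) :
    ∃ c : O → ℂ, (∀ n, ‖c n‖ ≤ 2 * wj j n) ∧
      ∀ n, fd ψ D ω S a X t v k n = c n * LN a X t (nm n) := by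
  refine ⟨fun n => conj (cb 2 n) * gam n * al n * ψ n * one D n * mk ω S n * sx v n * conj (sx k n),
    fun n => ?_, fun n => by simp only [fd]; ring⟩
  simp only [norm_mul, RCLike.norm_conj]
  have h1 := norm_cb_le 2 n
  have h2 := norm_gam_le n
  have h3 := norm_al_le n
  have h4 := h.tw.norm_le hq.1 n
  have h5 := norm_one_le D n
  have h6 := norm_mk_le h.wt S n
  have h7 := norm_sx_le v n
  have h8 := norm_sx_le k n
  have h9 := one_le_wj j n
  calc _ ≤ 1 * 2 * 1 * 1 * 1 * wj j n * 1 * 1 := by gcongr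
    _ = _ := by ring

theorem cbb_TH (hq : Lev q) (hψ : IsTw q ψ) (hω : Wt q P ω) {C : ℝ}
    (hC : ∀ n : O, n ≠ 0 → wj j n ≤ C * nm n ^ (1 / 6 : ℝ)) (k : O) {n : O} (hn : n ≠ 0) :
    ‖tau0 n * al n * ψ n * conj (sx k n) * mk ω S n‖ ≤ C * nm n ^ (1 / 3 : ℝ) := by
  simp only [norm_mul, RCLike.norm_conj]
  have h1 := norm_tau0_le n
  have h3 := norm_al_le n
  have h4 := hψ.norm_le hq.1 n
  have h6 := (norm_mk_le hω S n).trans (hC n hn)
  have h8 := norm_sx_le k n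
  have h0 := nm_pos hn
  calc _ ≤ nm n ^ (1 / 6 : ℝ) * 1 * 1 * 1 * (C * nm n ^ (1 / 6 : ℝ)) := by gcongr
    _ = C * (nm n ^ (1 / 6 : ℝ) * nm n ^ (1 / 6 : ℝ)) := by ring
    _ = _ := by rw [← Real.rpow_add h0]; norm_num

/-- `‖fd n‖ ≤ 2 wj n ‖LN‖`, `norm_tau0_le`, `sum_LN_O` -/
theorem summable_fd (hq : Lev q) (h : Ok q P s ψ D ω S) (ha : 0 < a) (hX : 0 < X) (t : ℝ) (v k : O) :
    Summable fun n : Pr => tau0 n * fd ψ D ω S a X t v k n := by
  obtain ⟨c, hc, hf⟩ := cbb_fd (a := a) (X := X) hq h t v k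
  obtain ⟨Cw, hCw, hw⟩ := wj_le j (δ := 1 / 6) (by norm_num)
  obtain ⟨C, -, hC⟩ := sum_LN_O ha (1 / 3)
  have := (hC (fun n : Pr => (n : O)) (fun n => tau0 n * c n) (2 * Cw) X t Subtype.val_injective
    (fun n hn => absurd hn (Pr_prim n).ne_zero) (fun n hn => ?_) (by positivity) hX).1.of_norm
  · exact this.congr fun n => by rw [hf, mul_assoc]
  · have h0 := nm_pos hn
    have h1 := norm_tau0_le n
    have h2 := (hc n).trans (mul_le_mul_of_nonneg_left (hw n hn) zero_le_two)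
    rw [norm_mul]
    calc _ ≤ nm n ^ (1 / 6 : ℝ) * (2 * (Cw * nm n ^ (1 / 6 : ℝ))) := by gcongr
      _ = 2 * Cw * (nm n ^ (1 / 6 : ℝ) * nm n ^ (1 / 6 : ℝ)) := by ring
      _ = _ := by rw [← Real.rpow_add h0]; norm_num

theorem summable_TH (hq : Lev q) (hψ : IsTw q ψ) (hω : Wt q P ω) (ha : 0 < a) (hX : 0 < X) (t : ℝ)
    (k : O) : Summable fun n : Pr =>
      tau0 n * al n * ψ n * conj (sx k n) * mk ω S n * LN a X t (nm n) := by
  obtain ⟨Cw, hCw, hw⟩ := wj_le j (δ := 1 / 6) (by norm_num)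
  obtain ⟨C, -, hC⟩ := sum_LN_O ha (1 / 3)
  exact (hC (fun n : Pr => (n : O)) (fun n => tau0 n * al n * ψ n * conj (sx k n) * mk ω S n) Cw X t
    Subtype.val_injective (fun n hn => absurd hn (Pr_prim n).ne_zero)
    (fun n hn => cbb_TH hq hψ hω hw k hn) hCw.le hX).1.of_norm

/-- `mu_mul_gs_one`, `tau0_sqfree`; both sides vanish termwise at even `c` (`ψ c = 0`) -/
theorem Gm_eq_FB (hq : Lev q) (hψ : IsTw q ψ) (t : ℝ) (v k : O) :
    Gm ψ D ω S a X t v k = FB (fd ψ D ω S a X t v k) 1 := by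
  rw [Gm, Sp, FB]
  refine tsum_congr fun c => ?_
  simp only [sj_true, one_pow, mul_one, col, cf, fd, gt]
  split_ifs with hs
  · by_cases h2 : IsCoprime (c : O) 2
    · rw [tau0_sqfree (Pr_prim c) hs]
      have := mu_mul_gs_one (Pr_prim c) hs h2
      rw [mul_div_assoc] at this
      linear_combination (ψ c * one D c * mk ω S c * LN a X t (nm c) * sx v c * conj (sx k c)) * this
    · rw [hψ.zero c fun h => h2 (hq.coprime_two h)]
      ring
  · rw [mu_eq_zero.2 hs]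
    ring

end

/-- trivial bound for large cubes: `‖tau0 (c B³)‖ = √N B`, `wj (c B³) ≤ C (N c N B³)^(1/6)`,
`sum_LN_O_small` with `θ = 1/6`, `σ = 2`, centre `X / N B³` -/
theorem norm_FB_le (j : ℕ) {q : O} (hq : Lev q) {a : ℝ} (ha : 0 < a) : ∃ C : ℝ, 0 < C ∧
    ∀ (P : ℝ) (s : ℕ) (ψ : O → ℂ) (D : O) (ω : Fin j → O → ℂ) (S : Finset (Fin j)) (X t : ℝ)
      (v k B : O), Ok q P s ψ D ω S → 0 < X → Prim B →
      ‖FB (fd ψ D ω S a X t v k) B‖ ≤ C * X ^ 2 * nm B ^ (-5 : ℝ) := by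
  classical
  obtain ⟨Cw, hCw, hw⟩ := wj_le j (δ := 1 / 6) (by norm_num)
  obtain ⟨C₁, -, hC₁⟩ := sum_LN_O ha (1 / 6)
  obtain ⟨C, hC0, hC⟩ := sum_LN_O_small (θ := 1 / 6) (σ := 2) ha (by norm_num)
  refine ⟨C * (2 * Cw), by positivity, fun P s ψ D ω S X t v k B h hX hB => ?_⟩
  obtain ⟨c, hc, hf⟩ := cbb_fd (a := a) (X := X) hq h t v k
  have hB0 := nm_pos hB.ne_zero
  have hY : 0 < X / nm B ^ 3 := by positivity
  set κ : Pr → ℂ := fun n => if Squarefree (n : O) then tau0 (n * B ^ 3) * c (n * B ^ 3) else 0 with hκ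
  have h0 : ∀ n : Pr, (n : O) = 0 → κ n = 0 := fun n hn => absurd hn (Pr_prim n).ne_zero
  have h1 : ∀ n : Pr, (n : O) ≠ 0 → ‖κ n‖ ≤ 2 * Cw * nm B * nm n ^ (1 / 6 : ℝ) := fun n hn => by
    have hn0 := nm_pos hn
    simp only [hκ]
    split_ifs with hs
    · have h2 := (hc (n * B ^ 3)).trans (mul_le_mul_of_nonneg_left
        (hw _ (mul_ne_zero hn (pow_ne_zero 3 hB.ne_zero))) zero_le_two)
      rw [norm_mul, norm_tau0 (Pr_prim n) hB hs]
      refine (mul_le_mul_of_nonneg_left h2 (Real.sqrt_nonneg _)).trans (le_of_eq ?_)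
      have e1 : (nm B ^ 3) ^ (1 / 6 : ℝ) = Real.sqrt (nm B) := by
        rw [Real.sqrt_eq_rpow, ← Real.rpow_natCast, ← Real.rpow_mul hB0.le]
        norm_num
      rw [nm_mul, nm_pow, Real.mul_rpow hn0.le (by positivity), e1]
      linear_combination (2 * Cw * nm n ^ (1 / 6 : ℝ)) * Real.mul_self_sqrt hB0.le
    · rw [norm_zero]
      positivity
  have e : FB (fd ψ D ω S a X t v k) B = ∑' n : Pr, κ n * LN a (X / nm B ^ 3) t (nm n) := by
    rw [FB]
    refine tsum_congr fun n => ?_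
    simp only [hκ]
    split_ifs
    · rw [hf, nm_mul, nm_pow, mul_comm (nm (n : O)), LN_mul_arg, mul_assoc]
    · rw [zero_mul]
  rw [e]
  refine (norm_tsum_le_tsum_norm (hC₁ (fun n : Pr => (n : O)) κ _ _ t Subtype.val_injective h0 h1
    (by positivity) hY).1).trans ((hC (fun n : Pr => (n : O)) κ _ _ t Subtype.val_injective h0 h1
    (by positivity) hY).trans (le_of_eq ?_))
  rw [Real.rpow_two, Real.rpow_neg hB0.le, show (5 : ℝ) = (5 : ℕ) by norm_num, Real.rpow_natCast]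
  field_simp

/-- trivial bound for short theta sums (`sum_LN_O` with `θ = 1/3`) -/
theorem norm_TH_le (j : ℕ) {q : O} (hq : Lev q) {a : ℝ} (ha : 0 < a) : ∃ C : ℝ, 0 < C ∧
    ∀ (P : ℝ) (ψ : O → ℂ) (ω : Fin j → O → ℂ) (S : Finset (Fin j)) (X t : ℝ) (k : O),
      IsTw q ψ → Wt q P ω → 0 < X → X ≤ 1 → ‖TH ψ ω S a X t k‖ ≤ C * X := by
  obtain ⟨Cw, hCw, hw⟩ := wj_le j (δ := 1 / 6) (by norm_num)
  obtain ⟨C, hC0, hC⟩ := sum_LN_O ha (1 / 3)
  refine ⟨C * Cw, by positivity, fun P ψ ω S X t k hψ hω hX hX1 => ?_⟩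
  obtain ⟨h1, h2⟩ := hC (fun n : Pr => (n : O)) (fun n => tau0 n * al n * ψ n * conj (sx k n) * mk ω S n) Cw X t
    Subtype.val_injective (fun n hn => absurd hn (Pr_prim n).ne_zero)
    (fun n hn => cbb_TH hq hψ hω hw k hn) hCw.le hX
  refine ((norm_tsum_le_tsum_norm h1).trans h2).trans ?_
  refine mul_le_mul_of_nonneg_left ?_ (by positivity)
  exact (Real.rpow_le_rpow_of_exponent_ge hX hX1 (by norm_num)).trans_eq (Real.rpow_one X)

end Crest.Agent.R17.M1
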