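import Crest.Agent.R17.M1.CubeB

/-!
Row 17, block M1: pulling a cube out of the dual sum.
-/

set_option autoImplicit false

namespace Crest.Agent.R17.M1

open scoped ComplexConjugate

variable {j : ℕ}

private theorem cc_bound {K N W : ℝ} {π : Type*} (A : Finset π) (c : ℂ) (m G : π → ℂ)
    (hc : ‖c‖ ^ 2 ≤ N) (hA : (A.card : ℝ) ≤ K) (hm : ∀ p ∈ A, ‖m p‖ ≤ W) :
    ‖c * ∑ p ∈ A, m p * G p‖ ^ 2 ≤ K * W ^ 2 * N * ∑ p ∈ A, ‖G p‖ ^ 2 := by
  have hN : 0 ≤ N := (sq_nonneg _).trans hc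
  have hK : 0 ≤ K := (Nat.cast_nonneg _).trans hA
  have h1 : ∑ p ∈ A, ‖m p * G p‖ ^ 2 ≤ W ^ 2 * ∑ p ∈ A, ‖G p‖ ^ 2 := by
    rw [Finset.mul_sum]
    refine Finset.sum_le_sum fun p hp => ?_
    rw [norm_mul, mul_pow]
    exact mul_le_mul_of_nonneg_right (pow_le_pow_left₀ (norm_nonneg _) (hm p hp) 2) (sq_nonneg _)
  have h0 : 0 ≤ ∑ p ∈ A, ‖m p * G p‖ ^ 2 := Finset.sum_nonneg fun _ _ => sq_nonneg _
  have h2 : ‖∑ p ∈ A, m p * G p‖ ^ 2 ≤ K * (W ^ 2 * ∑ p ∈ A, ‖G p‖ ^ 2) :=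
    (norm_sum_sq_le A _).trans (mul_le_mul hA h1 h0 hK)
  rw [norm_mul, mul_pow]
  calc ‖c‖ ^ 2 * ‖∑ p ∈ A, m p * G p‖ ^ 2 ≤ N * (K * (W ^ 2 * ∑ p ∈ A, ‖G p‖ ^ 2)) :=
        mul_le_mul hc h2 (sq_nonneg _) hN
    _ = _ := by ring

private theorem cc_norm {x y : ℂ} {N : ℝ} (hx : ‖x‖ ≤ N) (hy : ‖y‖ ≤ 1) : ‖x * y‖ ≤ N := by
  rw [norm_mul]
  exact (mul_le_mul hx hy (norm_nonneg _) ((norm_nonneg _).trans hx)).trans (mul_one _).le

private theorem cc_sq {x : ℂ} {B : O} (h : ‖x‖ ≤ Real.sqrt (nm B)) : ‖x‖ ^ 2 ≤ nm B := by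
  have := pow_le_pow_left₀ (norm_nonneg _) h 2
  rwa [Real.sq_sqrt (nm_nonneg B)] at this

private theorem cc_sqrt (B : O) : ‖(Real.sqrt (nm B) : ℂ)‖ ≤ Real.sqrt (nm B) := by
  rw [Complex.norm_real, Real.norm_of_nonneg (Real.sqrt_nonneg _)]

private theorem cc_LN (a X t : ℝ) (n B : O) :
    LN a X t (nm (n * B ^ 3)) = LN a (X / nm B ^ 3) t (nm n) := by
  rw [nm_mul, nm_pow, mul_comm, LN_mul_arg]

private theorem cc_row {n : O} (hn : IsCoprime n 6) (D v k : O) :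
    conj (sx (k * v ^ 5 * D ^ 6) n) = one D n * sx v n * conj (sx k n) := by
  rw [sx_mul_left, sx_mul_left, sx_pow_left v n (by norm_num), sx_pow_left D n (by norm_num),
    ← conj_sx, sx_pow_six, map_mul, map_mul, Complex.conj_conj, one]
  by_cases h : IsCoprime n D
  · rw [if_pos ⟨hn, h.symm⟩, if_pos h, map_one]; ring
  · rw [if_neg (fun h' => h h'.2.symm), if_neg h, map_zero]; ring

private theorem cc_cb (n : O) : conj (cb 2 n) = cb 4 n := by
  rw [conj_cb, ← cb_pow_left 2 n (by norm_num : (2 : ℕ) ≠ 0)]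
  norm_num

section
variable {q : O} {P : ℝ} {s : ℕ} {ψ : O → ℂ} {D : O} {ω : Fin j → O → ℂ} {S : Finset (Fin j)}
  {a X : ℝ}

/-- If `B` is not prime to `q` the left side vanishes.  Otherwise `ψ' n = ψ n · eps (B³) n`
(`IsTw.mul_eps`), `ω' = off ω B`; `tau0_mul_cube`, `gam_mul`, `mk_cube_mul`, `LN_mul_arg`,
`Gm_eq_FB`, `norm_sum_sq_le`. -/
theorem FB_le (hq : Lev q) (h : Ok q P s ψ D ω S) (ha : 0 < a) {B : O} (hB : Prim B) :
    ∃ (ψ' : O → ℂ) (ω' : Fin j → O → ℂ), IsTw q ψ' ∧ Wt q P ω' ∧ ∀ (X t : ℝ) (v k : O), 0 < X →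
      ‖FB (fd ψ D ω S a X t v k) B‖ ^ 2 ≤ 2 ^ j * wj j B ^ 2 * nm B *
        ∑ S' ∈ S.powerset, ‖Gm ψ' D ω' S' a (X / nm B ^ 3) t v k‖ ^ 2 := by
  classical
  by_cases hBq : IsCoprime B q
  swap
  · refine ⟨ψ, ω, h.tw, h.wt, fun X t v k hX => ?_⟩
    have h0 : FB (fd ψ D ω S a X t v k) B = 0 := by
      have : ∀ c : O, ψ (c * B ^ 3) = 0 := fun c => by
        rw [h.tw.mul, h.tw.map_pow, h.tw.zero B hBq]; simp
      simp [FB, fd, this]
    rw [h0, norm_zero, zero_pow two_ne_zero]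
    have := nm_nonneg B
    exact mul_nonneg (by positivity) (Finset.sum_nonneg fun _ _ => sq_nonneg _)
  have hB2 : IsCoprime (B ^ 3) 2 := (hq.coprime_two hBq).pow_left
  have hψ' : IsTw q fun n => ψ n * eps (B ^ 3) n := h.tw.mul_eps hq.four_dvd hB2
  refine ⟨fun n => ψ n * eps (B ^ 3) n, off ω B, hψ', h.wt.off B, fun X t v k hX => ?_⟩
  have hBn : 0 < nm B := nm_pos hB.ne_zero
  have hX' : 0 < X / nm B ^ 3 := by positivity
  set K : ℂ := (Real.sqrt (nm B) : ℂ) * conj (cb 2 (B ^ 3)) * gam (B ^ 3) * al (B ^ 3) *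
    ψ (B ^ 3) * one D (B ^ 3) * sx v (B ^ 3) * conj (sx k (B ^ 3)) with hK
  set g : Finset (Fin j) → O → ℂ := fun S' c => if Squarefree c then tau0 c *
    fd (fun n => ψ n * eps (B ^ 3) n) D (off ω B) S' a (X / nm B ^ 3) t v k c else 0 with hg
  have hterm : ∀ c : Pr, (if Squarefree (c : O) then
      tau0 (c * B ^ 3) * fd ψ D ω S a X t v k (c * B ^ 3) else 0) =
      K * ∑ S' ∈ S.powerset, mk ω (S \ S') B * g S' c := by
    intro c
    by_cases hs : Squarefree (c : O)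
    swap
    · simp [hg, hs]
    simp only [hg, if_pos hs]
    by_cases hc : IsCoprime (c : O) q
    swap
    · simp [fd, h.tw.mul, h.tw.zero _ hc]
    rw [tau0_mul_cube _ hB, fd, cb_mul_right, gam_mul (hq.coprime_two hc) hB2, al_mul, h.tw.mul,
      one_mul_right, mk_cube_mul ω S hB.ne_zero (Pr_prim c).ne_zero, cc_LN, sx_mul_right,
      sx_mul_right, map_mul, map_mul, eps_comm]
    simp only [Finset.mul_sum, Finset.sum_mul, fd, hK]
    exact Finset.sum_congr rfl fun S' _ => by ring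
  have hsum : ∀ S' ∈ S.powerset, Summable fun c : Pr => g S' c := by
    intro S' hS'
    have hok : Ok q P s (fun n => ψ n * eps (B ^ 3) n) D (off ω B) S' :=
      ⟨hψ', h.prim, h.wt.off B, (Finset.card_le_card (Finset.mem_powerset.1 hS')).trans h.card⟩
    refine Summable.of_norm_bounded (summable_fd hq hok ha hX' t v k).norm fun c => ?_
    simp only [hg]
    split_ifs
    · exact le_rfl
    · simp only [norm_zero, norm_nonneg]
  have hG : ∀ S', Gm (fun n => ψ n * eps (B ^ 3) n) D (off ω B) S' a (X / nm B ^ 3) t v k =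
      ∑' c : Pr, g S' c := by
    intro S'
    rw [Gm_eq_FB hq hψ', FB]
    simp only [hg, one_pow, mul_one]
  have hF : FB (fd ψ D ω S a X t v k) B = K * ∑ S' ∈ S.powerset, mk ω (S \ S') B *
      Gm (fun n => ψ n * eps (B ^ 3) n) D (off ω B) S' a (X / nm B ^ 3) t v k := by
    rw [FB, tsum_congr hterm, tsum_mul_left,
      Summable.tsum_finsetSum fun S' hS' => (hsum S' hS').mul_left _]
    simp only [tsum_mul_left, hG]
  rw [hF]
  refine cc_bound _ _ _ _ (cc_sq ?_) (card_powerset_le S) fun S' _ => norm_mk_le h.wt _ _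
  refine cc_norm (cc_norm (cc_norm (cc_norm (cc_norm (cc_norm (cc_norm (cc_sqrt B) ?_) ?_) ?_) ?_)
    ?_) ?_) ?_
  · rw [Complex.norm_conj]; exact norm_cb_le _ _
  · exact (norm_gam hB2).le
  · exact norm_al_le _
  · exact h.tw.norm_le hq.1 _
  · exact norm_one_le _ _
  · exact norm_sx_le _ _
  · rw [Complex.norm_conj]; exact norm_sx_le _ _

/-- `Ψ ρ n = ψ n · cb 4 n · ρ n` (`IsTw.mul_cb`, `IsTw.mul_dvd`; `conj (cb 2 n) = cb 4 n`),
`exists_gam_expand` at `n b³`, `card_Tw_le` (`≤ 16`), `ω' = off ω b`, and for `n` prime to `6`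
`one D n · sx v n · conj (sx k n) = conj (sx (k v⁵ D⁶) n)` (`conj_sx`, `sx_pow_six`). -/
theorem GB_le (hq : Lev q) (h : Ok q P s ψ D ω S) (ha : 0 < a) {b : O} (hb : Prim b) :
    ∃ (Ψ : (O → ℂ) → O → ℂ) (ω' : Fin j → O → ℂ), (∀ ρ ∈ Tw 4, IsTw q (Ψ ρ)) ∧ Wt q P ω' ∧
      ∀ (X t : ℝ) (v k : O), 0 < X →
      ‖GB (fd ψ D ω S a X t v k) b‖ ^ 2 ≤ 16 * 2 ^ j * wj j b ^ 2 * nm b *
        ∑ ρ ∈ Tw 4, ∑ S' ∈ S.powerset,
          ‖TH (Ψ ρ) ω' S' a (X / nm b ^ 3) t (k * v ^ 5 * D ^ 6)‖ ^ 2 := by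
  classical
  have h4 : (4 : O) ≠ 0 := by norm_num
  have hΨ : ∀ ρ ∈ Tw 4, IsTw q fun n => ψ n * cb 4 n * ρ n := fun ρ hρ =>
    (h.tw.mul_cb (k := 1) hq (by simpa using hq.four_dvd)).mul_dvd ((mem_Tw h4).1 hρ) hq.four_dvd
  refine ⟨fun ρ n => ψ n * cb 4 n * ρ n, off ω b, hΨ, h.wt.off b, fun X t v k hX => ?_⟩
  obtain ⟨c, hc1, hc⟩ := exists_gam_expand
  have hbn : 0 < nm b := nm_pos hb.ne_zero
  have hX' : 0 < X / nm b ^ 3 := by positivity
  set K : ℂ := (Real.sqrt (nm b) : ℂ) * conj (cb 2 (b ^ 3)) * al (b ^ 3) *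
    ψ (b ^ 3) * one D (b ^ 3) * sx v (b ^ 3) * conj (sx k (b ^ 3)) with hK
  set g : (O → ℂ) × Finset (Fin j) → O → ℂ := fun p n => tau0 n * al n *
    (ψ n * cb 4 n * p.1 n) * conj (sx (k * v ^ 5 * D ^ 6) n) * mk (off ω b) p.2 n *
      LN a (X / nm b ^ 3) t (nm n) with hg
  set m : (O → ℂ) × Finset (Fin j) → ℂ := fun p => mk ω (S \ p.2) b * c p.1 * p.1 (b ^ 3) with hm
  have hterm : ∀ n : Pr, tau0 (n * b ^ 3) * fd ψ D ω S a X t v k (n * b ^ 3) =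
      K * ∑ p ∈ Tw 4 ×ˢ S.powerset, m p * g p n := by
    intro n
    by_cases hn : IsCoprime (n : O) q
    swap
    · simp [fd, hg, h.tw.mul, h.tw.zero _ hn]
    by_cases hbq : IsCoprime b q
    swap
    · simp [fd, hK, h.tw.mul, h.tw.map_pow, h.tw.zero _ hbq]
    have h2 : IsCoprime ((n : O) * b ^ 3) 2 :=
      (hq.coprime_two hn).mul_left (hq.coprime_two hbq).pow_left
    rw [tau0_mul_cube _ hb, fd, cb_mul_right, hc _ h2, al_mul, h.tw.mul,
      one_mul_right, mk_cube_mul ω S hb.ne_zero (Pr_prim n).ne_zero, cc_LN, sx_mul_right,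
      sx_mul_right, map_mul, map_mul, cc_cb (n : O), Finset.sum_product]
    simp only [hg, hm, hK, cc_row (hq.coprime_six hn)]
    rw [Finset.sum_congr rfl fun ρ hρ => by rw [((mem_Tw h4).1 hρ).mul]]
    simp only [Finset.mul_sum, Finset.sum_mul]
    rw [Finset.sum_comm]
    exact Finset.sum_congr rfl fun ρ _ => Finset.sum_congr rfl fun S' _ => by ring
  have hsum : ∀ p ∈ Tw 4 ×ˢ S.powerset, Summable fun n : Pr => g p n := fun p hp =>
    summable_TH (S := p.2) hq (hΨ p.1 (Finset.mem_product.1 hp).1) (h.wt.off b) ha hX' t _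
  have hF : GB (fd ψ D ω S a X t v k) b = K * ∑ p ∈ Tw 4 ×ˢ S.powerset, m p *
      TH (fun n => ψ n * cb 4 n * p.1 n) (off ω b) p.2 a (X / nm b ^ 3) t (k * v ^ 5 * D ^ 6) := by
    rw [GB, tsum_congr hterm, tsum_mul_left,
      Summable.tsum_finsetSum fun p hp => (hsum p hp).mul_left _]
    simp only [tsum_mul_left, hg, TH]
  rw [hF, ← Finset.sum_product']
  refine cc_bound _ _ _ _ (cc_sq ?_) ?_ fun p hp => ?_
  · refine cc_norm (cc_norm (cc_norm (cc_norm (cc_norm (cc_norm (cc_sqrt b) ?_) ?_) ?_)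
      ?_) ?_) ?_
    · rw [Complex.norm_conj]; exact norm_cb_le _ _
    · exact norm_al_le _
    · exact h.tw.norm_le hq.1 _
    · exact norm_one_le _ _
    · exact norm_sx_le _ _
    · rw [Complex.norm_conj]; exact norm_sx_le _ _
  · rw [Finset.card_product, Nat.cast_mul]
    have h16 : ((Tw 4).card : ℝ) ≤ 16 := by
      refine (card_Tw_le h4).trans (le_of_eq ?_)
      have := nm_natCast 4
      norm_num at this
      exact this
    exact mul_le_mul h16 (card_powerset_le S) (Nat.cast_nonneg _) (by norm_num)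
  · exact cc_norm (cc_norm (norm_mk_le h.wt _ _) (hc1 _))
      (((mem_Tw h4).1 (Finset.mem_product.1 hp).1).norm_le h4 _)

end

end Crest.Agent.R17.M1
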