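import Crest.Agent.R17.P.LemP

/-!
Row 17, block M1 (owner helper94): definitions.  FROZEN.

Everything is written with ONE centre `X` (the total length of the column `n = n₀ p₁ ⋯ p_s`), the
slots enter through the marking function `mk ω S n = ∑ ∏_{i ∈ S} ω i (p i)` (sum over the injective
choices of primary primes `p i ∣ n`).  All bounds are linear in `X`, for all `X > 0`.
-/

set_option autoImplicit false

namespace Crest.Agent.R17.M1

open scoped ComplexConjugate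

variable {j : ℕ}

/-- coefficient of `∏_{i ∈ S} x_i` in `∏_{p ∈ F} (1 + ∑_i ω i p · x_i)`; use it only through the
lemmas of `M1/Mk.lean` -/
noncomputable def mkF (ω : Fin j → O → ℂ) (S : Finset (Fin j)) (F : Finset O) : ℂ :=
  MvPolynomial.coeff (∑ i ∈ S, Finsupp.single i 1)
    (∏ p ∈ F, (1 + ∑ i, MvPolynomial.C (ω i p) * MvPolynomial.X i : MvPolynomial (Fin j) ℂ))

/-- the marking function -/
noncomputable def mk (ω : Fin j → O → ℂ) (S : Finset (Fin j)) (n : O) : ℂ := mkF ω S (pfs n)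

/-- slot weights -/
def Wt (q : O) (P : ℝ) (ω : Fin j → O → ℂ) : Prop :=
  ∀ i p, ‖ω i p‖ ≤ 1 ∧ (ω i p ≠ 0 → IsCoprime p q ∧ nm p ≤ P)

open Classical in
/-- the weights with the primes dividing `B` removed -/
noncomputable def off (ω : Fin j → O → ℂ) (B : O) : Fin j → O → ℂ :=
  fun i p => if p ∣ B then 0 else ω i p

/-- the price of a mask -/
noncomputable def w4 (D : O) : ℝ := 4 ^ (pfs D).card

/-- the price of absorbing slots into a label -/
noncomputable def wj (j : ℕ) (L : O) : ℝ := (1 + j : ℝ) ^ (pfs L).card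

/-- admissible data: character, mask, weights, at most `s` slots -/
structure Ok (q : O) (P : ℝ) (s : ℕ) (ψ : O → ℂ) (D : O) (ω : Fin j → O → ℂ)
    (S : Finset (Fin j)) : Prop where
  tw : IsTw q ψ
  prim : Prim D
  wt : Wt q P ω
  card : S.card ≤ s

/-- the arithmetic part of the coefficients -/
noncomputable def cf (ψ : O → ℂ) (D : O) (ω : Fin j → O → ℂ) (S : Finset (Fin j)) (n : O) : ℂ :=
  mu n * ψ n * one D n * mk ω S n

/-- the column coefficients -/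
noncomputable def col (ψ : O → ℂ) (D : O) (ω : Fin j → O → ℂ) (S : Finset (Fin j)) (a X t : ℝ)
    (n : O) : ℂ :=
  cf ψ D ω S n * LN a X t (nm n)

/-- the marked Möbius sum at the row `u` -/
noncomputable def Am (ψ : O → ℂ) (D : O) (ω : Fin j → O → ℂ) (S : Finset (Fin j)) (a X t : ℝ)
    (u : O) : ℂ :=
  Sp false (col ψ D ω S a X t) u

/-- the dual sum at the row `h`, twisted by `χ(v)` -/
noncomputable def Gm (ψ : O → ℂ) (D : O) (ω : Fin j → O → ℂ) (S : Finset (Fin j)) (a X t : ℝ)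
    (v h : O) : ℂ :=
  Sp true (fun m => col ψ D ω S a X t m * gt m * sx v m) h

/-- primal bound without mask -/
def PB (j : ℕ) (q : O) (a P : ℝ) (s : ℕ) (U X Λ C₁ : ℝ) : Prop :=
  ∀ (ψ : O → ℂ) (ω : Fin j → O → ℂ) (S : Finset (Fin j)) (X' t : ℝ), Ok q P s ψ 1 ω S → 0 < X' →
    X' ≤ X → ∑ u ∈ rows U, ‖Am ψ 1 ω S a X' t u‖ ^ 2 ≤ Λ * (1 + |t|) ^ C₁ * X'

/-- primal bound with masks -/
def MB (j : ℕ) (q : O) (a P : ℝ) (s : ℕ) (U X Λ C₁ : ℝ) : Prop :=
  ∀ (ψ : O → ℂ) (D : O) (ω : Fin j → O → ℂ) (S : Finset (Fin j)) (X' t : ℝ), Ok q P s ψ D ω S →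
    0 < X' → X' ≤ X → ∑ u ∈ rows U, ‖Am ψ D ω S a X' t u‖ ^ 2 ≤ w4 D * Λ * (1 + |t|) ^ C₁ * X'

/-- the dual moment: Möbius labels `i ∈ J`, rows `h` -/
noncomputable def DM (ψ : O → ℂ) (D : O) (ω : Fin j → O → ℂ) (S : Finset (Fin j)) (a Y t : ℝ)
    (e : O) (J : Finset O) (H : ℝ) : ℝ :=
  ∑ i ∈ J, ∑ h ∈ rows H, ‖Gm ψ D ω S a (Y / nm i) t (e * i ^ 2) h‖ ^ 2

/-- a dyadic block of primary elements -/
def Blk (J₀ : ℝ) (J : Finset O) : Prop := ∀ i ∈ J, Prim i ∧ J₀ ≤ nm i ∧ nm i ≤ 2 * J₀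

/-- the ranges of the dual moments produced by the first Poisson summation -/
structure DC (T U X : ℝ) (e D : O) (Y J₀ H : ℝ) (J : Finset O) : Prop where
  prim : Prim e
  le : nm e ≤ nm D
  Y_pos : 0 < Y
  Y_le : Y * nm D ≤ X
  J_ge : 1 ≤ J₀
  J_le : nm D * J₀ ≤ X * T
  H_ge : 1 ≤ H
  lo : T * Y ^ 2 * nm e ≤ H * U
  hi : H * U ≤ T * X ^ 2
  blk : Blk J₀ J

/-- dual bound -/
def DB (j : ℕ) (q : O) (a P : ℝ) (s : ℕ) (T U X Λ C₁ : ℝ) : Prop :=
  ∀ (ψ : O → ℂ) (D : O) (ω : Fin j → O → ℂ) (S : Finset (Fin j)) (t : ℝ) (e : O) (Y J₀ H : ℝ)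
    (J : Finset O), Ok q P s ψ D ω S → DC T U X e D Y J₀ H J →
    DM ψ D ω S a Y t e J H ≤ Λ * (1 + |t|) ^ C₁ * H

/-- the merged row of `(i, e₂, f₂, u)` -/
noncomputable def row (e : O) (k : O × O × O × O) : O :=
  k.2.2.2 * (e * k.1 ^ 2) * k.2.1 * k.2.2.1 ^ 2

/-! ### cubes -/

open Classical in
/-- the part of `∑ tau0 n · f n` with cube part `B` -/
noncomputable def FB (f : O → ℂ) (B : O) : ℂ :=
  ∑' c : Pr, if Squarefree (c : O) then tau0 (c * B ^ 3) * f (c * B ^ 3) else 0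

/-- the part of `∑ tau0 n · f n` with `b³ ∣ n` -/
noncomputable def GB (f : O → ℂ) (b : O) : ℂ := ∑' n : Pr, tau0 (n * b ^ 3) * f (n * b ^ 3)

open Classical in
/-- primary elements of norm at most `X` -/
noncomputable def prims (X : ℝ) : Finset O := (ball X).filter Prim

theorem mem_prims {X : ℝ} {n : O} : n ∈ prims X ↔ nm n ≤ X ∧ Prim n := by simp [prims]

open Classical in
/-- primary primes of norm at most `X` -/
noncomputable def prs (X : ℝ) : Finset O := (ball X).filter fun p => Prime p ∧ Prim p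

theorem mem_prs {X : ℝ} {p : O} : p ∈ prs X ↔ nm p ≤ X ∧ Prime p ∧ Prim p := by simp [prs]

open Classical in
/-- truncated Möbius sum -/
noncomputable def gm (Θ : ℝ) (B : O) : ℂ := ∑ b ∈ prims Θ, if b ∣ B then mu b else 0

/-- the dual summand with `tau0` taken out -/
noncomputable def fd (ψ : O → ℂ) (D : O) (ω : Fin j → O → ℂ) (S : Finset (Fin j)) (a X t : ℝ)
    (v h n : O) : ℂ :=
  conj (cb 2 n) * gam n * al n * ψ n * one D n * mk ω S n * LN a X t (nm n) * sx v n *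
    conj (sx h n)

/-- the marked theta sum with one centre -/
noncomputable def TH (ψ : O → ℂ) (ω : Fin j → O → ℂ) (S : Finset (Fin j)) (a X t : ℝ) (k : O) : ℂ :=
  ∑' n : Pr, tau0 n * al n * ψ n * conj (sx k n) * mk ω S n * LN a X t (nm n)

/-- the small-cube part of the dual moment -/
noncomputable def DS1 (Θ : ℝ) (ψ : O → ℂ) (D : O) (ω : Fin j → O → ℂ) (S : Finset (Fin j))
    (a Y t : ℝ) (e : O) (J : Finset O) (H : ℝ) : ℝ :=
  ∑ i ∈ J, ∑ h ∈ rows H,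
    ‖∑ b ∈ prims Θ, mu b * GB (fd ψ D ω S a (Y / nm i) t (e * i ^ 2) h) b‖ ^ 2

open Classical in
/-- the large-cube part of the dual moment -/
noncomputable def DS2 (Θ : ℝ) (ψ : O → ℂ) (D : O) (ω : Fin j → O → ℂ) (S : Finset (Fin j))
    (a Y t : ℝ) (e : O) (J : Finset O) (H : ℝ) : ℝ :=
  ∑ i ∈ J, ∑ h ∈ rows H,
    ‖∑' B : Pr, if Θ < nm B then gm Θ B * FB (fd ψ D ω S a (Y / nm i) t (e * i ^ 2) h) B else 0‖ ^ 2

/-! ### product form -/

/-- a prime sum -/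
noncomputable def slot (P : ℝ) (w : O → ℂ) (u : O) : ℂ := ∑ p ∈ prs P, w p * sx u p

/-- bound with `m` slots still in product form -/
def RB (j : ℕ) (q : O) (a P : ℝ) (s m : ℕ) (U X Λ C₁ : ℝ) : Prop :=
  ∀ (ψ : O → ℂ) (D : O) (ω : Fin j → O → ℂ) (S T : Finset (Fin j)) (X' t : ℝ),
    Ok q P (s - m) ψ D ω S → Disjoint S T → T.card = m → 0 < X' → X' * P ^ m ≤ X →
    ∑ u ∈ rows U, ‖Am ψ D ω S a X' t u * ∏ i ∈ T, slot P (ω i) u‖ ^ 2 ≤
      w4 D ^ (1 + m) * Λ * (1 + |t|) ^ C₁ * (X' * P ^ m)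

/-- dyadic index: `2 ^ blk n ≤ N n < 2 ^ (blk n + 1)` -/
noncomputable def blk (n : O) : ℕ := Nat.log 2 (nN n)

/-- number of dyadic blocks below `W` -/
noncomputable def nblk (W : ℝ) : ℕ := Nat.log 2 ⌊W⌋₊ + 1

end Crest.Agent.R17.M1
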