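import Crest.Agent.R17.M1.Mask

/-!
Row 17, block M1: dropping a slot costs `P`.
-/

set_option autoImplicit false

namespace Crest.Agent.R17.M1

variable {j : ℕ}

/-- Recipe: `|S| ≤ s`: monotone.  Otherwise `S = insert i S'`, `Am_insert`, `mink` with weights
`(√N p)⁻¹`, `w4_mul_prime_le`, `sum_inv_sqrt_le`. -/
theorem MB.drop (j : ℕ) {q : O} (hq : Lev q) {a : ℝ} (ha : 0 < a) : ∃ C : ℝ, 1 ≤ C ∧
    ∀ (P U X Λ C₁ : ℝ) (s : ℕ), 1 ≤ P → 0 ≤ Λ → MB j q a P s U X Λ C₁ →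
      MB j q a P (s + 1) U X (C * P * Λ) C₁ := by
  classical
  obtain ⟨C, hC1, hC⟩ := sum_inv_sqrt_le
  refine ⟨4 * C, by linarith, ?_⟩
  intro P U X Λ C₁ s hP hΛ h ψ D ω S X' t hok hX0 hX
  have hw : 0 ≤ w4 D := zero_le_one.trans (one_le_w4 D)
  have ht : 0 ≤ (1 + |t|) ^ C₁ := by positivity
  by_cases hS : S.card ≤ s
  · refine (h ψ D ω S X' t ⟨hok.tw, hok.prim, hok.wt, hS⟩ hX0 hX).trans ?_
    have h1 : 1 ≤ 4 * C * P := by nlinarith
    have h2 : Λ ≤ 4 * C * P * Λ := le_mul_of_one_le_left hΛ h1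
    gcongr
  · obtain ⟨i, hi⟩ : S.Nonempty := Finset.card_pos.1 (by omega)
    have hcard : (S.erase i).card ≤ s := by
      have := hok.card
      rw [Finset.card_erase_of_mem hi]
      omega
    have hok' : Ok q P s ψ D ω (S.erase i) := ⟨hok.tw, hok.prim, hok.wt, hcard⟩
    have hA : ∀ u, ‖Am ψ D ω S a X' t u‖ = ‖∑ p ∈ prs P, ω i p * ψ p * one D p * sx u p *
        Am ψ (D * p) ω (S.erase i) a (X' / nm p) t u‖ := by
      intro u
      have := Am_insert hq hok' ha hX0 (Finset.notMem_erase i S) t u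
      rw [Finset.insert_erase hi] at this
      rw [this, norm_neg]
    simp only [hA]
    have hM : 0 ≤ 4 * w4 D * Λ * (1 + |t|) ^ C₁ * X' := by positivity
    refine (mink (rows U) (prs P) (fun p u => ω i p * ψ p * one D p * sx u p *
        Am ψ (D * p) ω (S.erase i) a (X' / nm p) t u) (fun p => (Real.sqrt (nm p))⁻¹) hM
        (fun p _ => by positivity) ?_).trans ?_
    · intro p hp
      obtain ⟨-, hp1, hp2⟩ := mem_prs.1 hp
      have hn : 1 ≤ nm p := one_le_nm hp1.ne_zero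
      have hn0 : 0 < nm p := by linarith
      have hokp : Ok q P s ψ (D * p) ω (S.erase i) :=
        ⟨hok.tw, hok.prim.mul hp2, hok.wt, hcard⟩
      have h1 := h ψ (D * p) ω (S.erase i) (X' / nm p) t hokp (div_pos hX0 hn0)
        ((div_le_self hX0.le hn).trans hX)
      have h2 : w4 (D * p) ≤ 4 * w4 D := w4_mul_prime_le hok.prim.ne_zero hp1 hp2
      calc ∑ u ∈ rows U, ‖ω i p * ψ p * one D p * sx u p *
              Am ψ (D * p) ω (S.erase i) a (X' / nm p) t u‖ ^ 2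
          ≤ ∑ u ∈ rows U, ‖Am ψ (D * p) ω (S.erase i) a (X' / nm p) t u‖ ^ 2 := by
            refine Finset.sum_le_sum fun u _ => ?_
            refine pow_le_pow_left₀ (norm_nonneg _) ?_ 2
            rw [norm_mul]
            refine mul_le_of_le_one_left (norm_nonneg _) ?_
            rw [norm_mul, norm_mul, norm_mul]
            exact mul_le_one₀ (mul_le_one₀ (mul_le_one₀ (hok.wt i p).1 (norm_nonneg _)
              (hok.tw.norm_le hq.1 p)) (norm_nonneg _) (norm_one_le D p)) (norm_nonneg _)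
              (norm_sx_le u p)
        _ ≤ w4 (D * p) * Λ * (1 + |t|) ^ C₁ * (X' / nm p) := h1
        _ ≤ 4 * w4 D * Λ * (1 + |t|) ^ C₁ * (X' / nm p) := by gcongr
        _ = 4 * w4 D * Λ * (1 + |t|) ^ C₁ * X' * ((Real.sqrt (nm p))⁻¹) ^ 2 := by
            rw [inv_pow, Real.sq_sqrt hn0.le]
            ring
    · have h3 := hC P (prs P) (by linarith) fun n hn =>
        ⟨(mem_prs.1 hn).2.1.ne_zero, (mem_prs.1 hn).1⟩
      calc 4 * w4 D * Λ * (1 + |t|) ^ C₁ * X' * (∑ p ∈ prs P, (Real.sqrt (nm p))⁻¹) ^ 2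
          ≤ 4 * w4 D * Λ * (1 + |t|) ^ C₁ * X' * (C * P) := by gcongr
        _ = w4 D * (4 * C * P * Λ) * (1 + |t|) ^ C₁ * X' := by ring

/-- `d` slots dropped -/
theorem MB.drop_iter (j : ℕ) {q : O} (hq : Lev q) {a : ℝ} (ha : 0 < a) : ∃ C : ℝ, 1 ≤ C ∧
    ∀ (P U X Λ C₁ : ℝ) (s d : ℕ), 1 ≤ P → 0 ≤ Λ → MB j q a P s U X Λ C₁ →
      MB j q a P (s + d) U X ((C * P) ^ d * Λ) C₁ := by
  obtain ⟨C, hC1, hC⟩ := MB.drop j hq ha
  refine ⟨C, hC1, fun P U X Λ C₁ s d hP hΛ h => ?_⟩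
  induction d with
  | zero => simpa using h
  | succ d ih =>
    have h0 : 0 ≤ (C * P) ^ d * Λ := by
      have : 0 ≤ C * P := by positivity
      positivity
    have := hC P U X _ C₁ (s + d) hP h0 ih
    rwa [← mul_assoc (C * P), ← pow_succ'] at this

/-- the choice of the number of dropped slots -/
theorem exists_drop {P β : ℝ} (hP : 1 ≤ P) (hβ : P < β) (s : ℕ) :
    ∃ d ≤ s, P ^ d ≤ β ^ 2 ∧ (d = s ∨ β ≤ P ^ d) := by
  induction s with
  | zero => exact ⟨0, le_rfl, by rw [pow_zero]; exact one_le_pow₀ (by linarith), Or.inl rfl⟩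
  | succ s ih =>
    obtain ⟨d, hd, h1, h2 | h2⟩ := ih
    · subst h2
      by_cases h3 : β ≤ P ^ d
      · exact ⟨d, Nat.le_succ d, h1, Or.inr h3⟩
      · refine ⟨d + 1, le_rfl, ?_, Or.inl rfl⟩
        rw [pow_succ, sq]
        exact mul_le_mul (not_le.1 h3).le hβ.le (by linarith) (by linarith)
    · exact ⟨d, hd.trans (Nat.le_succ s), h1, Or.inr h2⟩

/-- Children of a large cube `β = N B > Θ`.  Recipe: if `U / β⁶ < 1` use `MB.of_lt`.  Otherwise let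
`d ≤ s` be minimal with `β ≤ P ^ d`, or `d = s` if there is none; then `P ^ d ≤ β²`
(`P ^ (d-1) < β`, `P ≤ β`).  Apply the hypothesis with `s' = s - d`, `U' = U / (β³ P^d) ≥ U / β⁶`,
`X' = X / β³ ≤ Θ^k` (if `d < s`: `P^(4(s-d)) ≤ U / P^(4d) ≤ U'` because `β ≤ P^d`; if `d = s`:
`1 ≤ U / β⁶ ≤ U'`), then `PB.mb`, `d` times `MB.drop`, `MB.mono`; the constant is `C^j`. -/
theorem bigMB (j : ℕ) {q : O} (hq : Lev q) {a : ℝ} (ha : 0 < a) : ∃ C : ℝ, 1 ≤ C ∧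
    ∀ (Z Θ P U X Λ C₁ β : ℝ) (s k : ℕ), s ≤ j → 1 ≤ P → P ≤ Θ → Θ < β → X ≤ Θ ^ (k + 1) →
      X * P ^ s ≤ U → P ^ (4 * s) ≤ U → U ≤ Z → 0 ≤ Λ →
      (∀ (s' : ℕ) (U' X' : ℝ), s' ≤ s → X' ≤ Θ ^ k → X' * P ^ s' ≤ U' → P ^ (4 * s') ≤ U' → U' ≤ Z →
        PB j q a P s' U' X' (Λ * U') C₁) →
      MB j q a P s (U / β ^ 6) (X / β ^ 3) (C * Λ * U / β ^ 3) C₁ := by
  obtain ⟨C, hC1, hC⟩ := MB.drop_iter j hq ha
  refine ⟨C ^ j, one_le_pow₀ hC1, ?_⟩
  intro Z Θ P U X Λ C₁ β s k hs hP hPΘ hΘβ hX hXU hPU hUZ hΛ hyp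
  have hβ1 : 1 ≤ β := by linarith
  have hβ0 : 0 < β := by linarith
  have hP0 : 0 < P := by linarith
  have hC0 : 0 < C := by linarith
  have hU1 : 1 ≤ U := (one_le_pow₀ hP).trans hPU
  have hU0 : 0 < U := by linarith
  by_cases hlt : U / β ^ 6 < 1
  · exact MB.of_lt hlt (by positivity)
  have hβU : β ^ 6 ≤ U := by
    rw [not_lt, le_div_iff₀ (by positivity), one_mul] at hlt
    exact hlt
  obtain ⟨d, hds, hd1, hd2⟩ := exists_drop hP (hPΘ.trans_lt hΘβ) s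
  obtain ⟨s', rfl⟩ := Nat.exists_eq_add_of_le' hds
  have hden : 0 < β ^ 3 * P ^ d := by positivity
  have hden1 : 1 ≤ β ^ 3 * P ^ d := one_le_mul_of_one_le_of_one_le (one_le_pow₀ hβ1) (one_le_pow₀ hP)
  have hden6 : β ^ 3 * P ^ d ≤ β ^ 6 := by
    calc β ^ 3 * P ^ d ≤ β ^ 3 * β ^ 2 := by gcongr
      _ = β ^ 5 := by ring
      _ ≤ β ^ 6 := pow_le_pow_right₀ hβ1 (by norm_num)
  have h1 : X / β ^ 3 ≤ Θ ^ k := by
    rw [div_le_iff₀ (by positivity)]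
    have hΘ : 0 ≤ Θ := by linarith
    refine hX.trans ?_
    rw [pow_succ]
    exact mul_le_mul_of_nonneg_left (hΘβ.le.trans (le_self_pow₀ hβ1 (by norm_num))) (by positivity)
  have h2 : X / β ^ 3 * P ^ s' ≤ U / (β ^ 3 * P ^ d) := by
    rw [le_div_iff₀ hden]
    refine le_trans (le_of_eq ?_) hXU
    rw [pow_add]
    field_simp
  have h3 : P ^ (4 * s') ≤ U / (β ^ 3 * P ^ d) := by
    rw [le_div_iff₀ hden]
    rcases hd2 with h | h
    · have : s' = 0 := by omega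
      subst this
      simpa using hden6.trans hβU
    · refine le_trans ?_ hPU
      calc P ^ (4 * s') * (β ^ 3 * P ^ d) ≤ P ^ (4 * s') * ((P ^ d) ^ 3 * P ^ d) := by gcongr
        _ = P ^ (4 * (s' + d)) := by ring
  have h4 : U / (β ^ 3 * P ^ d) ≤ Z := (div_le_self hU0.le hden1).trans hUZ
  have h0 : 0 ≤ Λ * (U / (β ^ 3 * P ^ d)) := by positivity
  have h5 := (hyp s' _ _ (Nat.le_add_right s' d) h1 h2 h3 h4).mb hq ha h0
  have h6 := hC P _ _ _ C₁ s' d hP h0 h5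
  refine h6.mono le_rfl ?_ le_rfl (by positivity) ?_ le_rfl
  · exact div_le_div_of_nonneg_left hU0.le hden hden6
  · have h7 : C ^ d ≤ C ^ j := pow_le_pow_right₀ hC1 (by omega)
    calc (C * P) ^ d * (Λ * (U / (β ^ 3 * P ^ d))) = C ^ d * Λ * U / β ^ 3 := by
          rw [mul_pow]
          field_simp
      _ ≤ C ^ j * Λ * U / β ^ 3 := by gcongr

end Crest.Agent.R17.M1
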