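import Crest.Agent.R17.M1.ReduceA

/-!
Row 17, block M1: from the product form to the coprime form, one slot at a time.
-/

set_option autoImplicit false

namespace Crest.Agent.R17.M1

open scoped ComplexConjugate

variable {j : ℕ}

theorem red_mul_le {x y : ℂ} (hx : ‖x‖ ≤ 1) (hy : ‖y‖ ≤ 1) : ‖x * y‖ ≤ 1 := by
  rw [norm_mul]
  exact mul_le_one₀ hx (norm_nonneg _) hy

theorem red_sq_le {c y : ℂ} (hc : ‖c‖ ≤ 1) : ‖c * y‖ ^ 2 ≤ ‖y‖ ^ 2 := by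
  rw [norm_mul]
  exact pow_le_pow_left₀ (by positivity) (mul_le_of_le_one_left (norm_nonneg _) hc) 2

/-- the terms with centre `X' / N p` -/
theorem red_tail : ∃ C : ℝ, 1 ≤ C ∧ ∀ (j : ℕ) (q : O) (a P U X Λ C₁ : ℝ) (s m : ℕ) (ψ : O → ℂ)
    (D : O) (ω : Fin j → O → ℂ) (S T : Finset (Fin j)) (X' t : ℝ) (B : Finset O) (c : O → O → ℂ),
    1 ≤ P → 0 ≤ Λ → Ok q P (s - m) ψ D ω S → Disjoint S T → T.card = m → 0 < X' →
    X' * P ^ m ≤ X → (∀ p ∈ B, Prime p ∧ Prim p ∧ nm p ≤ P) → (∀ p u, ‖c p u‖ ≤ 1) →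
    RB j q a P s m U X Λ C₁ →
    ∑ u ∈ rows U, ‖∑ p ∈ B, c p u * (Am ψ (D * p) ω S a (X' / nm p) t u *
        ∏ i ∈ T, slot P (ω i) u)‖ ^ 2 ≤
      4 ^ (1 + m) * C * (w4 D ^ (1 + m) * Λ * (1 + |t|) ^ C₁ * (X' * P ^ (m + 1))) := by
  obtain ⟨C, hC, h⟩ := sum_inv_sqrt_le
  refine ⟨C, hC, ?_⟩
  intro j q a P U X Λ C₁ s m ψ D ω S T X' t B c hP hΛ hok hST hT hX' hX hB hc hR
  have hw := one_le_w4 D
  have hτ : 0 ≤ (1 + |t|) ^ C₁ := by positivity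
  have h1 := mink (rows U) B (fun p u => c p u * (Am ψ (D * p) ω S a (X' / nm p) t u *
      ∏ i ∈ T, slot P (ω i) u)) (fun p => (Real.sqrt (nm p))⁻¹)
    (M := 4 ^ (1 + m) * (w4 D ^ (1 + m) * Λ * (1 + |t|) ^ C₁ * (X' * P ^ m))) (by positivity)
    (fun p _ => by positivity) (fun p hp => by
      obtain ⟨p1, p2, -⟩ := hB p hp
      have hn := one_le_nm p1.ne_zero
      have hn0 : 0 < nm p := by linarith
      have h2 := hR ψ (D * p) ω S T (X' / nm p) t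
        (hok.sub hok.tw (hok.prim.mul p2) (Finset.Subset.refl _)) hST hT (by positivity)
        ((mul_le_mul_of_nonneg_right (div_le_self hX'.le hn) (by positivity)).trans hX)
      refine (Finset.sum_le_sum fun u _ => red_sq_le (hc p u)).trans (h2.trans ?_)
      have h3 : w4 (D * p) ^ (1 + m) ≤ (4 * w4 D) ^ (1 + m) :=
        pow_le_pow_left₀ (by linarith [one_le_w4 (D * p)])
          (w4_mul_prime_le hok.prim.ne_zero p1 p2) _
      rw [inv_pow, Real.sq_sqrt hn0.le]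
      calc w4 (D * p) ^ (1 + m) * Λ * (1 + |t|) ^ C₁ * (X' / nm p * P ^ m)
          ≤ (4 * w4 D) ^ (1 + m) * Λ * (1 + |t|) ^ C₁ * (X' / nm p * P ^ m) := by gcongr
        _ = _ := by rw [mul_pow]; ring)
  refine h1.trans ?_
  have h4 := h P B (by linarith) fun n hn => ⟨(hB n hn).1.ne_zero, (hB n hn).2.2⟩
  refine (mul_le_mul_of_nonneg_left h4 (by positivity)).trans (le_of_eq ?_)
  ring

/-- the main term, all dyadic blocks -/
theorem red_main (j : ℕ) {q : O} (hq : Lev q) {a δ C₁ : ℝ} (ha : 0 < a) (hδ : 0 < δ)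
    (hC₁ : 0 ≤ C₁) :
    ∃ C : ℝ, 0 < C ∧ ∀ (Z P U X Λ : ℝ) (s m : ℕ) (ψ : O → ℂ) (D : O) (ω : Fin j → O → ℂ)
      (S T : Finset (Fin j)) (i : Fin j) (X' t : ℝ) (B : Finset O),
      1 ≤ P → P ≤ Z → 0 ≤ Λ → m + 1 ≤ s → Ok q P (s - (m + 1)) ψ D ω S → Disjoint S T → i ∉ S →
      i ∉ T → T.card = m → 0 < X' → X' * P ^ (m + 1) ≤ X →
      (∀ p ∈ B, Prime p ∧ Prim p ∧ ¬ p ∣ D ∧ nm p ≤ P) →
      RB j q (2 * a) P s m U X Λ C₁ →
      ∑ u ∈ rows U, ‖∑ p ∈ B, ω i p * sx u p * Am ψ (D * p) ω S a X' t u *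
          ∏ i' ∈ T, slot P (ω i') u‖ ^ 2 ≤
        C * Z ^ δ * (w4 D ^ (1 + m) * Λ * (1 + |t|) ^ C₁ * (X' * P ^ (m + 1))) := by
  obtain ⟨Cr, hCr, hr⟩ := red_blk j hq ha hC₁
  obtain ⟨Cn, hCn, hn⟩ := nblk_le (half_pos hδ)
  refine ⟨Cn ^ 2 * Cr, by positivity, ?_⟩
  intro Z P U X Λ s m ψ D ω S T i X' t B hP hPZ hΛ hms hok hST hiS hiT hT hX' hX hB hR
  have hw := one_le_w4 D
  have hτ : 0 ≤ (1 + |t|) ^ C₁ := by positivity
  have hZ : 1 ≤ Z := hP.trans hPZ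
  obtain ⟨W, hW⟩ : ∃ W, W = w4 D ^ (1 + m) * Λ * (1 + |t|) ^ C₁ * (X' * P ^ (m + 1)) := ⟨_, rfl⟩
  have hW0 : 0 ≤ W := by rw [hW]; positivity
  have h1 : ∀ ν ∈ Finset.range (nblk Z), ∑ u ∈ rows U, ‖∑ p ∈ B.filter (fun p => blk p = ν),
      ω i p * sx u p * Am ψ (D * p) ω S a X' t u * ∏ i' ∈ T, slot P (ω i') u‖ ^ 2 ≤ Cr * W := by
    intro ν _
    rcases (B.filter (fun p => blk p = ν)).eq_empty_or_nonempty with h | ⟨p₀, hp₀⟩
    · rw [h]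
      simp only [Finset.sum_empty, norm_zero, ne_eq, OfNat.ofNat_ne_zero, not_false_eq_true,
        zero_pow, Finset.sum_const_zero]
      positivity
    have hb : ∀ p ∈ B.filter (fun p => blk p = ν), (2 : ℝ) ^ ν ≤ nm p ∧ nm p < 2 * 2 ^ ν :=
      fun p hp => by
        obtain ⟨h1, h2⟩ := Finset.mem_filter.1 hp
        rw [← h2]
        exact ⟨blk_le (hB p h1).1.ne_zero, lt_blk p⟩
    refine (hr P U X Λ s m ψ D ω S T i X' t (2 ^ ν) _ hP hΛ hms hok hST hiS hiT hT hX' hX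
      (by positivity) ((hb p₀ hp₀).1.trans (hB p₀ (Finset.mem_filter.1 hp₀).1).2.2.2)
      (fun p hp => ?_) hR).trans (le_of_eq (by rw [hW]; ring))
    obtain ⟨p1, p2, p3, p4⟩ := hB p (Finset.mem_filter.1 hp).1
    have := nm_nonneg p
    exact ⟨p1, p2, p3, by linarith [(hb p hp).1], (hb p hp).2.le, p4⟩
  have h2 : ∀ u ∈ rows U, ‖∑ p ∈ B, ω i p * sx u p * Am ψ (D * p) ω S a X' t u *
      ∏ i' ∈ T, slot P (ω i') u‖ ^ 2 ≤ nblk Z * ∑ ν ∈ Finset.range (nblk Z),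
        ‖∑ p ∈ B.filter (fun p => blk p = ν), ω i p * sx u p * Am ψ (D * p) ω S a X' t u *
          ∏ i' ∈ T, slot P (ω i') u‖ ^ 2 := fun u _ => by
    rw [← Finset.sum_fiberwise_of_maps_to (s := B) (t := Finset.range (nblk Z)) (g := blk)
      (fun p hp => Finset.mem_range.2 (blk_lt_nblk ((hB p hp).2.2.2.trans hPZ)))]
    have := norm_sum_sq_le (Finset.range (nblk Z)) (fun ν => ∑ p ∈ B.filter (fun p => blk p = ν),
      ω i p * sx u p * Am ψ (D * p) ω S a X' t u * ∏ i' ∈ T, slot P (ω i') u)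
    rwa [Finset.card_range] at this
  refine (Finset.sum_le_sum h2).trans ?_
  rw [← Finset.mul_sum, Finset.sum_comm, ← hW]
  have h3 := Finset.sum_le_sum h1
  rw [Finset.sum_const, Finset.card_range, nsmul_eq_mul] at h3
  have h4 := hn Z hZ
  have h5 : Z ^ δ = Z ^ (δ / 2) * Z ^ (δ / 2) := by rw [← Real.rpow_add (by linarith), add_halves]
  refine (mul_le_mul_of_nonneg_left h3 (Nat.cast_nonneg _)).trans ?_
  calc (nblk Z : ℝ) * (nblk Z * (Cr * W))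
      ≤ Cn * Z ^ (δ / 2) * (Cn * Z ^ (δ / 2) * (Cr * W)) := by gcongr
    _ = _ := by rw [h5]; ring

/-- Recipe: `T = insert i T'`; expand `slot P (ω i) u · Am ψ D ω S a X' t u` over `p ∈ prs P`.
* `p ∣ D`: at most `(pfs D).card` primes, `mink` with weight `1`, `card_pfs_sq_le`.
* `p ∤ D`: `Am_prime`.  The first term: blocks `blk p = ν < nblk Z`, `Q = 2^ν`, `red_blk`,
  `norm_sum_sq_le`, `nblk_le`.  The other `1 + |S|` terms: `mink` with weights `(√N p)⁻¹`, `RB` at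
  width `a` with mask `D p` and centre `X' / N p` (`w4_mul_prime_le`, `m + 1 ≤ j`), `sum_inv_sqrt_le`. -/
theorem red_step (j : ℕ) {q : O} (hq : Lev q) {a δ C₁ : ℝ} (ha : 0 < a) (hδ : 0 < δ) (hC₁ : 0 ≤ C₁) :
    ∃ C : ℝ, 1 ≤ C ∧ ∀ (Z P U X Λ : ℝ) (s m : ℕ), 1 ≤ P → P ≤ Z → 0 ≤ Λ → m + 1 ≤ s →
      RB j q a P s m U X Λ C₁ → RB j q (2 * a) P s m U X Λ C₁ →
      RB j q a P s (m + 1) U X (C * Z ^ δ * Λ) C₁ := by
  classical
  obtain ⟨Ct, hCt, ht⟩ := red_tail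
  obtain ⟨Cm, hCm, hmain⟩ := red_main j hq ha hδ hC₁
  have hK0 : 0 ≤ 8 * (1 + (j : ℝ) * j) * (4 ^ j * Ct) := by positivity
  refine ⟨2 + 4 * Cm + 8 * (1 + (j : ℝ) * j) * (4 ^ j * Ct), by linarith, ?_⟩
  intro Z P U X Λ s m hP hPZ hΛ hms hR hR2 ψ D ω S T X' t hok hST hT hX' hX
  obtain ⟨i, hi⟩ : T.Nonempty := Finset.card_pos.1 (by omega)
  obtain ⟨T', hiT, rfl⟩ : ∃ T', i ∉ T' ∧ T = insert i T' :=
    ⟨T.erase i, Finset.notMem_erase _ _, (Finset.insert_erase hi).symm⟩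
  have hmj : m + 1 ≤ j := by
    have := Finset.card_le_univ (insert i T')
    rwa [hT, Fintype.card_fin] at this
  have hSj : (S.card : ℝ) ≤ j := by
    have := Finset.card_le_univ S
    rw [Fintype.card_fin] at this
    exact_mod_cast this
  rw [Finset.card_insert_of_notMem hiT, Nat.add_right_cancel_iff] at hT
  rw [Finset.disjoint_insert_right] at hST
  obtain ⟨hiS, hST⟩ := hST
  have hw := one_le_w4 D
  have hτ : 0 ≤ (1 + |t|) ^ C₁ := by positivity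
  have hZ : 1 ≤ Z ^ δ := Real.one_le_rpow (hP.trans hPZ) hδ.le
  have hok' : Ok q P (s - m) ψ D ω S := ⟨hok.tw, hok.prim, hok.wt, hok.card.trans (by omega)⟩
  have hPm : X' * P ^ m ≤ X' * P ^ (m + 1) :=
    mul_le_mul_of_nonneg_left (pow_le_pow_right₀ hP (Nat.le_succ m)) hX'.le
  obtain ⟨W, hW⟩ : ∃ W, W = w4 D ^ (1 + m) * Λ * (1 + |t|) ^ C₁ * (X' * P ^ (m + 1)) := ⟨_, rfl⟩
  have hW0 : 0 ≤ W := by rw [hW]; positivity
  obtain ⟨B₁, hB₁⟩ : ∃ B, B = (prs P).filter (· ∣ D) := ⟨_, rfl⟩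
  obtain ⟨B₂, hB₂⟩ : ∃ B, B = (prs P).filter (fun p => ¬ p ∣ D) := ⟨_, rfl⟩
  have hB : ∀ p ∈ B₂, Prime p ∧ Prim p ∧ ¬ p ∣ D ∧ nm p ≤ P := fun p hp => by
    rw [hB₂, Finset.mem_filter, mem_prs] at hp
    exact ⟨hp.1.2.1, hp.1.2.2, hp.2, hp.1.1⟩
  have hω : ∀ i p, ‖ω i p‖ ≤ 1 := fun i p => (hok.wt i p).1
  have hψ : ∀ p, ‖ψ p‖ ≤ 1 := hok.tw.norm_le hq.1
  obtain ⟨Pi, hPi⟩ : ∃ Pi : O → ℂ, Pi = fun u => ∏ i' ∈ T', slot P (ω i') u := ⟨_, rfl⟩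
  have hPi' : ∀ u, ∏ i' ∈ T', slot P (ω i') u = Pi u := fun u => by rw [hPi]
  -- the four groups of terms
  have e1 : ∑ u ∈ rows U, ‖∑ p ∈ B₁, ω i p * sx u p * (Am ψ D ω S a X' t u * Pi u)‖ ^ 2 ≤
      W * w4 D := by
    have h1 := hR ψ D ω S T' X' t hok' hST hT hX' (hPm.trans hX)
    simp only [hPi'] at h1
    have h2 := mink (rows U) B₁ (fun p u => ω i p * sx u p * (Am ψ D ω S a X' t u * Pi u))
      (fun _ => 1) hW0 (fun _ _ => zero_le_one) (fun p _ => by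
        refine (Finset.sum_le_sum fun u _ =>
          red_sq_le (red_mul_le (hω i p) (norm_sx_le u p))).trans (h1.trans ?_)
        rw [hW, one_pow, mul_one]
        gcongr)
    refine h2.trans (mul_le_mul_of_nonneg_left ?_ hW0)
    rw [Finset.sum_const, nsmul_eq_mul, mul_one]
    refine le_trans (pow_le_pow_left₀ (Nat.cast_nonneg _) ?_ 2) (card_pfs_sq_le D)
    refine Nat.cast_le.2 (Finset.card_le_card fun p hp => ?_)
    rw [hB₁, Finset.mem_filter, mem_prs] at hp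
    exact (mem_pfs hok.prim.ne_zero).2 ⟨hp.1.2.1, hp.1.2.2, hp.2⟩
  have e2 := hmain Z P U X Λ s m ψ D ω S T' i X' t B₂ hP hPZ hΛ hms hok hST hiS hiT hT hX' hX hB hR2
  have h4 : (4 : ℝ) ^ (1 + m) * Ct * W ≤ 4 ^ j * Ct * W := by
    have : (4 : ℝ) ^ (1 + m) ≤ 4 ^ j := pow_le_pow_right₀ (by norm_num) (by omega)
    gcongr
  have e3 : ∀ (S' : Finset (Fin j)) (c : O → O → ℂ), S' ⊆ S → (∀ p u, ‖c p u‖ ≤ 1) →
      ∑ u ∈ rows U, ‖∑ p ∈ B₂, c p u * (Am ψ (D * p) ω S' a (X' / nm p) t u * Pi u)‖ ^ 2 ≤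
        4 ^ j * Ct * W := fun S' c hS' hc => by
    have := ht j q a P U X Λ C₁ s m ψ D ω S' T' X' t B₂ c hP hΛ (hok'.sub hok.tw hok.prim hS')
      (hST.mono_left hS') hT hX' (hPm.trans hX)
      (fun p hp => ⟨(hB p hp).1, (hB p hp).2.1, (hB p hp).2.2.2⟩) hc hR
    simp only [hPi'] at this
    rw [← hW] at this
    exact this.trans h4
  simp only [hPi'] at e2
  rw [← hW] at e2
  have hc : ∀ p u, ‖ω i p * sx u p * (ψ p * sx u p)‖ ≤ 1 := fun p u =>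
    red_mul_le (red_mul_le (hω i p) (norm_sx_le u p)) (red_mul_le (hψ p) (norm_sx_le u p))
  have e4 := e3 S (fun p u => ω i p * sx u p * (ψ p * sx u p)) (Finset.Subset.refl _) hc
  have e5 : ∑ u ∈ rows U, ‖∑ i' ∈ S, ∑ p ∈ B₂, ω i p * sx u p * (ψ p * sx u p) * ω i' p *
      (Am ψ (D * p) ω (S.erase i') a (X' / nm p) t u * Pi u)‖ ^ 2 ≤ j * (j * (4 ^ j * Ct * W)) := by
    refine (Finset.sum_le_sum fun u _ => norm_sum_sq_le S _).trans ?_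
    rw [← Finset.mul_sum, Finset.sum_comm]
    have h5 := Finset.sum_le_sum fun i' (_ : i' ∈ S) => e3 (S.erase i')
      (fun p u => ω i p * sx u p * (ψ p * sx u p) * ω i' p) (Finset.erase_subset _ _)
      (fun p u => red_mul_le (hc p u) (hω i' p))
    rw [Finset.sum_const, nsmul_eq_mul] at h5
    refine (mul_le_mul_of_nonneg_left h5 (Nat.cast_nonneg _)).trans ?_
    gcongr
  have e6 : ∀ u, Am ψ D ω S a X' t u * ∏ i' ∈ insert i T', slot P (ω i') u =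
      ∑ p ∈ B₁, ω i p * sx u p * (Am ψ D ω S a X' t u * Pi u) +
      (∑ p ∈ B₂, ω i p * sx u p * Am ψ (D * p) ω S a X' t u * Pi u -
        (∑ p ∈ B₂, ω i p * sx u p * (ψ p * sx u p) * (Am ψ (D * p) ω S a (X' / nm p) t u * Pi u) +
        ∑ i' ∈ S, ∑ p ∈ B₂, ω i p * sx u p * (ψ p * sx u p) * ω i' p *
          (Am ψ (D * p) ω (S.erase i') a (X' / nm p) t u * Pi u))) := fun u => by
    rw [Finset.prod_insert hiT, hPi', slot, ← Finset.sum_filter_add_sum_filter_not (prs P) (· ∣ D),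
      ← hB₁, ← hB₂, add_mul, mul_add, Finset.sum_mul, Finset.sum_mul, Finset.mul_sum,
      Finset.mul_sum, Finset.sum_comm (s := S), ← Finset.sum_add_distrib, ← Finset.sum_sub_distrib]
    congr 1
    · exact Finset.sum_congr rfl fun p _ => by ring
    · refine Finset.sum_congr rfl fun p hp => ?_
      have h6 : ∑ i' ∈ S, ω i p * sx u p * (ψ p * sx u p) * ω i' p *
          (Am ψ (D * p) ω (S.erase i') a (X' / nm p) t u * Pi u) =
          ω i p * sx u p * (ψ p * sx u p) * Pi u *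
            ∑ i' ∈ S, ω i' p * Am ψ (D * p) ω (S.erase i') a (X' / nm p) t u := by
        rw [Finset.mul_sum]
        exact Finset.sum_congr rfl fun i' _ => by ring
      rw [h6, Am_prime hq hok ha hX' (hB p hp).1 (hB p hp).2.1 (hB p hp).2.2.1 t u]
      ring
  have e7 : ∀ x₁ x₂ x₃ x₄ : ℂ, ‖x₁ + (x₂ - (x₃ + x₄))‖ ^ 2 ≤
      2 * ‖x₁‖ ^ 2 + 4 * ‖x₂‖ ^ 2 + 8 * ‖x₃‖ ^ 2 + 8 * ‖x₄‖ ^ 2 := fun x₁ x₂ x₃ x₄ => by
    linarith [norm_add_sq_le x₁ (x₂ - (x₃ + x₄)), norm_sub_sq_le x₂ (x₃ + x₄), norm_add_sq_le x₃ x₄]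
  simp only [e6]
  refine (Finset.sum_le_sum fun u _ => e7 _ _ _ _).trans ?_
  simp only [Finset.sum_add_distrib, ← Finset.mul_sum]
  have f1 : W ≤ Z ^ δ * (W * w4 D) :=
    (le_mul_of_one_le_right hW0 hw).trans (le_mul_of_one_le_left (by positivity) hZ)
  have f2 : W * w4 D ≤ Z ^ δ * (W * w4 D) := le_mul_of_one_le_left (by positivity) hZ
  have f3 : Cm * Z ^ δ * W ≤ Cm * (Z ^ δ * (W * w4 D)) := by
    rw [mul_assoc]
    gcongr
    exact le_mul_of_one_le_right hW0 hw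
  have f4 := mul_le_mul_of_nonneg_left f1 hK0
  have f5 : w4 D ^ (1 + (m + 1)) * ((2 + 4 * Cm + 8 * (1 + (j : ℝ) * j) * (4 ^ j * Ct)) * Z ^ δ * Λ) *
      (1 + |t|) ^ C₁ * (X' * P ^ (m + 1)) =
      (2 + 4 * Cm + 8 * (1 + (j : ℝ) * j) * (4 ^ j * Ct)) * (Z ^ δ * (W * w4 D)) := by
    rw [hW]; ring
  rw [f5]
  linarith

end Crest.Agent.R17.M1
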