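import Crest.Agent.R17.M1.Main
import Crest.Agent.R17.M1.Reduce

/-!
Row 17, block M1: the marked Möbius moment.
-/

set_option autoImplicit false

namespace Crest.Agent.R17

namespace M1

/-- induction on `m`: `main`, `MB.rb`; `red_step` at widths `a`, `2 a` with `ε / 2`, `RB.mono` -/
theorem red_all (hF : StF) (j : ℕ) {q : O} (hq : Lev q) (m : ℕ) : ∀ a ε : ℝ, 0 < a → 0 < ε →
    ∃ C C₁ : ℝ, 1 ≤ C ∧ 0 ≤ C₁ ∧ ∀ (Z P U X : ℝ) (s : ℕ), m ≤ s → s ≤ j → 1 ≤ P → P ≤ Z →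
      X * P ^ s ≤ U → P ^ (4 * s) ≤ U → U ≤ Z →
      RB j q a P s m U X (C * Z ^ ε * P ^ 40 * U) C₁ := by
  induction m with
  | zero =>
    intro a ε ha hε
    obtain ⟨C, C₁, hC, hC₁, h⟩ := main hF j hq ha hε
    exact ⟨C, C₁, hC, hC₁, fun Z P U X s _ hs hP hPZ hXU hPU hUZ =>
      (h Z P U X s hs hP hPZ hXU hPU hUZ).rb⟩
  | succ m ih =>
    intro a ε ha hε
    obtain ⟨C, C₁, hC, hC₁, h⟩ := ih a (ε / 2) ha (by positivity)
    obtain ⟨C', C₁', hC', hC₁', h'⟩ := ih (2 * a) (ε / 2) (by positivity) (by positivity)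
    have hm : 0 ≤ max C₁ C₁' := le_max_of_le_left hC₁
    obtain ⟨C'', hC'', h''⟩ := red_step j hq ha (half_pos hε) hm
    have hM : 1 ≤ max C C' := le_max_of_le_left hC
    refine ⟨C'' * max C C', max C₁ C₁', one_le_mul_of_one_le_of_one_le hC'' hM, hm, ?_⟩
    intro Z P U X s hms hs hP hPZ hXU hPU hUZ
    have hZ0 : 0 < Z := zero_lt_one.trans_le (hP.trans hPZ)
    have hU : 1 ≤ U := (one_le_pow₀ hP).trans hPU
    have hms' : m ≤ s := (Nat.le_succ m).trans hms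
    have h1 := (h Z P U X s hms' hs hP hPZ hXU hPU hUZ).mono (Λ' := max C C' * Z ^ (ε / 2) * P ^ 40 * U)
      (by positivity) (by positivity) (by gcongr; exact le_max_left _ _) (le_max_left C₁ C₁')
    have h2 := (h' Z P U X s hms' hs hP hPZ hXU hPU hUZ).mono
      (Λ' := max C C' * Z ^ (ε / 2) * P ^ 40 * U)
      (by positivity) (by positivity) (by gcongr; exact le_max_right _ _) (le_max_right C₁ C₁')
    have h3 := h'' Z P U X _ s m hP hPZ (by positivity) hms h1 h2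
    have h4 : Z ^ ε = Z ^ (ε / 2) * Z ^ (ε / 2) := by rw [← Real.rpow_add hZ0, add_halves]
    convert h3 using 1
    rw [h4]
    ring

theorem sx_zero_left {n : O} (hn : ¬ IsUnit n) : sx 0 n = 0 :=
  sx_eq_zero_of_not_coprime fun h => hn (isCoprime_zero_left.1 h)

theorem norm_MS_zero_le {q : O} {ψ : O → ℂ} (hψ : IsTw q ψ) (a N t : ℝ) :
    ‖MS (rc ψ 0) a N t‖ ≤ 1 := by
  rw [MS, tsum_eq_single (1 : Pr)]
  · simpa [rc, hψ.one] using norm_LN_le_one a N t 1
  · intro n hn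
    have : ¬ IsUnit (n : O) := fun h => hn (Subtype.ext ((Pr_prim n).eq_one_of_isUnit h))
    simp [rc, sx_zero_left this]

theorem Am_empty {j : ℕ} (ψ : O → ℂ) (ω : Fin j → O → ℂ) (a N t : ℝ) (u : O) :
    Am ψ 1 ω ∅ a N t u = MS (rc ψ u) a N t := by
  simp only [Am, Sp, MS, col, cf, rc, one_one, mk_empty, sj_false]
  exact tsum_congr fun n => by ring

end M1

/-- `C₀ = 40`; `red_all` with `m = s = j`, `S = ∅`, `T = univ`, `D = 1`, `X' = N`, `X = N P^j`,
weights `if p ∈ Ps then ω i p else 0`, `P` replaced by `1` when `j = 0`; the row `k = 0` apart. -/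
theorem stM1 (hF : StF) : StM1 := by
  classical
  refine ⟨40, fun q a ε j hq ha hε => ?_⟩
  obtain ⟨C, C₁, hC, hC₁, h⟩ := M1.red_all hF j hq j a ε ha hε
  refine ⟨max (C + 1) C₁, ?_⟩
  intro ψ Z U N P t Ps A ω hψ hN hP hNU hPU hUZ hPs hω hA
  set P' : ℝ := if j = 0 then 1 else P with hP'
  have hP'1 : 1 ≤ P' := by rw [hP']; split_ifs; exacts [le_rfl, hP]
  have hP'P : P' ≤ P := by rw [hP']; split_ifs; exacts [hP, le_rfl]
  have hpow : ∀ m, P' ^ (m * j) = P ^ (m * j) := by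
    intro m
    rw [hP']
    split_ifs with h0
    · simp [h0]
    · rfl
  have hpow1 : P' ^ j = P ^ j := by simpa using hpow 1
  have hU : 1 ≤ U := (one_le_pow₀ hP).trans hPU
  have hZ : 1 ≤ Z := hU.trans hUZ
  have hP'Z : P' ≤ Z := by
    rw [hP']
    split_ifs with h0
    · exact hZ
    · exact (le_self_pow₀ hP (by omega)).trans (hPU.trans hUZ)
  set ω' : Fin j → O → ℂ := fun i p => if p ∈ Ps then ω i p else 0 with hω'
  have hPP : ∀ _ : Fin j, P' = P := fun i => by rw [hP', if_neg i.pos.ne']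
  have hW : M1.Wt q P' ω' := by
    intro i p
    rw [hPP i, hω']
    simp only
    split_ifs with hp
    · exact ⟨hω i p, fun _ => (hPs p hp).2.2⟩
    · simp
  have hslot : ∀ i u, M1.slot P' (ω' i) u = ∑ p ∈ Ps, ω i p * sx u p := by
    intro i u
    rw [hPP i, M1.slot, ← Finset.sum_subset (s₁ := Ps)]
    · exact Finset.sum_congr rfl fun p hp => by simp [hω', hp]
    · intro p hp
      exact M1.mem_prs.2 ⟨(hPs p hp).2.2.2, (hPs p hp).1, (hPs p hp).2.1⟩
    · intro p _ hp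
      simp [hω', hp]
  have hN0 : 0 < N := zero_lt_one.trans_le hN
  have h1 := h Z P' U (N * P' ^ j) j le_rfl le_rfl hP'1 hP'Z
    (by rw [mul_assoc, ← pow_add, ← two_mul, hpow]; exact hNU) (by rw [hpow]; exact hPU) hUZ
    ψ 1 ω' ∅ Finset.univ N t ⟨hψ, prim_one, hW, by simp⟩ (by simp) (by simp) hN0 le_rfl
  simp only [M1.Am_empty, hslot, M1.w4_one, one_pow, one_mul, hpow1] at h1
  set G : O → ℝ := fun k => ‖MS (rc ψ k) a N t * ∏ i, ∑ p ∈ Ps, ω i p * sx k p‖ ^ 2 with hG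
  have hG0 : G 0 ≤ 1 := by
    rw [hG]
    refine pow_le_one₀ (norm_nonneg _) ?_
    rw [norm_mul, norm_prod]
    refine mul_le_one₀ (M1.norm_MS_zero_le hψ a N t) (by positivity)
      (Finset.prod_le_one (fun _ _ => norm_nonneg _) fun i _ => ?_)
    rw [Finset.sum_eq_zero, norm_zero]
    · exact zero_le_one
    · intro p hp
      rw [M1.sx_zero_left (hPs p hp).1.not_isUnit, mul_zero]
  have h2 : ∑ k ∈ A, G k ≤ G 0 + ∑ k ∈ rows U, G k := by
    rw [← Finset.sum_insert (by simp [mem_rows])]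
    refine Finset.sum_le_sum_of_subset_of_nonneg (fun k hk => ?_) fun k _ _ => by positivity
    rcases eq_or_ne k 0 with rfl | h0
    · exact Finset.mem_insert_self _ _
    · exact Finset.mem_insert_of_mem (mem_rows.2 ⟨h0, hA k hk⟩)
  have ht : 1 ≤ 1 + |t| := le_add_of_nonneg_right (abs_nonneg t)
  have hτ : (1 + |t|) ^ C₁ ≤ (1 + |t|) ^ max (C + 1) C₁ :=
    Real.rpow_le_rpow_of_exponent_le ht (le_max_right _ _)
  have hτ1 : 1 ≤ (1 + |t|) ^ max (C + 1) C₁ := Real.one_le_rpow ht (le_max_of_le_right hC₁)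
  have h40 : P ^ (40 : ℝ) = P ^ 40 := by exact_mod_cast Real.rpow_natCast P 40
  have hZε : 1 ≤ Z ^ ε := Real.one_le_rpow hZ hε.le
  set Q : ℝ := Z ^ ε * P ^ 40 * (1 + |t|) ^ max (C + 1) C₁ * (U * N * P ^ j) with hQ
  have hQ1 : 1 ≤ Q :=
    one_le_mul_of_one_le_of_one_le (one_le_mul_of_one_le_of_one_le
      (one_le_mul_of_one_le_of_one_le hZε (one_le_pow₀ hP)) hτ1)
      (one_le_mul_of_one_le_of_one_le (one_le_mul_of_one_le_of_one_le hU hN) (one_le_pow₀ hP))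
  have h3 : ∑ k ∈ rows U, G k ≤ C * Q := by
    refine h1.trans ?_
    calc C * Z ^ ε * P' ^ 40 * U * (1 + |t|) ^ C₁ * (N * P ^ j)
        ≤ C * Z ^ ε * P ^ 40 * U * (1 + |t|) ^ max (C + 1) C₁ * (N * P ^ j) := by gcongr
      _ = C * Q := by rw [hQ]; ring
  calc ∑ k ∈ A, G k ≤ (C + 1) * Q := by linarith
    _ ≤ max (C + 1) C₁ * Q := by gcongr; exact le_max_left _ _
    _ = _ := by rw [hQ, h40]; ring

end Crest.Agent.R17
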