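import Crest.Agent.R17.M1.Triv

/-!
Row 17, block M1: exact identities for the marked Möbius sums.
-/

set_option autoImplicit false

namespace Crest.Agent.R17.M1

open scoped ComplexConjugate

variable {j : ℕ} {q : O} {P : ℝ} {s : ℕ} {ψ : O → ℂ} {D : O} {ω : Fin j → O → ℂ}
  {S : Finset (Fin j)} {a X : ℝ}

private theorem idn_one {D n : O} (h : IsCoprime n D) : one D n = 1 := if_pos h

private theorem idn_zero {D n : O} (h : ¬ IsCoprime n D) : one D n = 0 := if_neg h

private theorem idn_mask {D D' u : O} (h : D' ∣ u) (n : O) :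
    one (D * D') n * sx u n = one D n * sx u n := by
  by_cases hc : IsCoprime n D'
  · rw [one_mul_left, idn_one hc, mul_one]
  · rw [sx_eq_zero_of_not_coprime fun h' => hc (h'.symm.of_isCoprime_of_dvd_right h), mul_zero, mul_zero]

open Classical in
private theorem idn_hasSum {d : O} (hd : Prim d) {f : O → ℂ} {c : ℂ}
    (h : HasSum (fun m : Pr => f (d * m)) c) :
    HasSum (fun n : Pr => if d ∣ (n : O) then f n else 0) c := by
  have hi : Function.Injective fun m : Pr => (⟨d, hd⟩ * m : Pr) := fun m m' h =>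
    Subtype.ext (mul_left_cancel₀ hd.ne_zero (congrArg Subtype.val h))
  refine (hi.hasSum_iff (f := fun n : Pr => if d ∣ (n : O) then f n else 0) fun n hn => ?_).1 ?_
  · refine if_neg fun hdn => hn ?_
    obtain ⟨m, hm, e⟩ := hd.exists_mul n.2 hdn
    exact ⟨⟨m, hm⟩, Subtype.ext e.symm⟩
  · exact h.congr_fun fun m => if_pos (dvd_mul_right _ _)

private theorem idn_sum (hq : Lev q) (h : Ok q P s ψ D ω S) (ha : 0 < a) (hX : 0 < X) (t : ℝ) (u : O) :
    HasSum (fun n : Pr => col ψ D ω S a X t n * sx u n) (Am ψ D ω S a X t u) :=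
  ((h.admP hq ha hX t).summable false u).hasSum

/-- the factors other than the marking function at `p m` -/
private theorem idn_mul (hψ : IsTw q ψ) {p : O} (hp : Prime p) (t : ℝ) (u m : O) :
    mu (p * m) * ψ (p * m) * one D (p * m) * LN a X t (nm (p * m)) * sx u (p * m) =
      -(ψ p * one D p * sx u p) * (mu m * ψ m * one (D * p) m * LN a (X / nm p) t (nm m) * sx u m) := by
  rw [mu_mul', hψ.mul, one_mul_right, nm_mul, LN_mul_arg, sx_mul_right, one_mul_left]
  by_cases hc : IsCoprime p m
  · rw [if_pos hc, mu_prime hp, idn_one hc.symm]; ring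
  · rw [if_neg hc, idn_zero (D := p) fun h => hc h.symm]; ring

/-- only the weights of the slots in `S` at primes not dividing the mask matter (`mk_congr`) -/
theorem Am_congr {ω' : Fin j → O → ℂ}
    (h : ∀ i ∈ S, ∀ p, Prime p → Prim p → ¬ p ∣ D → ω i p = ω' i p) (t : ℝ) (u : O) :
    Am ψ D ω S a X t u = Am ψ D ω' S a X t u := by
  refine tsum_congr fun n => ?_
  simp only [col, cf]
  by_cases hc : IsCoprime (n : O) D
  · rw [mk_congr fun i hi p hp hp' hn => h i hi p hp hp' fun hD => hp.not_isUnit (hc.isUnit_of_dvd' hn hD)]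
  · simp [idn_zero hc]

/-- a mask dividing the row is automatic (`sx_eq_zero_of_not_coprime`) -/
theorem Am_mask {D' u : O} (h : D' ∣ u) (t : ℝ) :
    Am ψ (D * D') ω S a X t u = Am ψ D ω S a X t u := by
  refine tsum_congr fun n => ?_
  simp only [col, cf, sj_false]
  linear_combination mu n * ψ n * mk ω S n * LN a X t (nm n) * idn_mask (D := D) h n

theorem Gm_mask {D' v : O} (h : D' ∣ v) (t : ℝ) (k : O) :
    Gm ψ (D * D') ω S a X t v k = Gm ψ D ω S a X t v k := by
  refine tsum_congr fun n => ?_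
  simp only [col, cf]
  linear_combination
    mu n * ψ n * mk ω S n * LN a X t (nm n) * gt n * sj true (sx k n) * idn_mask (D := D) h n

theorem Am_mask_dvd {p : O} (h : p ∣ D) (t : ℝ) (u : O) :
    Am ψ (D * p) ω S a X t u = Am ψ D ω S a X t u := by
  refine tsum_congr fun n => ?_
  have : one (D * p) n = one D n := by
    by_cases hc : IsCoprime (n : O) D
    · rw [one_mul_left, idn_one (hc.of_isCoprime_of_dvd_right h), mul_one]
    · rw [one_mul_left, idn_zero hc, zero_mul]
  simp only [col, cf, this]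

/-- splitting off one prime: columns prime to `p` and columns `p m` (`tsum_Pr_dvd`, `mu_mul'`,
`mk_prime_mul`, `LN_mul_arg`) -/
theorem Am_prime (hq : Lev q) (h : Ok q P s ψ D ω S) (ha : 0 < a) (hX : 0 < X) {p : O}
    (hp : Prime p) (hp' : Prim p) (hD : ¬ p ∣ D) (t : ℝ) (u : O) :
    Am ψ D ω S a X t u = Am ψ (D * p) ω S a X t u - ψ p * sx u p *
      (Am ψ (D * p) ω S a (X / nm p) t u +
        ∑ i ∈ S, ω i p * Am ψ (D * p) ω (S.erase i) a (X / nm p) t u) := by
  classical
  have hY : 0 < X / nm p := div_pos hX (nm_pos hp.ne_zero)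
  have ok : ∀ S' ⊆ S, Ok q P s ψ (D * p) ω S' := fun S' hS => h.sub h.tw (h.prim.mul hp') hS
  have h1 := idn_sum hq (ok S le_rfl) ha hX t u
  have h2 := ((idn_sum hq (ok S le_rfl) ha hY t u).add (hasSum_sum (s := S) fun i _ =>
    (idn_sum hq (ok _ (Finset.erase_subset i S)) ha hY t u).mul_left (ω i p))).mul_left
      (-(ψ p * sx u p))
  have h3 := idn_hasSum hp' (f := fun n => col ψ D ω S a X t n * sx u n) (h2.congr_fun fun m => by
    have e := idn_mul (D := D) (a := a) (X := X) h.tw hp t u m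
    rw [idn_one (hp.coprime_iff_not_dvd.2 hD)] at e
    simp only [col, cf]
    by_cases hm : p ∣ (m : O)
    · have z : one (D * p) m = 0 := idn_zero fun hc => hp.not_isUnit (hc.isUnit_of_dvd' hm (dvd_mul_left _ _))
      rw [z] at e ⊢
      simp only [mul_zero, zero_mul, Finset.sum_const_zero, add_zero] at e ⊢
      linear_combination mk ω S (p * m) * e
    · have : ∑ i ∈ S, ω i p * (mu m * ψ m * one (D * p) m * mk ω (S.erase i) m *
          LN a (X / nm p) t (nm m) * sx u m) = (mu m * ψ m * one (D * p) m *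
          LN a (X / nm p) t (nm m) * sx u m) * ∑ i ∈ S, ω i p * mk ω (S.erase i) m := by
        rw [Finset.mul_sum]; exact Finset.sum_congr rfl fun i _ => by ring
      rw [this, mk_prime_mul ω S hp hp' hm]
      linear_combination (mk ω S m + ∑ i ∈ S, ω i p * mk ω (S.erase i) m) * e)
  refine ((idn_sum hq h ha hX t u).unique ((h1.add h3).congr_fun fun n => ?_)).trans (by ring)
  simp only [col, cf, one_mul_left]
  by_cases hn : p ∣ (n : O)
  · rw [if_pos hn, idn_zero (D := p) fun hc => hp.not_isUnit (hc.isUnit_of_dvd' hn dvd_rfl)]; ring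
  · rw [if_neg hn, idn_one (hp.coprime_iff_not_dvd.2 hn).symm]; ring

/-- opening one slot (`mkF_drop`; for squarefree `n = p m`, `(pfs n).erase p = pfs m`) -/
theorem Am_insert (hq : Lev q) (h : Ok q P s ψ D ω S) (ha : 0 < a) (hX : 0 < X) {i : Fin j}
    (hi : i ∉ S) (t : ℝ) (u : O) :
    Am ψ D ω (insert i S) a X t u =
      -∑ p ∈ prs P, ω i p * ψ p * one D p * sx u p * Am ψ (D * p) ω S a (X / nm p) t u := by
  classical
  have key : ∀ p ∈ prs P, HasSum (fun n : Pr => if p ∣ (n : O) then
      mu n * ψ n * one D n * LN a X t (nm n) * sx u n * (ω i p * mkF ω S ((pfs n).erase p)) else 0)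
      (-(ω i p * ψ p * one D p * sx u p) * Am ψ (D * p) ω S a (X / nm p) t u) := fun p hp => by
    obtain ⟨-, hp, hp'⟩ := mem_prs.1 hp
    refine idn_hasSum hp' (f := fun n => mu n * ψ n * one D n * LN a X t (nm n) * sx u n *
      (ω i p * mkF ω S ((pfs n).erase p))) (((idn_sum hq (h.sub h.tw (h.prim.mul hp') le_rfl) ha
        (div_pos hX (nm_pos hp.ne_zero)) t u).mul_left _).congr_fun fun m => ?_)
    simp only [col, cf]
    rw [idn_mul h.tw hp]
    by_cases hm : p ∣ (m : O)
    · rw [idn_zero (D := D * p) fun hc => hp.not_isUnit (hc.isUnit_of_dvd' hm (dvd_mul_left _ _))]; ring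
    · rw [pfs_mul hp.ne_zero (Prim.ne_zero m.2), pfs_prime hp hp', Finset.singleton_union,
        Finset.erase_insert fun h' => hm (of_mem_pfs h').2.2, mk]
      ring
  refine (((hasSum_sum key).congr_fun fun n => ?_).tsum_eq).trans ?_
  · have hn : (n : O) ≠ 0 := Prim.ne_zero n.2
    simp only [col, cf, mk, sj_false]
    rw [mkF_drop ω hi, ← Finset.sum_filter, ← Finset.mul_sum,
      Finset.sum_subset (s₁ := (prs P).filter (· ∣ (n : O))) (s₂ := pfs n)]
    · ring
    · intro p hp
      obtain ⟨h1, h2⟩ := Finset.mem_filter.1 hp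
      exact (mem_pfs hn).2 ⟨(mem_prs.1 h1).2.1, (mem_prs.1 h1).2.2, h2⟩
    · intro p hp h1
      obtain ⟨h2, h3, h4⟩ := of_mem_pfs hp
      by_cases h0 : ω i p = 0
      · rw [h0, zero_mul]
      · exact absurd (Finset.mem_filter.2 ⟨mem_prs.2 ⟨((h.wt i p).2 h0).2, h2, h3⟩, h4⟩) h1
  · rw [← Finset.sum_neg_distrib]
    exact Finset.sum_congr rfl fun p _ => neg_mul _ _

end Crest.Agent.R17.M1
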