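import Crest.Agent.R17.M1.Term0
import Crest.Agent.R17.M1.CubeC

/-!
Row 17, block M1: the small cubes (terminal case).
-/

set_option autoImplicit false

namespace Crest.Agent.R17.M1

variable {j : ℕ}

theorem t1_pow {x : ℝ} (hx : 0 ≤ x) (r : ℝ) (n m : ℕ) (h : r * n = m) : (x ^ r) ^ n = x ^ m := by
  rw [← Real.rpow_natCast, ← Real.rpow_mul hx, h, Real.rpow_natCast]

/-- `X K ≤ U c H`; `K² R² = c² H (H R²)`; `X^(1/2) R^(5/2) = (X R)^(1/2) R² ≤ U`;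
`X^(4/3) ≤ (H U)^(2/3)`, `R ≤ U^(1/4) ≤ U^(1/3)` -/
theorem br_le {X H U R T c : ℝ} (hX : 0 < X) (hH : 1 ≤ H) (hR : 1 ≤ R) (hT : 1 ≤ T) (hc : 1 ≤ c)
    (h₁ : X * R ≤ U) (h₂ : R ^ 4 ≤ U) (h₃ : X ^ 2 ≤ H * U) (h₄ : H * R ^ 2 ≤ T * U) :
    br X (c * H) R ≤ 4 * c ^ 2 * T * (U * H) := by
  have hR0 : 0 < R := by linarith
  have hH0 : 0 < H := by linarith
  have hc0 : 0 < c := by linarith
  have hR4 : R ^ 3 ≤ R ^ 4 := pow_le_pow_right₀ hR (by norm_num)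
  have hU1 : 1 ≤ U := (one_le_pow₀ hR).trans h₂
  have hU0 : 0 < U := by linarith
  have hXU : X ≤ U := (le_mul_of_one_le_right hX.le hR).trans h₁
  have hb : c * (U * H) ≤ c ^ 2 * T * (U * H) := by
    refine mul_le_mul_of_nonneg_right ?_ (by positivity)
    calc c = c * 1 * 1 := by ring
      _ ≤ c * c * T := by gcongr
      _ = _ := by ring
  have t1 : X * (c * H) ≤ c * (U * H) := by
    calc X * (c * H) ≤ U * (c * H) := by gcongr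
      _ = _ := by ring
  have t2 : (c * H) ^ 2 * R ^ 2 ≤ c ^ 2 * T * (U * H) := by
    calc (c * H) ^ 2 * R ^ 2 = c ^ 2 * H * (H * R ^ 2) := by ring
      _ ≤ c ^ 2 * H * (T * U) := by gcongr
      _ = _ := by ring
  have t3 : X ^ (1 / 2 : ℝ) * R ^ (5 / 2 : ℝ) ≤ U := by
    refine (pow_le_pow_iff_left₀ (by positivity) hU0.le two_ne_zero).1 ?_
    rw [mul_pow, t1_pow hX.le _ 2 1 (by norm_num), t1_pow hR0.le _ 2 5 (by norm_num)]
    calc X ^ 1 * R ^ 5 = X * R * R ^ 4 := by ring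
      _ ≤ U * U := by gcongr
      _ = _ := by ring
  have t3' : X ^ (1 / 2 : ℝ) * (c * H) * R ^ (5 / 2 : ℝ) ≤ c * (U * H) := by
    calc _ = c * (X ^ (1 / 2 : ℝ) * R ^ (5 / 2 : ℝ) * H) := by ring
      _ ≤ _ := by gcongr
  have t4 : X ^ (4 / 3 : ℝ) * (c * H) ^ (1 / 3 : ℝ) * R ≤ c * (U * H) := by
    refine (pow_le_pow_iff_left₀ (by positivity) (by positivity) three_ne_zero).1 ?_
    rw [mul_pow, mul_pow, t1_pow hX.le _ 3 4 (by norm_num),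
      t1_pow (by positivity : 0 ≤ c * H) _ 3 1 (by norm_num)]
    have hc3 : c ≤ c ^ 3 := le_self_pow₀ hc (by norm_num)
    calc X ^ 4 * (c * H) ^ 1 * R ^ 3 = (X ^ 2) ^ 2 * (c * H) * R ^ 3 := by ring
      _ ≤ (H * U) ^ 2 * (c ^ 3 * H) * U := by gcongr; exact hR4.trans h₂
      _ = _ := by ring
  unfold br
  linarith

/-- Recipe: `norm_sum_sq_le` over `b ∈ prims Θ` (`≤ 11 Θ` elements), `GB_le`, `wj b ^ 2 ≤ C Θ`,
`N b ≤ Θ`.  For fixed `i, b, ρ, S'` the rows `k = h (e i²)⁵ D⁶` are distinct (`Finset.sum_image`),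
non-zero, of norm `≤ c H` with `c = 1024 Θ^16` (`N e ≤ N D`, `N D J₀ ≤ Θ`, `N i ≤ 2 J₀`).  `term0` with
`Z := 1024 Z^18`, `δ := δ / 18`, `K = c H` (`H ≤ T X² / U ≤ Z²`), `R = P^s`, centre
`Y / N i / N b³ ≤ Y ≤ X`; `br_le` (`Y² ≤ H U` from `lo`, `H R² ≤ T U` from `hi`); `Blk.card_le`. -/
theorem term1 (hF : StF) (j : ℕ) {q : O} (hq : Lev q) {a δ : ℝ} (ha : 0 < a) (hδ : 0 < δ)
    (hδ1 : δ ≤ 1) : ∃ C : ℝ, 1 ≤ C ∧ ∀ (Z Θ P U X : ℝ) (s : ℕ) (ψ : O → ℂ) (D : O)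
      (ω : Fin j → O → ℂ) (S : Finset (Fin j)) (t : ℝ) (e : O) (Y J₀ H : ℝ) (J : Finset O),
      1 ≤ P → Θ ≤ Z → X * P ^ s ≤ U → P ^ (4 * s) ≤ U → U ≤ Z → Ok q P s ψ D ω S →
      DC (Z ^ δ) U X e D Y J₀ H J → nm D * J₀ ≤ Θ →
      DS1 Θ ψ D ω S a Y t e J H ≤ C * Z ^ (2 * δ) * Θ ^ 40 * U * (1 + |t|) ^ C * H := by
  classical
  obtain ⟨C₀, hC₀, H₀⟩ := term0 hF j hq ha (δ := δ / 13) (by positivity)
  obtain ⟨Cw, hCw, Hw⟩ := wj_le j (δ := 1 / 2) (by norm_num)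
  set K₀ : ℝ := 22 * (11 * (11 * (16 * 2 ^ j * Cw ^ 2 * (16 * (2 ^ j *
    (C₀ * 1024 ^ (δ / 13) * (4 * 1024 ^ 2))))))) with hK₀
  have hK0 : 0 ≤ K₀ := by positivity
  refine ⟨C₀ + K₀, by linarith, ?_⟩
  intro Z Θ P U X s ψ D ω S t e Y J₀ H J hP hΘZ hXU hPU hUZ hok hdc hDJ
  have hD1 := one_le_nm hok.prim.ne_zero
  have he1 := one_le_nm hdc.prim.ne_zero
  have hJ1 := hdc.J_ge
  have hH1 := hdc.H_ge
  have hY := hdc.Y_pos
  have hDΘ : nm D ≤ Θ := (le_mul_of_one_le_right (nm_nonneg D) hJ1).trans hDJ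
  have hJΘ : J₀ ≤ Θ := (le_mul_of_one_le_left (by linarith) hD1).trans hDJ
  have hΘ1 : 1 ≤ Θ := hJ1.trans hJΘ
  have hZ1 : 1 ≤ Z := hΘ1.trans hΘZ
  have hT1 : 1 ≤ Z ^ δ := Real.one_le_rpow hZ1 hδ.le
  have hTZ : Z ^ δ ≤ Z := Real.rpow_le_self_of_one_le hZ1 hδ1
  have hR1 : 1 ≤ P ^ s := one_le_pow₀ hP
  have hR4 : (P ^ s) ^ 4 ≤ U := by rwa [← pow_mul, mul_comm]
  have hRU : P ^ s ≤ U := (le_self_pow₀ hR1 (by norm_num)).trans hR4
  have hU1 : 1 ≤ U := hR1.trans hRU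
  have hYX : Y ≤ X := (le_mul_of_one_le_right hY.le hD1).trans hdc.Y_le
  have hX : 0 < X := hY.trans_le hYX
  have hXU' : X ≤ U := (le_mul_of_one_le_right hX.le hR1).trans hXU
  have hHR : H * (P ^ s) ^ 2 ≤ Z ^ δ * U := by
    refine le_of_mul_le_mul_right ?_ (by linarith : 0 < U)
    calc H * (P ^ s) ^ 2 * U = H * U * (P ^ s) ^ 2 := by ring
      _ ≤ Z ^ δ * X ^ 2 * (P ^ s) ^ 2 := mul_le_mul_of_nonneg_right hdc.hi (by positivity)
      _ = Z ^ δ * (X * P ^ s) ^ 2 := by ring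
      _ ≤ Z ^ δ * U ^ 2 := by gcongr
      _ = _ := by ring
  have hHZ : H ≤ Z ^ 2 := by
    calc H ≤ H * (P ^ s) ^ 2 := le_mul_of_one_le_right (by linarith) (one_le_pow₀ hR1)
      _ ≤ Z ^ δ * U := hHR
      _ ≤ Z * Z := by gcongr
      _ = _ := by ring
  have hY2 : Y ^ 2 ≤ H * U := by
    calc Y ^ 2 = 1 * Y ^ 2 * 1 := by ring
      _ ≤ Z ^ δ * Y ^ 2 * nm e := by gcongr
      _ ≤ _ := hdc.lo
  have hc1 : 1 ≤ 1024 * Θ ^ 11 := by nlinarith [one_le_pow₀ (n := 11) hΘ1]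
  have hZZ : Z ≤ 1024 * Z ^ 13 := by nlinarith [le_self_pow₀ hZ1 (n := 13) (by norm_num)]
  have hKZ : 1024 * Θ ^ 11 * H ≤ 1024 * Z ^ 13 := by
    calc 1024 * Θ ^ 11 * H ≤ 1024 * Z ^ 11 * Z ^ 2 := by gcongr
      _ = _ := by ring
  have hZδ : (1024 * Z ^ 13) ^ (δ / 13) = 1024 ^ (δ / 13) * Z ^ δ := by
    rw [Real.mul_rpow (by norm_num) (by positivity), ← Real.rpow_natCast,
      ← Real.rpow_mul (by linarith)]
    congr 2
    push_cast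
    ring
  have ht1 : 1 ≤ 1 + |t| := by linarith [abs_nonneg t]
  set M : ℝ := C₀ * (1024 ^ (δ / 13) * Z ^ δ) * (1 + |t|) ^ C₀ *
    (4 * (1024 * Θ ^ 11) ^ 2 * Z ^ δ * (U * H)) with hM
  have hM0 : 0 ≤ M := by positivity
  -- one theta energy
  have key : ∀ i ∈ J, ∀ b, Prim b → ∀ (ψ' : O → ℂ) (ω' : Fin j → O → ℂ), IsTw q ψ' → Wt q P ω' →
      ∀ S' ∈ S.powerset, ∑ h ∈ rows H,
        ‖TH ψ' ω' S' a (Y / nm i / nm b ^ 3) t (h * (e * i ^ 2) ^ 5 * D ^ 6)‖ ^ 2 ≤ M := by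
    intro i hi b hb ψ' ω' hψ' hω' S' hS'
    obtain ⟨hi1, -, hi3⟩ := hdc.blk i hi
    have hi0 := one_le_nm hi1.ne_zero
    have hb0 : 1 ≤ nm b ^ 3 := one_le_pow₀ (one_le_nm hb.ne_zero)
    have hne : (e * i ^ 2) ^ 5 * D ^ 6 ≠ 0 :=
      (((hdc.prim.mul (hi1.pow 2)).pow 5).mul (hok.prim.pow 6)).ne_zero
    have hX'0 : 0 < Y / nm i / nm b ^ 3 := by positivity
    have hX' : Y / nm i / nm b ^ 3 ≤ Y :=
      (div_le_self (by positivity) hb0).trans (div_le_self hY.le hi0)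
    have hinj : Set.InjOn (fun h : O => h * (e * i ^ 2) ^ 5 * D ^ 6) (rows H) := fun x _ y _ hxy =>
      mul_right_cancel₀ hne (by simpa only [mul_assoc] using hxy)
    rw [← Finset.sum_image (f := fun k => ‖TH ψ' ω' S' a (Y / nm i / nm b ^ 3) t k‖ ^ 2) hinj]
    refine (H₀ (1024 * Z ^ 13) (1024 * Θ ^ 11 * H) _ P (P ^ s) t ψ' ω' S' _ hψ' hω' hP
      (pow_le_pow_right₀ hP ((Finset.card_le_card (Finset.mem_powerset.1 hS')).trans hok.card))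
      (hRU.trans (hUZ.trans hZZ)) (one_le_mul_of_one_le_of_one_le hc1 hH1) hKZ hX'0
      (hX'.trans (hYX.trans (hXU'.trans (hUZ.trans hZZ)))) fun k hk => ?_).trans ?_
    · obtain ⟨h, hh, rfl⟩ := Finset.mem_image.1 hk
      obtain ⟨hh0, hh1⟩ := mem_rows.1 hh
      refine ⟨by rw [mul_assoc]; exact mul_ne_zero hh0 hne, ?_⟩
      have h1 := hdc.le
      have h2 := nm_nonneg e
      have h3 := nm_nonneg i
      have h4 := nm_nonneg h
      rw [nm_mul, nm_mul, nm_pow, nm_pow, nm_mul, nm_pow]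
      calc nm h * (nm e * nm i ^ 2) ^ 5 * nm D ^ 6
          ≤ H * (nm D * (2 * J₀) ^ 2) ^ 5 * nm D ^ 6 := by gcongr
        _ = 1024 * ((nm D * J₀) ^ 10 * nm D) * H := by ring
        _ ≤ 1024 * (Θ ^ 10 * Θ) * H := by gcongr
        _ = _ := by ring
    · rw [hZδ, hM]
      refine mul_le_mul_of_nonneg_left (br_le hX'0 hH1 hR1 hT1 hc1 ?_ hR4 ?_ hHR) (by positivity)
      · exact (mul_le_mul_of_nonneg_right (hX'.trans hYX) (by positivity)).trans hXU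
      · exact (pow_le_pow_left₀ hX'0.le hX' 2).trans hY2
  -- one cube divisor
  have key2 : ∀ i ∈ J, ∀ b ∈ prims Θ, ∑ h ∈ rows H,
      ‖mu b * GB (fd ψ D ω S a (Y / nm i) t (e * i ^ 2) h) b‖ ^ 2 ≤
        16 * 2 ^ j * (Cw ^ 2 * Θ) * Θ * (16 * (2 ^ j * M)) := by
    intro i hi b hb
    obtain ⟨hbΘ, hb⟩ := mem_prims.1 hb
    obtain ⟨Ψ, ω', hΨ, hω', hG⟩ := GB_le hq hok ha hb
    have hi0 := nm_pos (hdc.blk i hi).1.ne_zero
    have hw : wj j b ^ 2 ≤ Cw ^ 2 * Θ := by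
      calc wj j b ^ 2 ≤ (Cw * nm b ^ (1 / 2 : ℝ)) ^ 2 :=
            pow_le_pow_left₀ (zero_le_one.trans (one_le_wj j b)) (Hw b hb.ne_zero) 2
        _ = Cw ^ 2 * nm b := by
            rw [mul_pow, t1_pow (nm_nonneg b) _ 2 1 (by norm_num), pow_one]
        _ ≤ _ := by gcongr
    have hsum : ∑ h ∈ rows H, ∑ ρ ∈ Tw 4, ∑ S' ∈ S.powerset,
        ‖TH (Ψ ρ) ω' S' a (Y / nm i / nm b ^ 3) t (h * (e * i ^ 2) ^ 5 * D ^ 6)‖ ^ 2 ≤
          16 * (2 ^ j * M) := by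
      rw [Finset.sum_comm]
      have h4 : ((Tw 4).card : ℝ) ≤ 16 := by
        have h1 := card_Tw_le (q := 4) (by norm_num)
        have h2 := nm_natCast 4
        norm_num at h2
        linarith
      refine (Finset.sum_le_card_nsmul _ _ (2 ^ j * M) fun ρ hρ => ?_).trans ?_
      · rw [Finset.sum_comm]
        refine (Finset.sum_le_card_nsmul _ _ M (key i hi b hb _ _ (hΨ ρ hρ) hω')).trans ?_
        rw [nsmul_eq_mul]
        exact mul_le_mul_of_nonneg_right (card_powerset_le S) hM0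
      · rw [nsmul_eq_mul]
        exact mul_le_mul_of_nonneg_right h4 (by positivity)
    calc _ ≤ ∑ h ∈ rows H, 16 * 2 ^ j * wj j b ^ 2 * nm b * ∑ ρ ∈ Tw 4, ∑ S' ∈ S.powerset,
          ‖TH (Ψ ρ) ω' S' a (Y / nm i / nm b ^ 3) t (h * (e * i ^ 2) ^ 5 * D ^ 6)‖ ^ 2 := by
          refine Finset.sum_le_sum fun h _ => le_trans ?_ (hG _ t _ h (div_pos hY hi0))
          refine pow_le_pow_left₀ (norm_nonneg _) ?_ 2
          rw [norm_mul]
          exact mul_le_of_le_one_left (norm_nonneg _) (norm_mu_le b)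
      _ ≤ _ := by
          rw [← Finset.mul_sum]
          refine mul_le_mul ?_ hsum (Finset.sum_nonneg fun _ _ => Finset.sum_nonneg fun _ _ =>
            Finset.sum_nonneg fun _ _ => by positivity) (by positivity)
          exact mul_le_mul (mul_le_mul_of_nonneg_left hw (by positivity)) hbΘ (nm_nonneg b)
            (by positivity)
  have hcard : ((prims Θ).card : ℝ) ≤ 11 * Θ := card_le_of_nm_le (by linarith) fun n hn =>
    ⟨(mem_prims.1 hn).2.ne_zero, (mem_prims.1 hn).1⟩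
  have hJ : (J.card : ℝ) ≤ 22 * Θ := (hdc.blk.card_le (by linarith)).trans (by linarith)
  set N : ℝ := 16 * 2 ^ j * (Cw ^ 2 * Θ) * Θ * (16 * (2 ^ j * M)) with hN
  have hN0 : 0 ≤ N := by positivity
  have key3 : DS1 Θ ψ D ω S a Y t e J H ≤ 22 * Θ * (11 * Θ * (11 * Θ * N)) := by
    unfold DS1
    refine (Finset.sum_le_card_nsmul _ _ (11 * Θ * (11 * Θ * N)) fun i hi => ?_).trans ?_
    · refine (Finset.sum_le_sum fun h _ => norm_sum_sq_le _ _).trans ?_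
      rw [← Finset.mul_sum, Finset.sum_comm]
      refine mul_le_mul hcard ?_ (Finset.sum_nonneg fun _ _ => Finset.sum_nonneg fun _ _ =>
        by positivity) (by positivity)
      refine (Finset.sum_le_card_nsmul _ _ N (key2 i hi)).trans ?_
      rw [nsmul_eq_mul]
      exact mul_le_mul_of_nonneg_right hcard hN0
    · rw [nsmul_eq_mul]
      exact mul_le_mul_of_nonneg_right hJ (by positivity)
  refine key3.trans ?_
  have h2δ : Z ^ (2 * δ) = Z ^ δ * Z ^ δ := by rw [two_mul, Real.rpow_add (by linarith)]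
  have hΘ40 : Θ ^ 27 ≤ Θ ^ 40 := pow_le_pow_right₀ hΘ1 (by norm_num)
  have htC : (1 + |t|) ^ C₀ ≤ (1 + |t|) ^ (C₀ + K₀) :=
    Real.rpow_le_rpow_of_exponent_le ht1 (by linarith)
  calc 22 * Θ * (11 * Θ * (11 * Θ * N))
      = K₀ * Z ^ (2 * δ) * Θ ^ 27 * U * (1 + |t|) ^ C₀ * H := by rw [hN, hM, hK₀, h2δ]; ring
    _ ≤ _ := by gcongr; linarith

end Crest.Agent.R17.M1
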