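import Crest.Agent.R17.M1.Drop
import Crest.Agent.R17.M1.Cube
import Crest.Agent.R17.M1.Step1
import Crest.Agent.R17.M1.Term1
import Crest.Agent.R17.M1.Big

/-!
Row 17, block M1: the induction on the length.
-/

set_option autoImplicit false

namespace Crest.Agent.R17.M1

variable {j : ℕ}

/-- `Gm_eq_FB`, `cube`, `summable_fd`, `norm_sub_sq_le` -/
theorem DM_le {q : O} (hq : Lev q) {a P : ℝ} {s : ℕ} {ψ : O → ℂ} {D : O} {ω : Fin j → O → ℂ}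
    {S : Finset (Fin j)} (ha : 0 < a) (h : Ok q P s ψ D ω S) {Θ Y J₀ : ℝ} (hΘ : 1 ≤ Θ) (hY : 0 < Y)
    {J : Finset O} (hJ : Blk J₀ J) (t : ℝ) (e : O) (H : ℝ) :
    DM ψ D ω S a Y t e J H ≤ 2 * DS1 Θ ψ D ω S a Y t e J H + 2 * DS2 Θ ψ D ω S a Y t e J H := by
  unfold DM DS1 DS2
  rw [Finset.mul_sum, Finset.mul_sum, ← Finset.sum_add_distrib]
  refine Finset.sum_le_sum fun i hi => ?_
  rw [Finset.mul_sum, Finset.mul_sum, ← Finset.sum_add_distrib]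
  refine Finset.sum_le_sum fun k _ => ?_
  have hX : 0 < Y / nm i := div_pos hY (nm_pos (hJ i hi).1.ne_zero)
  rw [Gm_eq_FB hq h.tw, cube (summable_fd hq h ha hX t _ k) hΘ]
  exact norm_sub_sq_le _ _

/-- the statement at depth `k` -/
def Lvl (j : ℕ) (q : O) (k : ℕ) (a ε C C₁ : ℝ) : Prop :=
  ∀ (Z Θ P U X : ℝ) (s : ℕ), s ≤ j → 1 ≤ P → P ≤ Θ → Θ ≤ Z → X ≤ Θ ^ k → X * P ^ s ≤ U →
    P ^ (4 * s) ≤ U → U ≤ Z → PB j q a P s U X (C * Z ^ ε * Θ ^ 40 * U) C₁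

/-- the dual bound at depth `k + 1`.  With `Λ₀ = C Z^ε Θ^40 ≥ 1`: if `Θ ≤ N D · J₀`, then
`Y / J₀ ≤ X / (N D J₀) ≤ Θ^k`; `PB.mb`, `step2` with the same `U` (`N D ≤ X T ≤ Z²`).  Otherwise
`DM_le`, `term1`, `big` with `bigMB`. -/
theorem dual_step (hF : StF) (j : ℕ) {q : O} (hq : Lev q) (k : ℕ) {a δ ε C C₁ : ℝ} (ha : 0 < a)
    (hδ : 0 < δ) (hδ1 : δ ≤ 1) (hε : 0 ≤ ε) (hC : 1 ≤ C) (hC₁ : 0 ≤ C₁)
    (h : Lvl j q k (2 * a) ε C C₁) : ∃ C' C₂ : ℝ, 1 ≤ C' ∧ 0 ≤ C₂ ∧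
      ∀ (Z Θ P U X : ℝ) (s : ℕ), s ≤ j → 1 ≤ P → P ≤ Θ → Θ ≤ Z → X ≤ Θ ^ (k + 1) → X * P ^ s ≤ U →
        P ^ (4 * s) ≤ U → U ≤ Z →
        DB j q a P s (Z ^ δ) U X (C' * Z ^ (ε + 15 * δ) * Θ ^ 40 * U) C₂ := by
  have ha2 : 0 < 2 * a := by positivity
  obtain ⟨Ca, hCa, H2⟩ := step2 j hq ha hδ hδ1 hC₁
  obtain ⟨Cb, hCb, HT⟩ := term1 hF j hq ha hδ hδ1
  obtain ⟨Cc, hCc, HB⟩ := big j hq ha hδ hδ1 hC₁
  obtain ⟨Cd, hCd, HM⟩ := bigMB j hq ha2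
  have hCC : 1 ≤ Cd * C := one_le_mul_of_one_le_of_one_le hCd hC
  refine ⟨2 * Ca * C + 2 * Cb + 4 * Cc * (Cd * C), max C₁ Cb, ?_, hC₁.trans (le_max_left _ _), ?_⟩
  · nlinarith [mul_pos (zero_lt_one.trans_le hCa) (zero_lt_one.trans_le hC),
      mul_pos (zero_lt_one.trans_le hCc) (zero_lt_one.trans_le hCC)]
  intro Z Θ P U X s hs hP hPΘ hΘZ hX hXU hPU hUZ ψ D ω S t e Y J₀ H J hok hdc
  have hΘ : 1 ≤ Θ := hP.trans hPΘ
  have hZ : 1 ≤ Z := hΘ.trans hΘZ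
  have hZ0 : 0 < Z := zero_lt_one.trans_le hZ
  have hU : 1 ≤ U := (one_le_pow₀ hP).trans hPU
  have hD : 1 ≤ nm D := one_le_nm hok.prim.ne_zero
  have hY := hdc.Y_pos
  have hJ := hdc.J_ge
  have hH := hdc.H_ge
  have hYX : Y ≤ X := (le_mul_of_one_le_right hY.le hD).trans hdc.Y_le
  have hX0 : 0 < X := hY.trans_le hYX
  have hPs : 1 ≤ P ^ s := one_le_pow₀ hP
  have hXU' : X ≤ U := (le_mul_of_one_le_right hX0.le hPs).trans hXU
  set W : ℝ := Z ^ ε * Θ ^ 40 with hW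
  have hZε : 1 ≤ Z ^ ε := Real.one_le_rpow hZ hε
  have hΘ40 : Θ ≤ Θ ^ 40 := le_self_pow₀ hΘ (by norm_num)
  have hW40 : Θ ^ 40 ≤ W := le_mul_of_one_le_left (by positivity) hZε
  have hW1 : 1 ≤ W := hΘ.trans (hΘ40.trans hW40)
  set E : ℝ := Z ^ (15 * δ) with hE
  have hE0 : 0 < E := Real.rpow_pos_of_pos hZ0 _
  have ht : 1 ≤ 1 + |t| := le_add_of_nonneg_right (abs_nonneg t)
  set τ : ℝ := (1 + |t|) ^ max C₁ Cb with hτ
  have hτ1 : (1 + |t|) ^ C₁ ≤ τ := Real.rpow_le_rpow_of_exponent_le ht (le_max_left _ _)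
  have hτ2 : (1 + |t|) ^ Cb ≤ τ := Real.rpow_le_rpow_of_exponent_le ht (le_max_right _ _)
  have hτ0 : 0 < τ := Real.rpow_pos_of_pos (zero_lt_one.trans_le ht) _
  have hform : (2 * Ca * C + 2 * Cb + 4 * Cc * (Cd * C)) * Z ^ (ε + 15 * δ) * Θ ^ 40 * U * τ * H =
      (2 * Ca * C + 2 * Cb + 4 * Cc * (Cd * C)) * (E * W * U * τ * H) := by
    rw [Real.rpow_add hZ0, hW, hE]; ring
  rw [hform]
  have hQ : 0 < E * W * U * τ * H := by positivity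
  have hCW : 1 ≤ C * W := one_le_mul_of_one_le_of_one_le hC hW1
  have hl : ∀ (s' : ℕ) (U' X' : ℝ), s' ≤ s → X' ≤ Θ ^ k → X' * P ^ s' ≤ U' → P ^ (4 * s') ≤ U' →
      U' ≤ Z → PB j q (2 * a) P s' U' X' (C * W * U') C₁ := by
    intro s' U' X' h1 h2 h3 h4 h5
    have := h Z Θ P U' X' s' (h1.trans hs) hP hPΘ hΘZ h2 h3 h4 h5
    rwa [mul_assoc C, ← hW] at this
  rcases le_total Θ (nm D * J₀) with hc | hc
  · have hYJ : Y / J₀ ≤ Θ ^ k := by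
      rw [div_le_iff₀ (zero_lt_one.trans_le hJ)]
      have h1 : Y * nm D ≤ Θ ^ k * (nm D * J₀) := by
        refine hdc.Y_le.trans (hX.trans ?_)
        rw [pow_succ]
        exact mul_le_mul_of_nonneg_left hc (by positivity)
      have h2 : Y * nm D ≤ Θ ^ k * J₀ * nm D := by linarith
      exact le_of_mul_le_mul_right h2 (zero_lt_one.trans_le hD)
    have hYJ' : Y / J₀ ≤ X := (div_le_self hY.le hJ).trans hYX
    have hmb := (hl s U (Y / J₀) le_rfl hYJ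
      ((mul_le_mul_of_nonneg_right hYJ' (by positivity)).trans hXU) hPU hUZ).mb hq ha2
      (by positivity)
    have hZδ : Z ^ δ ≤ Z := by simpa using Real.rpow_le_rpow_of_exponent_le hZ hδ1
    have hD2 : nm D ≤ Z ^ 2 := by
      calc nm D ≤ nm D * J₀ := le_mul_of_one_le_right (nm_nonneg D) hJ
        _ ≤ X * Z ^ δ := hdc.J_le
        _ ≤ Z * Z := mul_le_mul (hXU'.trans hUZ) hZδ (by positivity) hZ0.le
        _ = Z ^ 2 := (sq Z).symm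
    have h2 := H2 Z P U (C * W * U) s ψ D ω S t e Y J₀ H J hZ hUZ (by positivity) hok hdc.prim hD2 hY
      (hYX.trans (hXU'.trans hUZ)) hJ hH hdc.lo hdc.blk hmb
    have h10 : Z ^ (10 * δ) ≤ E := Real.rpow_le_rpow_of_exponent_le hZ (by linarith)
    have hYle : Y + C * W * U ≤ 2 * (C * W * U) := by
      have : U ≤ C * W * U := le_mul_of_one_le_left (by positivity) hCW
      linarith
    calc DM ψ D ω S a Y t e J H ≤ Ca * Z ^ (10 * δ) * (Y + C * W * U) * (1 + |t|) ^ C₁ * H := h2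
      _ ≤ Ca * E * (2 * (C * W * U)) * τ * H := by gcongr
      _ = 2 * Ca * C * (E * W * U * τ * H) := by ring
      _ ≤ _ := by
        refine mul_le_mul_of_nonneg_right ?_ hQ.le
        have : 0 ≤ 4 * Cc * (Cd * C) := by positivity
        linarith
  · have h1 := HT Z Θ P U X s ψ D ω S t e Y J₀ H J hP hΘZ hXU hPU hUZ hok hdc hc
    have hΛ : 1 ≤ Cd * (C * W) := one_le_mul_of_one_le_of_one_le hCd hCW
    have h2 := HB Z Θ P U X (Cd * (C * W)) s ψ D ω S t e Y J₀ H J hΘZ hU hXU' hUZ hΛ hok hdc hc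
      fun β hβ => HM Z Θ P U X (C * W) C₁ β s k hs hP hPΘ hβ hX hXU hPU hUZ (by positivity) hl
    have h3 := DM_le hq ha hok hΘ hY hdc.blk t e H
    have h2δ : Z ^ (2 * δ) ≤ E := Real.rpow_le_rpow_of_exponent_le hZ (by linarith)
    have h4 : Cb * Z ^ (2 * δ) * Θ ^ 40 * U * (1 + |t|) ^ Cb * H ≤ Cb * (E * W * U * τ * H) := by
      calc _ ≤ Cb * E * W * U * τ * H := by gcongr
        _ = _ := by ring
    have hΘΛ : Θ + Cd * (C * W) ≤ 2 * (Cd * (C * W)) := by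
      have : W ≤ Cd * C * W := le_mul_of_one_le_left (by positivity) hCC
      linarith
    have h5 : Cc * E * (Θ + Cd * (C * W)) * U * (1 + |t|) ^ C₁ * H ≤
        2 * Cc * (Cd * C) * (E * W * U * τ * H) := by
      calc _ ≤ Cc * E * (2 * (Cd * (C * W))) * U * τ * H := by gcongr
        _ = _ := by ring
    have h6 : 0 ≤ 2 * Ca * C * (E * W * U * τ * H) := by positivity
    linarith

/-- induction on `k`: `PB_base`; `dual_step` at `(2 a, ε / 2)`, `δ = min 1 (ε / 50)`, `step1` -/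
theorem lvl (hF : StF) (j : ℕ) {q : O} (hq : Lev q) (k : ℕ) : ∀ a ε : ℝ, 0 < a → 0 < ε →
    ∃ C C₁ : ℝ, 1 ≤ C ∧ 0 ≤ C₁ ∧ Lvl j q k a ε C C₁ := by
  induction k with
  | zero =>
    intro a ε ha hε
    obtain ⟨C, hC, h⟩ := PB_base j hq ha
    refine ⟨C, 0, hC, le_rfl, ?_⟩
    intro Z Θ P U X s _ hP hPΘ hΘZ hX _ hPU _
    have hΘ : 1 ≤ Θ := hP.trans hPΘ
    have hU : 1 ≤ U := (one_le_pow₀ hP).trans hPU
    have hZε : 1 ≤ Z ^ ε := Real.one_le_rpow (hΘ.trans hΘZ) hε.le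
    have hΘ40 : 1 ≤ Θ ^ 40 := one_le_pow₀ hΘ
    refine (h P s U X (by positivity) (by simpa using hX)).mono le_rfl le_rfl le_rfl
      (by positivity) ?_ le_rfl
    calc C * U = C * 1 * 1 * U := by ring
      _ ≤ _ := by gcongr
  | succ k ih =>
    intro a ε ha hε
    obtain ⟨C, C₁, hC, hC₁, h⟩ := ih (2 * a) (ε / 2) (by positivity) (by positivity)
    set δ : ℝ := min 1 (ε / 50) with hδdef
    have hδ : 0 < δ := lt_min one_pos (by positivity)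
    have hδ1 : δ ≤ 1 := min_le_left _ _
    have hδε : δ ≤ ε / 50 := min_le_right _ _
    obtain ⟨C', C₂, hC', hC₂, h'⟩ := dual_step hF j hq k ha hδ hδ1 (by positivity) hC hC₁ h
    obtain ⟨C'', hC'', h''⟩ := step1 j hq ha hδ hδ1 hC₂
    refine ⟨2 * (C'' * C'), C₂, by nlinarith [one_le_mul_of_one_le_of_one_le hC'' hC'], hC₂, ?_⟩
    intro Z Θ P U X s hs hP hPΘ hΘZ hX hXU hPU hUZ
    have hΘ : 1 ≤ Θ := hP.trans hPΘ
    have hZ : 1 ≤ Z := hΘ.trans hΘZ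
    have hZ0 : 0 < Z := zero_lt_one.trans_le hZ
    have hU : 1 ≤ U := (one_le_pow₀ hP).trans hPU
    have hXZ : X ≤ Z := by
      rcases le_total X 0 with h0 | h0
      · exact h0.trans hZ0.le
      · exact ((le_mul_of_one_le_right h0 (one_le_pow₀ hP)).trans hXU).trans hUZ
    refine (h'' Z P U X _ s hU hUZ hXZ (by positivity)
      (h' Z Θ P U X s hs hP hPΘ hΘZ hX hXU hPU hUZ)).mono le_rfl le_rfl le_rfl (by positivity) ?_ le_rfl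
    have h1 : 1 ≤ C' * Z ^ (ε / 2 + 15 * δ) * Θ ^ 40 :=
      one_le_mul_of_one_le_of_one_le (one_le_mul_of_one_le_of_one_le hC'
        (Real.one_le_rpow hZ (by positivity))) (one_le_pow₀ hΘ)
    have h2 : U + C' * Z ^ (ε / 2 + 15 * δ) * Θ ^ 40 * U ≤
        2 * (C' * Z ^ (ε / 2 + 15 * δ) * Θ ^ 40 * U) := by
      have := le_mul_of_one_le_left (zero_le_one.trans hU) h1
      linarith
    have h3 : Z ^ (10 * δ) * Z ^ (ε / 2 + 15 * δ) ≤ Z ^ ε := by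
      rw [← Real.rpow_add hZ0]
      exact Real.rpow_le_rpow_of_exponent_le hZ (by linarith)
    calc C'' * Z ^ (10 * δ) * (U + C' * Z ^ (ε / 2 + 15 * δ) * Θ ^ 40 * U)
        ≤ C'' * Z ^ (10 * δ) * (2 * (C' * Z ^ (ε / 2 + 15 * δ) * Θ ^ 40 * U)) := by gcongr
      _ = 2 * (C'' * C') * (Z ^ (10 * δ) * Z ^ (ε / 2 + 15 * δ)) * Θ ^ 40 * U := by ring
      _ ≤ _ := by gcongr

/-- `Θ = max (Z^σ) P ≤ Z^σ P`, `σ = min 1 (ε / 80)`, `k σ ≥ 1` -/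
theorem main (hF : StF) (j : ℕ) {q : O} (hq : Lev q) {a ε : ℝ} (ha : 0 < a) (hε : 0 < ε) :
    ∃ C C₁ : ℝ, 1 ≤ C ∧ 0 ≤ C₁ ∧ ∀ (Z P U X : ℝ) (s : ℕ), s ≤ j → 1 ≤ P → P ≤ Z → X * P ^ s ≤ U →
      P ^ (4 * s) ≤ U → U ≤ Z → MB j q a P s U X (C * Z ^ ε * P ^ 40 * U) C₁ := by
  set σ : ℝ := min 1 (ε / 80) with hσdef
  have hσ : 0 < σ := lt_min one_pos (by positivity)
  have hσ1 : σ ≤ 1 := min_le_left _ _
  have hσε : σ ≤ ε / 80 := min_le_right _ _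
  obtain ⟨k, hk⟩ := exists_nat_ge (1 / σ)
  have hkσ : 1 ≤ σ * k := by
    rw [div_le_iff₀ hσ] at hk
    linarith
  obtain ⟨C, C₁, hC, hC₁, h⟩ := lvl hF j hq k a (ε / 2) ha (by positivity)
  refine ⟨C, C₁, hC, hC₁, ?_⟩
  intro Z P U X s hs hP hPZ hXU hPU hUZ
  have hZ : 1 ≤ Z := hP.trans hPZ
  have hZ0 : 0 < Z := zero_lt_one.trans_le hZ
  have hU : 1 ≤ U := (one_le_pow₀ hP).trans hPU
  have hZσ : 1 ≤ Z ^ σ := Real.one_le_rpow hZ hσ.le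
  have hZσ' : Z ^ σ ≤ Z := by simpa using Real.rpow_le_rpow_of_exponent_le hZ hσ1
  have hXZ : X ≤ Z := by
    rcases le_total X 0 with h0 | h0
    · exact h0.trans hZ0.le
    · exact ((le_mul_of_one_le_right h0 (one_le_pow₀ hP)).trans hXU).trans hUZ
  have hX : X ≤ max (Z ^ σ) P ^ k := by
    calc X ≤ Z := hXZ
      _ = Z ^ (1 : ℝ) := (Real.rpow_one Z).symm
      _ ≤ Z ^ (σ * k) := Real.rpow_le_rpow_of_exponent_le hZ hkσ
      _ = (Z ^ σ) ^ k := Real.rpow_mul_natCast hZ0.le σ k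
      _ ≤ _ := by gcongr; exact le_max_left _ _
  have h1 := h Z (max (Z ^ σ) P) P U X s hs hP (le_max_right _ _) (max_le hZσ' hPZ) hX hXU hPU hUZ
  have hm : max (Z ^ σ) P ≤ Z ^ σ * P :=
    max_le (le_mul_of_one_le_right (by positivity) hP) (le_mul_of_one_le_left (by positivity) hZσ)
  have hm0 : 0 ≤ max (Z ^ σ) P := le_max_of_le_left (by positivity)
  refine (h1.mono le_rfl le_rfl le_rfl (by positivity) ?_ le_rfl).mb hq ha (by positivity)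
  have h2 : Z ^ (ε / 2) * (Z ^ σ) ^ 40 ≤ Z ^ ε := by
    rw [← Real.rpow_mul_natCast hZ0.le, ← Real.rpow_add hZ0]
    refine Real.rpow_le_rpow_of_exponent_le hZ ?_
    push_cast
    linarith
  calc C * Z ^ (ε / 2) * max (Z ^ σ) P ^ 40 * U ≤ C * Z ^ (ε / 2) * (Z ^ σ * P) ^ 40 * U := by gcongr
    _ = C * (Z ^ (ε / 2) * (Z ^ σ) ^ 40) * P ^ 40 * U := by ring
    _ ≤ _ := by gcongr

end Crest.Agent.R17.M1
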