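import Crest.Agent.R17.M1.Ident

/-!
Row 17, block M1: masks are free.
-/

set_option autoImplicit false

namespace Crest.Agent.R17.M1

variable {j : ℕ}

open Filter Topology in
/-- the iteration, in the squared form `‖x + y‖² ≤ 2‖x‖² + 2‖y‖²` -/
theorem mask_iter (F : ℝ → ℝ) {B N X c : ℝ} (hN : 4 ≤ N) (hB : 0 ≤ B)
    (hstep : ∀ Y, 0 < Y → Y ≤ X → F Y ≤ 2 * (B * Y) + 2 * F (Y / N))
    (hsmall : ∀ Y, 0 < Y → Y ≤ 1 → F Y ≤ c * Y ^ 2) {Y : ℝ} (hY : 0 < Y) (hYX : Y ≤ X) :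
    F Y ≤ 4 * B * Y := by
  have hN0 : 0 < N := by linarith
  have key : ∀ K : ℕ, ∀ Y, 0 < Y → Y ≤ X → F Y ≤ 4 * B * Y + 2 ^ K * F (Y / N ^ K) := by
    intro K
    induction K with
    | zero =>
      intro Y hY _
      have := mul_nonneg hB hY.le
      simp only [pow_zero, div_one, one_mul]
      linarith
    | succ K ih =>
      intro Y hY hYX
      have h4 : Y / N ≤ Y / 4 := div_le_div_of_nonneg_left hY.le (by norm_num) hN
      have h1 := hstep Y hY hYX
      have h2 := ih (Y / N) (div_pos hY hN0) (by linarith)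
      have h3 : Y / N / N ^ K = Y / N ^ (K + 1) := by rw [div_div, pow_succ']
      rw [h3] at h2
      have h5 := mul_le_mul_of_nonneg_left h4 hB
      rw [pow_succ]
      nlinarith
  have t1 : Tendsto (fun K : ℕ => Y * (N⁻¹) ^ K) atTop (𝓝 (Y * 0)) :=
    (tendsto_pow_atTop_nhds_zero_of_lt_one (inv_pos.2 hN0).le
      (inv_lt_one_of_one_lt₀ (by linarith))).const_mul Y
  have t2 : Tendsto (fun K : ℕ => 4 * B * Y + c * Y ^ 2 * (2 / N ^ 2) ^ K) atTop
      (𝓝 (4 * B * Y + c * Y ^ 2 * 0)) :=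
    ((tendsto_pow_atTop_nhds_zero_of_lt_one (by positivity)
      ((div_lt_one (by positivity)).2 (by nlinarith))).const_mul _).const_add _
  rw [mul_zero] at t1
  rw [mul_zero, add_zero] at t2
  refine ge_of_tendsto t2 ?_
  filter_upwards [t1.eventually (gt_mem_nhds one_pos)] with K hK
  have e : Y * (N⁻¹) ^ K = Y / N ^ K := by rw [inv_pow, div_eq_mul_inv]
  rw [e] at hK
  refine (key K Y hY hYX).trans ?_
  have h1 := hsmall (Y / N ^ K) (by positivity) hK.le
  have h2 : (2 : ℝ) ^ K * (c * (Y / N ^ K) ^ 2) = c * Y ^ 2 * (2 / N ^ 2) ^ K := by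
    rw [div_pow, div_pow, ← pow_mul, ← pow_mul, mul_comm K 2]
    field_simp
  rw [← h2]
  gcongr

/-- Recipe: `Prim.induction` on `D` (statement for all `ψ ω S X' t`), step `D ↦ D p`.  If `p ∣ D`:
`Am_mask_dvd`, `pfs` unchanged.  Otherwise replace `ω` by `off ω p` (`Am_congr`), so that `Am_prime`
reads `A^{Dp}(X') = A^D(X') + c · A^{Dp}(X'/N p)`, `‖c‖ ≤ 1`.  Iterate `K` times: with `mink`
(weights `N p^(-k/2) ≤ 2^(-k)`, `four_le_nm`) the terms `A^D(X'/N p^k)`, `k < K`, give at most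
`4 · w4 D · Λ (1+|t|)^C₁ X'`, and the last term `A^{Dp}(X'/N p^K)` tends to `0` (`norm_Am_le`);
pass to the limit (`le_of_tendsto'`, finite sums are continuous).  `w4 (D p) = 4 w4 D`. -/
theorem PB.mb {q : O} (hq : Lev q) {a P U X Λ C₁ : ℝ} {s : ℕ} (ha : 0 < a) (h0 : 0 ≤ Λ)
    (h : PB j q a P s U X Λ C₁) : MB j q a P s U X Λ C₁ := by
  classical
  obtain ⟨C, -, hC⟩ := norm_Am_le j hq ha
  intro ψ D ω S X' t hok
  have hD := hok.prim
  revert ψ ω S X' t
  refine hD.induction (P := fun D => ∀ (ψ : O → ℂ) (ω : Fin j → O → ℂ) (S : Finset (Fin j))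
    (X' t : ℝ), Ok q P s ψ D ω S → 0 < X' → X' ≤ X →
      ∑ u ∈ rows U, ‖Am ψ D ω S a X' t u‖ ^ 2 ≤ w4 D * Λ * (1 + |t|) ^ C₁ * X') ?_ ?_
  · intro ψ ω S X' t hok hX hX'
    rw [w4_one, one_mul]
    exact h ψ ω S X' t hok hX hX'
  intro p D hp hp' hD ih ψ ω S X' t hok hX hX'
  rw [mul_comm p D] at hok ⊢
  by_cases hpD : p ∣ D
  · have e : w4 (D * p) = w4 D := by
      rw [w4, w4, pfs_mul hD.ne_zero hp.ne_zero, pfs_prime hp hp', Finset.union_eq_left.2]
      exact Finset.singleton_subset_iff.2 ((mem_pfs hD.ne_zero).2 ⟨hp, hp', hpD⟩)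
    simp only [Am_mask_dvd hpD, e]
    exact ih ψ ω S X' t ⟨hok.tw, hD, hok.wt, hok.card⟩ hX hX'
  have e : w4 (D * p) = 4 * w4 D := by
    have hn : p ∉ pfs D := fun hm => hpD (of_mem_pfs hm).2.2
    rw [w4, w4, pfs_mul hD.ne_zero hp.ne_zero, pfs_prime hp hp', Finset.union_singleton,
      Finset.card_insert_of_notMem hn, pow_succ']
  have hcong : ∀ u, Am ψ (D * p) ω S a X' t u = Am ψ (D * p) (off ω p) S a X' t u := fun u =>
    Am_congr (fun i _ r _ _ hr => by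
      rw [off, if_neg fun hrp => hr (hrp.mul_left D)]) t u
  have hok₁ : Ok q P s ψ D (off ω p) S := ⟨hok.tw, hD, hok.wt.off p, hok.card⟩
  have hok₂ : Ok q P s ψ (D * p) (off ω p) S := ⟨hok.tw, hok.prim, hok.wt.off p, hok.card⟩
  simp only [hcong, e]
  have hB : 0 ≤ w4 D * Λ * (1 + |t|) ^ C₁ :=
    mul_nonneg (mul_nonneg (zero_le_one.trans (one_le_w4 D)) h0) (by positivity)
  have := mask_iter (fun Y => ∑ u ∈ rows U, ‖Am ψ (D * p) (off ω p) S a Y t u‖ ^ 2)
    (c := (rows U).card * C ^ 2) (X := X) (four_le_nm hp hp') hB ?_ ?_ hX hX'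
  · refine this.trans_eq ?_
    ring
  · intro Y hY hYX
    have h1 := ih ψ (off ω p) S Y t hok₁ hY hYX
    calc ∑ u ∈ rows U, ‖Am ψ (D * p) (off ω p) S a Y t u‖ ^ 2
        ≤ ∑ u ∈ rows U, (2 * ‖Am ψ D (off ω p) S a Y t u‖ ^ 2 +
            2 * ‖Am ψ (D * p) (off ω p) S a (Y / nm p) t u‖ ^ 2) := by
          refine Finset.sum_le_sum fun u _ => ?_
          have h2 := Am_prime hq hok₁ ha hY hp hp' hpD t u
          have h3 : ∑ i ∈ S, off ω p i p * Am ψ (D * p) (off ω p) (S.erase i) a (Y / nm p) t u = 0 :=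
            Finset.sum_eq_zero fun i _ => by rw [off, if_pos dvd_rfl, zero_mul]
          rw [h3, add_zero, eq_sub_iff_add_eq] at h2
          rw [← h2]
          refine (norm_add_sq_le _ _).trans ?_
          have h4 : ‖ψ p * sx u p * Am ψ (D * p) (off ω p) S a (Y / nm p) t u‖ ≤
              ‖Am ψ (D * p) (off ω p) S a (Y / nm p) t u‖ := by
            rw [norm_mul, norm_mul]
            exact mul_le_of_le_one_left (norm_nonneg _)
              (mul_le_one₀ (hok.tw.norm_le hq.1 p) (norm_nonneg _) (norm_sx_le u p))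
          gcongr
      _ ≤ _ := by
          rw [Finset.sum_add_distrib, ← Finset.mul_sum, ← Finset.mul_sum]
          linarith
  · intro Y hY hY1
    calc ∑ u ∈ rows U, ‖Am ψ (D * p) (off ω p) S a Y t u‖ ^ 2 ≤ ∑ _u ∈ rows U, (C * Y) ^ 2 :=
          Finset.sum_le_sum fun u _ =>
            pow_le_pow_left₀ (norm_nonneg _) (hC P s ψ _ _ S Y t u hok₂ hY hY1) 2
      _ = _ := by rw [Finset.sum_const, nsmul_eq_mul]; ring

end Crest.Agent.R17.M1
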