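import Crest.Agent.R17.M1.Defs

/-!
Row 17, block M1: the marking function.  Everything follows from `mkF_empty_right` and `mkF_insert`
by induction on the finite set of primes.
-/

set_option autoImplicit false

namespace Crest.Agent.R17.M1

open scoped ComplexConjugate

variable {j : ℕ}

private theorem ind_apply (S : Finset (Fin j)) (k : Fin j) :
    (∑ i ∈ S, Finsupp.single i 1 : Fin j →₀ ℕ) k = if k ∈ S then 1 else 0 := by
  simp [Finsupp.finsetSum_apply, Finsupp.single_apply]

private theorem ind_erase {S : Finset (Fin j)} {i : Fin j} (hi : i ∈ S) :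
    (∑ i ∈ S, Finsupp.single i 1 : Fin j →₀ ℕ) - Finsupp.single i 1 =
      ∑ i ∈ S.erase i, Finsupp.single i 1 := by
  rw [← Finset.add_sum_erase S _ hi, add_tsub_cancel_left]

theorem mkF_empty_right (ω : Fin j → O → ℂ) (S : Finset (Fin j)) :
    mkF ω S ∅ = if S = ∅ then 1 else 0 := by
  rw [mkF, Finset.prod_empty, MvPolynomial.coeff_one]
  by_cases h : S = ∅
  · simp [h]
  · rw [if_neg h, if_neg]
    intro h0
    obtain ⟨k, hk⟩ := Finset.nonempty_iff_ne_empty.2 h
    have := ind_apply S k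
    rw [← h0, if_pos hk] at this
    simp at this

open Classical in
theorem mkF_insert (ω : Fin j → O → ℂ) (S : Finset (Fin j)) {F : Finset O} {p : O} (hp : p ∉ F) :
    mkF ω S (insert p F) = mkF ω S F + ∑ i ∈ S, ω i p * mkF ω (S.erase i) F := by
  rw [mkF, Finset.prod_insert hp, add_mul, one_mul, MvPolynomial.coeff_add, Finset.sum_mul,
    MvPolynomial.coeff_sum]
  congr 1
  rw [← Finset.sum_subset (Finset.subset_univ S)]
  · refine Finset.sum_congr rfl fun i hi => ?_
    rw [mul_assoc, MvPolynomial.coeff_C_mul, MvPolynomial.coeff_X_mul', if_pos, ind_erase hi, mkF]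
    rw [Finsupp.mem_support_iff, ind_apply, if_pos hi]
    exact one_ne_zero
  · intro i _ hi
    rw [mul_assoc, MvPolynomial.coeff_C_mul, MvPolynomial.coeff_X_mul', if_neg, mul_zero]
    rw [Finsupp.mem_support_iff, ind_apply, if_neg hi]
    simp

theorem mkF_empty_left (ω : Fin j → O → ℂ) (F : Finset O) : mkF ω ∅ F = 1 := by
  classical
  induction F using Finset.induction_on with
  | empty => simp [mkF_empty_right]
  | insert p F hp ih => rw [mkF_insert ω ∅ hp, ih]; simp

theorem mkF_congr {ω ω' : Fin j → O → ℂ} {S : Finset (Fin j)} {F : Finset O}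
    (h : ∀ i ∈ S, ∀ p ∈ F, ω i p = ω' i p) : mkF ω S F = mkF ω' S F := by
  classical
  induction F using Finset.induction_on generalizing S with
  | empty => simp [mkF_empty_right]
  | insert p F hp ih =>
    rw [mkF_insert ω S hp, mkF_insert ω' S hp,
      ih fun i hi r hr => h i hi r (Finset.mem_insert_of_mem hr)]
    congr 1
    refine Finset.sum_congr rfl fun i hi => ?_
    rw [h i hi p (Finset.mem_insert_self _ _),
      ih fun k hk r hr => h k (Finset.mem_of_mem_erase hk) r (Finset.mem_insert_of_mem hr)]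

/-- primes of weight zero drop out -/
theorem mkF_subset {ω : Fin j → O → ℂ} {S : Finset (Fin j)} {F F' : Finset O} (hF : F' ⊆ F)
    (h : ∀ i ∈ S, ∀ p ∈ F, p ∉ F' → ω i p = 0) : mkF ω S F = mkF ω S F' := by
  classical
  have key : ∀ G : Finset O, Disjoint G F' → (∀ i ∈ S, ∀ p ∈ G, ω i p = 0) →
      mkF ω S (G ∪ F') = mkF ω S F' := by
    intro G
    induction G using Finset.induction_on with
    | empty => simp
    | insert p G hp ih =>
      intro hd h0
      rw [Finset.disjoint_insert_left] at hd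
      rw [Finset.insert_union, mkF_insert ω S (by simp [hp, hd.1]),
        ih hd.2 fun i hi r hr => h0 i hi r (Finset.mem_insert_of_mem hr)]
      rw [Finset.sum_eq_zero, add_zero]
      intro i hi
      rw [h0 i hi p (Finset.mem_insert_self _ _), zero_mul]
  have := key (F \ F') Finset.sdiff_disjoint fun i hi p hp =>
    h i hi p (Finset.mem_sdiff.1 hp).1 (Finset.mem_sdiff.1 hp).2
  rwa [Finset.sdiff_union_of_subset hF] at this

open Classical in
theorem mkF_union (ω : Fin j → O → ℂ) (S : Finset (Fin j)) {F₁ F₂ : Finset O} (h : Disjoint F₁ F₂) :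
    mkF ω S (F₁ ∪ F₂) = ∑ S' ∈ S.powerset, mkF ω (S \ S') F₁ * mkF ω S' F₂ := by
  induction F₁ using Finset.induction_on generalizing S with
  | empty =>
    rw [Finset.empty_union, Finset.sum_eq_single S]
    · simp [mkF_empty_right]
    · intro S' hS' hne
      rw [mkF_empty_right, if_neg, zero_mul]
      intro h0
      exact hne (Finset.Subset.antisymm (Finset.mem_powerset.1 hS') (Finset.sdiff_eq_empty_iff_subset.1 h0))
    · intro h0
      exact absurd (Finset.mem_powerset_self S) h0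
  | insert p F hp ih =>
    rw [Finset.disjoint_insert_left] at h
    rw [Finset.insert_union, mkF_insert ω S (by simp [hp, h.1]), ih S h.2]
    simp only [mkF_insert ω _ hp, add_mul, Finset.sum_add_distrib, Finset.sum_mul]
    congr 1
    simp only [ih _ h.2, Finset.mul_sum]
    rw [Finset.sum_sigma', Finset.sum_sigma']
    refine Finset.sum_bij' (fun x _ => ⟨x.2, x.1⟩) (fun x _ => ⟨x.2, x.1⟩) ?_ ?_ ?_ ?_ ?_
    · rintro ⟨i, S'⟩ hx
      simp only [Finset.mem_sigma, Finset.mem_powerset, Finset.mem_sdiff] at hx ⊢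
      exact ⟨hx.2.trans (Finset.erase_subset _ _), hx.1, fun hi => by simpa using hx.2 hi⟩
    · rintro ⟨S', i⟩ hx
      simp only [Finset.mem_sigma, Finset.mem_powerset, Finset.mem_sdiff] at hx ⊢
      exact ⟨hx.2.1, Finset.subset_erase.2 ⟨hx.1, hx.2.2⟩⟩
    · rintro ⟨i, S'⟩ _; rfl
    · rintro ⟨S', i⟩ _; rfl
    · rintro ⟨i, S'⟩ _
      simp only
      rw [Finset.erase_sdiff_comm, mul_assoc]

open Classical in
theorem mkF_drop (ω : Fin j → O → ℂ) {S : Finset (Fin j)} {i : Fin j} (hi : i ∉ S) (F : Finset O) :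
    mkF ω (insert i S) F = ∑ p ∈ F, ω i p * mkF ω S (F.erase p) := by
  induction F using Finset.induction_on generalizing S with
  | empty => simp [mkF_empty_right]
  | insert p F hp ih =>
    rw [mkF_insert ω _ hp, Finset.sum_insert hi, Finset.erase_insert hi, Finset.sum_insert hp,
      Finset.erase_insert hp, ih hi]
    have h1 : ∀ k ∈ S, ω k p * mkF ω ((insert i S).erase k) F =
        ∑ r ∈ F, ω i r * (ω k p * mkF ω (S.erase k) (F.erase r)) := by
      intro k hk
      have hik : i ≠ k := fun h => hi (h ▸ hk)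
      rw [Finset.erase_insert_of_ne hik, ih (fun h => hi (Finset.mem_of_mem_erase h)),
        Finset.mul_sum]
      exact Finset.sum_congr rfl fun r _ => by ring
    have h2 : ∀ r ∈ F, ω i r * mkF ω S ((insert p F).erase r) =
        ω i r * mkF ω S (F.erase r) + ∑ k ∈ S, ω i r * (ω k p * mkF ω (S.erase k) (F.erase r)) := by
      intro r hr
      have hpr : p ≠ r := fun h => hp (h ▸ hr)
      rw [Finset.erase_insert_of_ne hpr, mkF_insert ω S (fun h => hp (Finset.mem_of_mem_erase h)),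
        mul_add, Finset.mul_sum]
    rw [Finset.sum_congr rfl h1, Finset.sum_congr rfl h2, Finset.sum_add_distrib, Finset.sum_comm]
    ring

theorem norm_mkF_le {ω : Fin j → O → ℂ} (h : ∀ i p, ‖ω i p‖ ≤ 1) (S : Finset (Fin j)) (F : Finset O) :
    ‖mkF ω S F‖ ≤ (1 + j : ℝ) ^ F.card := by
  classical
  induction F using Finset.induction_on generalizing S with
  | empty =>
    rw [mkF_empty_right]
    split_ifs <;> simp
  | insert p F hp ih =>
    rw [mkF_insert ω S hp, Finset.card_insert_of_notMem hp, pow_succ]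
    have hS : (S.card : ℝ) ≤ j := by
      exact_mod_cast (Finset.card_le_univ S).trans (Fintype.card_fin j).le
    have h0 : (0 : ℝ) ≤ (1 + j : ℝ) ^ F.card := by positivity
    have h1 : ‖∑ i ∈ S, ω i p * mkF ω (S.erase i) F‖ ≤ S.card * (1 + j : ℝ) ^ F.card := by
      refine (norm_sum_le _ _).trans ?_
      rw [← nsmul_eq_mul]
      refine Finset.sum_le_card_nsmul _ _ _ fun i _ => ?_
      rw [norm_mul]
      exact (mul_le_mul (h i p) (ih _) (norm_nonneg _) zero_le_one).trans (one_mul _).le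
    have h2 := mul_le_mul_of_nonneg_right hS h0
    have h3 := ih S
    have h4 := norm_add_le (mkF ω S F) (∑ i ∈ S, ω i p * mkF ω (S.erase i) F)
    linarith

theorem mkF_eq_zero_of_lt (ω : Fin j → O → ℂ) {S : Finset (Fin j)} {F : Finset O}
    (h : F.card < S.card) : mkF ω S F = 0 := by
  classical
  induction F using Finset.induction_on generalizing S with
  | empty =>
    rw [mkF_empty_right, if_neg]
    rintro rfl
    simp at h
  | insert p F hp ih =>
    rw [Finset.card_insert_of_notMem hp] at h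
    rw [mkF_insert ω S hp, ih (by omega), zero_add]
    refine Finset.sum_eq_zero fun i hi => ?_
    rw [ih (by rw [Finset.card_erase_of_mem hi]; omega), mul_zero]

theorem mkF_eq_sum (ω : Fin j → O → ℂ) (S : Finset (Fin j)) (F : Finset O) :
    mkF ω S F = ∑ F' ∈ F.powersetCard S.card, mkF ω S F' := by
  classical
  induction F using Finset.induction_on generalizing S with
  | empty =>
    rcases Nat.eq_zero_or_pos S.card with h | h
    · simp [h]
    · rw [Finset.powersetCard_eq_empty.2 (by simpa using h), Finset.sum_empty]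
      exact mkF_eq_zero_of_lt ω (by simpa using h)
  | insert p F hp ih =>
    rcases Nat.eq_zero_or_pos S.card with h | h
    · obtain rfl := Finset.card_eq_zero.1 h
      simp [mkF_empty_left]
    · obtain ⟨n, hn⟩ : ∃ n, S.card = n + 1 := ⟨S.card - 1, by omega⟩
      rw [hn, Finset.powersetCard_succ_insert hp, Finset.sum_union, Finset.sum_image,
        mkF_insert ω S hp, ih S, hn]
      · congr 1
        have h1 : ∀ F' ∈ F.powersetCard n, mkF ω S (insert p F') =
            ∑ i ∈ S, ω i p * mkF ω (S.erase i) F' := by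
          intro F' hF'
          rw [Finset.mem_powersetCard] at hF'
          rw [mkF_insert ω S fun h => hp (hF'.1 h), mkF_eq_zero_of_lt ω (by omega), zero_add]
        rw [Finset.sum_congr rfl h1, Finset.sum_comm]
        refine Finset.sum_congr rfl fun i hi => ?_
        rw [ih (S.erase i), Finset.card_erase_of_mem hi, hn, Finset.mul_sum]
        rfl
      · intro F₁ h₁ F₂ h₂ h12
        have hp₁ : p ∉ F₁ := fun h => hp ((Finset.mem_powersetCard.1 h₁).1 h)
        have hp₂ : p ∉ F₂ := fun h => hp ((Finset.mem_powersetCard.1 h₂).1 h)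
        rw [← Finset.erase_insert hp₁, ← Finset.erase_insert hp₂]
        exact congrArg (fun G => Finset.erase G p) h12
      · rw [Finset.disjoint_left]
        intro G hG hG'
        obtain ⟨F', -, rfl⟩ := Finset.mem_image.1 hG'
        exact hp ((Finset.mem_powersetCard.1 hG).1 (Finset.mem_insert_self _ _))

theorem mkF_ne_zero {ω : Fin j → O → ℂ} {S : Finset (Fin j)} {F : Finset O} (hc : F.card = S.card)
    (h : mkF ω S F ≠ 0) : ∀ p ∈ F, ∃ i ∈ S, ω i p ≠ 0 := by
  classical
  intro p hp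
  by_contra hne
  push Not at hne
  apply h
  rw [mkF_subset (F' := F.erase p) (Finset.erase_subset _ _)]
  · refine mkF_eq_zero_of_lt ω ?_
    rw [← hc]
    exact Finset.card_erase_lt_of_mem hp
  · intro i hi r hr hr'
    obtain rfl : r = p := by
      by_contra h'
      exact hr' (Finset.mem_erase.2 ⟨h', hr⟩)
    exact hne i hi

/-! ### on elements -/

@[simp] theorem mk_empty (ω : Fin j → O → ℂ) (n : O) : mk ω ∅ n = 1 := mkF_empty_left _ _

theorem pfs_zero : pfs 0 = ∅ := by
  classical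
  rw [Finset.eq_empty_iff_forall_notMem]
  intro p hp
  simp only [pfs, pdiv, Finset.mem_filter, mem_ball, nm_zero] at hp
  exact absurd (one_le_nm hp.2.ne_zero) (by linarith [hp.1.1])

theorem pfs_one : pfs 1 = ∅ := by
  rw [Finset.eq_empty_iff_forall_notMem]
  intro p hp
  rw [mem_pfs one_ne_zero] at hp
  exact hp.1.not_isUnit (isUnit_of_dvd_one hp.2.2)

theorem of_mem_pfs {n p : O} (hp : p ∈ pfs n) : Prime p ∧ Prim p ∧ p ∣ n := by
  rcases eq_or_ne n 0 with rfl | hn
  · simp [pfs_zero] at hp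
  · exact (mem_pfs hn).1 hp

theorem mk_congr {ω ω' : Fin j → O → ℂ} {S : Finset (Fin j)} {n : O}
    (h : ∀ i ∈ S, ∀ p, Prime p → Prim p → p ∣ n → ω i p = ω' i p) : mk ω S n = mk ω' S n := by
  exact mkF_congr fun i hi p hp =>
    h i hi p (of_mem_pfs hp).1 (of_mem_pfs hp).2.1 (of_mem_pfs hp).2.2

theorem Wt.off {q : O} {P : ℝ} {ω : Fin j → O → ℂ} (h : Wt q P ω) (B : O) : Wt q P (off ω B) := by
  intro i p
  unfold M1.off
  split_ifs
  · simp
  · exact h i p

theorem Wt.mono {q : O} {P P' : ℝ} {ω : Fin j → O → ℂ} (h : Wt q P ω) (hP : P ≤ P') : Wt q P' ω := by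
  exact fun i p => ⟨(h i p).1, fun h0 => ⟨((h i p).2 h0).1, ((h i p).2 h0).2.trans hP⟩⟩

theorem mk_mul_coprime (ω : Fin j → O → ℂ) (S : Finset (Fin j)) {L m : O} (hL : L ≠ 0) (hm : m ≠ 0)
    (h : IsCoprime L m) : mk ω S (L * m) = ∑ S' ∈ S.powerset, mk ω (S \ S') L * mk ω S' m := by
  classical
  simp only [mk]
  rw [pfs_mul hL hm]
  convert mkF_union ω S (pfs_disjoint h) using 2

/-- no coprimality; `pfs (B ^ 3 * m) = pfs B ∪ (pfs m \ pfs B)` -/
theorem mk_cube_mul (ω : Fin j → O → ℂ) (S : Finset (Fin j)) {B m : O} (hB : B ≠ 0) (hm : m ≠ 0) :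
    mk ω S (m * B ^ 3) = ∑ S' ∈ S.powerset, mk ω (S \ S') B * mk (off ω B) S' m := by
  classical
  have hne : m * B ^ 3 ≠ 0 := mul_ne_zero hm (pow_ne_zero 3 hB)
  have h1 : pfs (m * B ^ 3) = pfs B ∪ (pfs m \ pfs B) := by
    ext p
    simp only [Finset.mem_union, Finset.mem_sdiff, mem_pfs hne, mem_pfs hB, mem_pfs hm]
    constructor
    · rintro ⟨hp, hp', hd⟩
      by_cases hb : p ∣ B
      · exact Or.inl ⟨hp, hp', hb⟩
      · rcases hp.dvd_or_dvd hd with h | h
        · exact Or.inr ⟨⟨hp, hp', h⟩, fun h' => hb h'.2.2⟩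
        · exact absurd (hp.dvd_of_dvd_pow h) hb
    · rintro (⟨hp, hp', hd⟩ | ⟨⟨hp, hp', hd⟩, -⟩)
      · exact ⟨hp, hp', (hd.trans (dvd_pow_self B three_ne_zero)).mul_left _⟩
      · exact ⟨hp, hp', hd.mul_right _⟩
  rw [mk, h1]
  have h2 := mkF_union ω S (F₁ := pfs B) (F₂ := pfs m \ pfs B) Finset.disjoint_sdiff
  refine (Eq.trans (by convert rfl) h2).trans (Finset.sum_congr rfl fun S' _ => ?_)
  congr 1
  rw [mk, mkF_subset (ω := off ω B) (F := pfs m) (F' := pfs m \ pfs B) Finset.sdiff_subset]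
  · refine mkF_congr fun i _ p hp => ?_
    rw [Finset.mem_sdiff, mem_pfs hm, mem_pfs hB] at hp
    rw [off, if_neg fun h => hp.2 ⟨hp.1.1, hp.1.2.1, h⟩]
  · intro i _ p hp hp'
    have : p ∈ pfs B := by
      by_contra h
      exact hp' (Finset.mem_sdiff.2 ⟨hp, h⟩)
    rw [off, if_pos (of_mem_pfs this).2.2]

theorem mk_prime_mul (ω : Fin j → O → ℂ) (S : Finset (Fin j)) {p m : O} (hp : Prime p) (hp' : Prim p)
    (hm : ¬ p ∣ m) : mk ω S (p * m) = mk ω S m + ∑ i ∈ S, ω i p * mk ω (S.erase i) m := by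
  classical
  have hm0 : m ≠ 0 := fun h => hm (h ▸ dvd_zero p)
  have hpm : p ∉ pfs m := fun h => hm (of_mem_pfs h).2.2
  have h1 : pfs (p * m) = insert p (pfs m) := by
    rw [pfs_mul hp.ne_zero hm0, pfs_prime hp hp']
    ext r
    simp
  simp only [mk]
  rw [h1]
  convert mkF_insert ω S hpm

theorem norm_mk_le {q : O} {P : ℝ} {ω : Fin j → O → ℂ} (h : Wt q P ω) (S : Finset (Fin j)) (n : O) :
    ‖mk ω S n‖ ≤ wj j n := by
  exact norm_mkF_le (fun i p => (h i p).1) S _

theorem one_le_wj (j : ℕ) (n : O) : 1 ≤ wj j n := by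
  exact one_le_pow₀ (le_add_of_nonneg_right (Nat.cast_nonneg j))

theorem one_le_w4 (n : O) : 1 ≤ w4 n := by
  exact one_le_pow₀ (by norm_num)

@[simp] theorem w4_one : w4 1 = 1 := by
  simp [w4, pfs_one]

theorem w4_mul_le {a b : O} (ha : a ≠ 0) (hb : b ≠ 0) : w4 (a * b) ≤ w4 a * w4 b := by
  classical
  rw [w4, w4, w4, ← pow_add, pfs_mul ha hb]
  refine pow_le_pow_right₀ (by norm_num) ?_
  convert Finset.card_union_le (pfs a) (pfs b)

theorem w4_mul_prime_le {D p : O} (hD : D ≠ 0) (hp : Prime p) (hp' : Prim p) :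
    w4 (D * p) ≤ 4 * w4 D := by
  refine (w4_mul_le hD hp.ne_zero).trans ?_
  rw [w4, w4, pfs_prime hp hp', Finset.card_singleton, pow_one, mul_comm]

theorem card_pfs_sq_le (D : O) : ((pfs D).card : ℝ) ^ 2 ≤ w4 D := by
  have h : ((pfs D).card : ℝ) ≤ 2 ^ (pfs D).card := by
    exact_mod_cast (Nat.lt_two_pow_self).le
  calc ((pfs D).card : ℝ) ^ 2 ≤ (2 ^ (pfs D).card) ^ 2 := by gcongr
    _ = w4 D := by rw [w4, ← pow_mul, mul_comm, pow_mul]; norm_num

/-- `pow_card_pfs_le` -/
theorem wj_le (j : ℕ) {δ : ℝ} (hδ : 0 < δ) : ∃ C : ℝ, 0 < C ∧ ∀ n : O, n ≠ 0 →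
    wj j n ≤ C * nm n ^ δ := by
  obtain ⟨C, hC, h⟩ := pow_card_pfs_le (1 + j : ℝ) hδ
  refine ⟨C, hC, fun n hn => ?_⟩
  have := h n hn
  rwa [abs_of_nonneg (by positivity)] at this

theorem w4_le {δ : ℝ} (hδ : 0 < δ) : ∃ C : ℝ, 0 < C ∧ ∀ n : O, n ≠ 0 → w4 n ≤ C * nm n ^ δ := by
  obtain ⟨C, hC, h⟩ := pow_card_pfs_le (4 : ℝ) hδ
  refine ⟨C, hC, fun n hn => ?_⟩
  have := h n hn
  rwa [abs_of_nonneg (by positivity)] at this

open Classical in
/-- the form used by `StF`: `c r = mk ω S r` on the squarefree `r` with exactly `|S|` prime factors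
(`mkF_eq_sum`, `mkF_ne_zero`, `pfs_prod`, `squarefree_prod`) -/
theorem mk_eq_sum_dvd {q : O} {P : ℝ} {ω : Fin j → O → ℂ} (h : Wt q P ω) (hP : 1 ≤ P)
    (S : Finset (Fin j)) : ∃ (Rs : Finset O) (c : O → ℂ),
      (∀ r ∈ Rs, Prim r ∧ Squarefree r ∧ IsCoprime r q ∧ nm r ≤ P ^ S.card) ∧
      (∀ r, ‖c r‖ ≤ (1 + j : ℝ) ^ j) ∧
      ∀ n, n ≠ 0 → mk ω S n = ∑ r ∈ Rs, if r ∣ n then c r else 0 := by
  set Rs : Finset O := (prims (P ^ S.card)).filter fun r =>
    Squarefree r ∧ IsCoprime r q ∧ (pfs r).card = S.card with hRs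
  have hS : S.card ≤ j := (Finset.card_le_univ S).trans (Fintype.card_fin j).le
  refine ⟨Rs, fun r => if (pfs r).card = S.card then mk ω S r else 0, ?_, ?_, ?_⟩
  · intro r hr
    rw [hRs, Finset.mem_filter, mem_prims] at hr
    exact ⟨hr.1.2, hr.2.1, hr.2.2.1, hr.1.1⟩
  · intro r
    have h1 : (1 : ℝ) ≤ 1 + j := le_add_of_nonneg_right (Nat.cast_nonneg j)
    simp only
    split_ifs with hc
    · refine (norm_mk_le h S r).trans ?_
      rw [wj, hc]
      exact pow_le_pow_right₀ h1 hS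
    · rw [norm_zero]
      positivity
  · intro n hn
    rw [mk, mkF_eq_sum, ← Finset.sum_filter]
    symm
    refine Finset.sum_bij_ne_zero (fun r _ _ => pfs r) ?_ ?_ ?_ ?_
    · intro r hr _
      rw [Finset.mem_filter, hRs, Finset.mem_filter, mem_prims] at hr
      rw [Finset.mem_powersetCard]
      refine ⟨fun p hp => ?_, hr.1.2.2.2⟩
      obtain ⟨h1, h2, h3⟩ := of_mem_pfs hp
      exact (mem_pfs hn).2 ⟨h1, h2, h3.trans hr.2⟩
    · intro r hr _ r' hr' _ hrr
      rw [Finset.mem_filter, hRs, Finset.mem_filter, mem_prims] at hr hr'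
      rw [← hr.1.1.2.rad_eq hr.1.2.1, ← hr'.1.1.2.rad_eq hr'.1.2.1, rad, rad, hrr]
    · intro F hF hne
      rw [Finset.mem_powersetCard] at hF
      have hpr : ∀ p ∈ F, Prime p ∧ Prim p := fun p hp =>
        ⟨(of_mem_pfs (hF.1 hp)).1, (of_mem_pfs (hF.1 hp)).2.1⟩
      have hw : ∀ p ∈ F, IsCoprime p q ∧ nm p ≤ P := by
        intro p hp
        obtain ⟨i, -, hi⟩ := mkF_ne_zero hF.2 hne p hp
        exact (h i p).2 hi
      have hmem : (∏ p ∈ F, p) ∈ Rs.filter (· ∣ n) := by
        rw [Finset.mem_filter, hRs, Finset.mem_filter, mem_prims]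
        refine ⟨⟨⟨?_, prim_prod fun p hp => (hpr p hp).2⟩, squarefree_prod hpr,
          IsCoprime.prod_left fun p hp => (hw p hp).1, by rw [pfs_prod hpr, hF.2]⟩, ?_⟩
        · rw [nm_prod, ← hF.2, ← Finset.prod_const]
          exact Finset.prod_le_prod (fun p _ => nm_nonneg p) fun p hp => (hw p hp).2
        · exact (Finset.prod_dvd_prod_of_subset _ _ _ hF.1).trans (rad_dvd n)
      refine ⟨∏ p ∈ F, p, hmem, ?_, pfs_prod hpr⟩
      simp only [pfs_prod hpr, hF.2, if_true, mk]
      exact hne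
    · intro r hr _
      rw [Finset.mem_filter, hRs, Finset.mem_filter, mem_prims] at hr
      simp only [hr.1.2.2.2, if_true, mk]

end Crest.Agent.R17.M1
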