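import Crest.Agent.R17.B.All

/-!
Row 17, block M1: superposition INSIDE the norm.  The centres depend on an inner index `p`; the
kernel is absorbed into coefficients `θ p` of norm at most one.
-/

set_option autoImplicit false

namespace Crest.Agent.R17.M1

/-- Recipe: `Adm.SS_eq_twist` for each `(k, p)` with `Y₀ := Y' p`.  `‖twk a b δ t τ‖ ≤ c · w τ` for
`|δ| ≤ D`, where `w τ = exp (-e (τ - t)²)`, `e = a²b²/(b²-a²)/2 > 0`.  Put
`θ τ p = twk a b (log (Y p / Y' p)) t τ / (c · w τ)` for `p ∈ B` (else `0`), so that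
`∑_p SS = ∫ c · w τ · Φ k τ`, `Φ k τ = ∑_p θ τ p · SS (c k p) l b (Y' p) τ` (continuous in `τ` by
`Adm.continuous_SS`, bounded by `Adm.norm_SS_le`).  Cauchy–Schwarz
`‖∫ w Φ‖² ≤ (∫ w) ∫ w ‖Φ‖²`, `integral_finset_sum`, and `∫ w τ (1 + |τ|)^m ≤ C (1 + |t|)^m`
(`1 + |τ| ≤ (1 + |t|)(1 + |τ - t|)`).  The proof of `sum_twist` in `B/Super.lean` has the same steps. -/
theorem sum_twist_in {a b m : ℝ} (ha : 0 < a) (hab : a < b) (hm : 0 ≤ m) (D : ℝ) :
    ∃ C : ℝ, 0 < C ∧ ∀ {κ π ι : Type} (A : Finset κ) (B : Finset π) (c : κ → π → ι → ℂ) (l : ι → ℝ)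
      (σ : ℝ) (Y Y' : π → ℝ) (t M : ℝ),
      (∀ k ∈ A, ∀ p ∈ B, Adm (c k p) l σ) →
      (∀ p ∈ B, 0 < Y p ∧ 0 < Y' p ∧ |Real.log (Y p / Y' p)| ≤ D) →
      (∀ (τ : ℝ) (θ : π → ℂ), (∀ p, ‖θ p‖ ≤ 1) →
        ∑ k ∈ A, ‖∑ p ∈ B, θ p * SS (c k p) l b (Y' p) τ‖ ^ 2 ≤ M * (1 + |τ|) ^ m) →
      ∑ k ∈ A, ‖∑ p ∈ B, SS (c k p) l a (Y p) t‖ ^ 2 ≤ C * M * (1 + |t|) ^ m := by
  classical
  have hD : 0 < b ^ 2 - a ^ 2 := by nlinarith
  have hb : 0 < b := ha.trans hab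
  set E : ℝ := a ^ 2 * b ^ 2 / (b ^ 2 - a ^ 2) with hE
  have hE0 : 0 < E / 2 := by positivity
  set K : ℝ := √E / √(2 * Real.pi) * Real.exp (D ^ 2 / (2 * (b ^ 2 - a ^ 2))) with hK
  have hK0 : 0 < K := by positivity
  obtain ⟨C₀, hC₀, h₀⟩ := gauss_poly hE0 (le_refl 0)
  obtain ⟨C₁, hC₁, h₁⟩ := gauss_poly hE0 hm
  refine ⟨K * C₀ * (K * C₁), by positivity, ?_⟩
  intro κ π ι A B c l σ Y Y' t M hA hB hM
  have hM0 : 0 ≤ M := by
    have h0 := (Finset.sum_nonneg fun k _ => sq_nonneg _).trans (hM 0 0 fun _ => by simp)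
    simpa using h0
  let φ : ℝ → ℝ := fun τ => K * Real.exp (-(E / 2) * (τ - t) ^ 2)
  have hφ0 : ∀ τ, 0 < φ τ := fun τ => by positivity
  have hφc : Continuous φ := by fun_prop
  have hφne : ∀ τ, (φ τ : ℂ) ≠ 0 := fun τ => Complex.ofReal_ne_zero.2 (hφ0 τ).ne'
  have hφi : MeasureTheory.Integrable φ := by
    have := (integrable_gauss_poly hE0 (le_refl 0) t).const_mul K
    simpa only [Real.rpow_zero, mul_one] using this
  have hφI : ∫ τ, φ τ ≤ K * C₀ := by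
    have := h₀ t
    simp only [Real.rpow_zero, mul_one] at this
    rw [MeasureTheory.integral_const_mul]
    exact mul_le_mul_of_nonneg_left this hK0.le
  let Φ : κ → ℝ → ℂ := fun k τ =>
    ∑ p ∈ B, twk a b (Real.log (Y p / Y' p)) t τ / φ τ * SS (c k p) l b (Y' p) τ
  have hΦc : ∀ k ∈ A, Continuous (Φ k) := fun k hk =>
    continuous_finsetSum B fun p hp =>
      ((supa_cont_twk a b _ t).div (Complex.continuous_ofReal.comp hφc) hφne).mul
        (sb_cont_twist (hA k hk p hp) hb (hB p hp).2.1)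
  have hΦ : ∀ τ, ∑ k ∈ A, ‖Φ k τ‖ ^ 2 ≤ M * (1 + |τ|) ^ m := by
    intro τ
    refine le_trans (le_of_eq (Finset.sum_congr rfl fun k _ => ?_))
      (hM τ (fun p => if p ∈ B then twk a b (Real.log (Y p / Y' p)) t τ / φ τ else 0) fun p => ?_)
    · congr 2
      exact Finset.sum_congr rfl fun p hp => by rw [if_pos hp]
    · split_ifs with hp
      · rw [norm_div, Complex.norm_real, Real.norm_of_nonneg (hφ0 τ).le, div_le_one (hφ0 τ),
          sb_norm_twk]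
        refine mul_le_mul_of_nonneg_right (mul_le_mul_of_nonneg_left (Real.exp_le_exp.2 ?_)
          (by positivity)) (Real.exp_pos _).le
        exact div_le_div_of_nonneg_right
          (sq_le_sq' (abs_le.1 (hB p hp).2.2).1 (abs_le.1 (hB p hp).2.2).2) (by positivity)
      · simp
  have hG := (integrable_gauss_poly hE0 hm t).const_mul (K * M)
  have hle : ∀ τ (x : ℝ), x ≤ M * (1 + |τ|) ^ m →
      φ τ * x ≤ K * M * (Real.exp (-(E / 2) * (τ - t) ^ 2) * (1 + |τ|) ^ m) := fun τ x hx =>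
    (mul_le_mul_of_nonneg_left hx (hφ0 τ).le).trans (le_of_eq (by simp only [φ]; ring))
  have hint : ∀ k ∈ A, MeasureTheory.Integrable fun τ => φ τ * ‖Φ k τ‖ ^ 2 := fun k hk =>
    hG.mono' (hφc.mul ((hΦc k hk).norm.pow 2)).aestronglyMeasurable
      (Filter.Eventually.of_forall fun τ => by
        rw [Real.norm_of_nonneg (mul_nonneg (hφ0 τ).le (sq_nonneg _))]
        exact hle τ _ ((Finset.single_le_sum (f := fun k => ‖Φ k τ‖ ^ 2)
          (fun _ _ => sq_nonneg _) hk).trans (hΦ τ)))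
  have hk : ∀ k ∈ A, ‖∑ p ∈ B, SS (c k p) l a (Y p) t‖ ^ 2 ≤ K * C₀ * ∫ τ, φ τ * ‖Φ k τ‖ ^ 2 := by
    intro k hk
    have h2 : ∑ p ∈ B, SS (c k p) l a (Y p) t = ∫ τ, (φ τ : ℂ) * Φ k τ := by
      rw [Finset.sum_congr rfl fun p hp =>
          ((hA k hk p hp).SS_eq_twist ha hab (hB p hp).1 (hB p hp).2.1 t).2,
        ← MeasureTheory.integral_finsetSum _ fun p hp =>
          ((hA k hk p hp).SS_eq_twist ha hab (hB p hp).1 (hB p hp).2.1 t).1]
      congr 1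
      funext τ
      rw [Finset.mul_sum]
      refine Finset.sum_congr rfl fun p _ => ?_
      rw [← mul_assoc, mul_div_cancel₀ _ (hφne τ)]
    rw [h2]
    refine (gb_cs (hΦc k hk).aestronglyMeasurable (fun τ => ?_) hφi (hint k hk)).trans
      (mul_le_mul_of_nonneg_right hφI (MeasureTheory.integral_nonneg fun τ =>
        mul_nonneg (hφ0 τ).le (sq_nonneg _)))
    rw [Complex.norm_real, Real.norm_of_nonneg (hφ0 τ).le]
  calc ∑ k ∈ A, ‖∑ p ∈ B, SS (c k p) l a (Y p) t‖ ^ 2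
      ≤ ∑ k ∈ A, K * C₀ * ∫ τ, φ τ * ‖Φ k τ‖ ^ 2 := Finset.sum_le_sum hk
    _ = K * C₀ * ∫ τ, ∑ k ∈ A, φ τ * ‖Φ k τ‖ ^ 2 := by
        rw [MeasureTheory.integral_finsetSum _ hint, Finset.mul_sum]
    _ ≤ K * C₀ * ∫ τ, K * M * (Real.exp (-(E / 2) * (τ - t) ^ 2) * (1 + |τ|) ^ m) := by
        refine mul_le_mul_of_nonneg_left (MeasureTheory.integral_mono
          (MeasureTheory.integrable_finsetSum _ hint) hG fun τ => ?_) (by positivity)
        change ∑ k ∈ A, φ τ * ‖Φ k τ‖ ^ 2 ≤ _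
        rw [← Finset.mul_sum]
        exact hle τ _ (hΦ τ)
    _ ≤ K * C₀ * (K * M * (C₁ * (1 + |t|) ^ m)) := by
        rw [MeasureTheory.integral_const_mul]
        exact mul_le_mul_of_nonneg_left (mul_le_mul_of_nonneg_left (h₁ t) (by positivity))
          (by positivity)
    _ = _ := by ring

end Crest.Agent.R17.M1
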