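import Crest.Agent.R17.M1.Ident
import Crest.Agent.R17.M1.SupI

/-!
Row 17, block M1: from the product form to the coprime form, the main term.
-/

set_option autoImplicit false

namespace Crest.Agent.R17.M1

open scoped ComplexConjugate

variable {j : ℕ}

private theorem redA_SS {ι : Type*} (z : ℂ) (c : ι → ℂ) (l : ι → ℝ) (a Y t : ℝ) :
    SS (fun n => z * c n) l a Y t = z * SS c l a Y t := by
  simp only [SS, mul_assoc, tsum_mul_left]

private theorem redA_log {X Q N : ℝ} (hX : 0 < X) (hQ : 0 < Q) (h1 : Q ≤ 2 * N) (h2 : N ≤ 2 * Q) :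
    |Real.log (X / (X * Q / N))| ≤ 1 := by
  have hN : 0 < N := by linarith
  have e : X / (X * Q / N) = N / Q := by field_simp
  rw [e, abs_le]
  constructor
  · have h3 := Real.log_le_sub_one_of_pos (div_pos hQ hN)
    have h4 : Q / N ≤ 2 := (div_le_iff₀ hN).2 h1
    rw [← inv_div N Q, Real.log_inv, inv_div] at h3
    linarith
  · have h3 := Real.log_le_sub_one_of_pos (div_pos hN hQ)
    have h4 : N / Q ≤ 2 := (div_le_iff₀ hQ).2 h2
    linarith

open Classical in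
private theorem redA_wt {q : O} (hq : Lev q) {P : ℝ} {ψ : O → ℂ} (hψ : IsTw q ψ) {ω : Fin j → O → ℂ}
    (h : Wt q P ω) (i : Fin j) (B : Finset O) {θ : O → ℂ} (hθ : ∀ p, ‖θ p‖ ≤ 1) :
    Wt q P (Function.update ω i fun p => if p ∈ B then θ p * ω i p * conj (ψ p) else 0) := by
  intro i' p
  by_cases hi : i' = i
  · subst hi
    rw [Function.update_self]
    split_ifs
    · refine ⟨?_, fun h0 => (h i' p).2 (right_ne_zero_of_mul (left_ne_zero_of_mul h0))⟩
      rw [norm_mul, norm_mul, Complex.norm_conj]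
      exact mul_le_one₀ (mul_le_one₀ (hθ p) (norm_nonneg _) (h i' p).1) (norm_nonneg _)
        (hψ.norm_le hq.1 p)
    · simp
  · rw [Function.update_of_ne hi]
    exact h i' p

open Classical in
private theorem redA_id {q : O} (hq : Lev q) {P : ℝ} {s : ℕ} {ψ : O → ℂ} {D : O} {ω : Fin j → O → ℂ}
    {S : Finset (Fin j)} (h : Ok q P s ψ D ω S) {i : Fin j} (hi : i ∉ S) {B : Finset O}
    (hB : ∀ p ∈ B, Prime p ∧ Prim p ∧ ¬ p ∣ D ∧ nm p ≤ P) {θ : O → ℂ} (hθ : ∀ p, ‖θ p‖ ≤ 1)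
    {b Y : ℝ} (hb : 0 < b) (hY : 0 < Y) (τ : ℝ) (u : O) :
    Am ψ D (Function.update ω i fun p => if p ∈ B then θ p * ω i p * conj (ψ p) else 0)
        (insert i S) b Y τ u =
      -∑ p ∈ B, θ p * (ω i p * sx u p * Am ψ (D * p) ω S b (Y / nm p) τ u) := by
  rw [Am_insert hq ⟨h.tw, h.prim, redA_wt hq h.tw h.wt i B hθ, h.card⟩ hb hY hi,
    Function.update_self]
  congr 1
  symm
  refine Finset.sum_subset_zero_on_sdiff
    (fun p hp => mem_prs.2 ⟨(hB p hp).2.2.2, (hB p hp).1, (hB p hp).2.1⟩) (fun p hp => ?_)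
    fun p hp => ?_
  · simp [(Finset.mem_sdiff.1 hp).2]
  · obtain ⟨h1, -, h3, -⟩ := hB p hp
    have e1 : one D p = 1 := if_pos (h1.coprime_iff_not_dvd.2 h3)
    have e2 : ω i p * (ψ p * conj (ψ p)) = ω i p := by
      by_cases h0 : ω i p = 0
      · rw [h0, zero_mul]
      · rw [h.tw.mul_conj hq.1, one, if_pos ((h.wt i p).2 h0).1, mul_one]
    rw [if_pos hp, e1, Am_congr (ω := Function.update ω i _) (ω' := ω) fun i' hi' p' _ _ _ => by
      rw [Function.update_of_ne (ne_of_mem_of_not_mem hi' hi)]]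
    linear_combination
      (-(θ p * sx u p * Am ψ (D * p) ω S b (Y / nm p) τ u)) * e2

open Classical in
/-- The main term of one dyadic block `Q / 2 ≤ N p ≤ 2 Q` of primes.  Recipe: `sum_twist_in`
(`b = 2 a`, `m = C₁`, `D = 1`, `Y p = X'`, `Y' p = X' Q / N p`) with
`c u p n = Π u · ω i p · sx u p · (cf ψ (D p) ω S n · sx u n)`, `Π u = ∏_{i' ∈ T} slot P (ω i') u`
(`Am_eq_SS`, `tsum_mul_left`, `Ok.adm`, `Adm.of_le`).  For `θ` put
`ω' = Function.update ω i fun p => if p ∈ B then θ p * ω i p * conj (ψ p) else 0`; then by `Am_insert`,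
`Am_congr`, `IsTw.mul_conj` the inner sum is `-Am ψ D ω' (insert i S) (2a) (X' Q) τ u · Π u`, and
`Π` does not change (`i ∉ T`); apply `RB` with `X' Q · P^m ≤ X' P^(m+1) ≤ X`. -/
theorem red_blk (j : ℕ) {q : O} (hq : Lev q) {a C₁ : ℝ} (ha : 0 < a) (hC₁ : 0 ≤ C₁) :
    ∃ C : ℝ, 0 < C ∧ ∀ (P U X Λ : ℝ) (s m : ℕ) (ψ : O → ℂ) (D : O) (ω : Fin j → O → ℂ)
      (S T : Finset (Fin j)) (i : Fin j) (X' t Q : ℝ) (B : Finset O),
      1 ≤ P → 0 ≤ Λ → m + 1 ≤ s → Ok q P (s - (m + 1)) ψ D ω S → Disjoint S T → i ∉ S → i ∉ T →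
      T.card = m → 0 < X' → X' * P ^ (m + 1) ≤ X → 0 < Q → Q ≤ P →
      (∀ p ∈ B, Prime p ∧ Prim p ∧ ¬ p ∣ D ∧ Q ≤ 2 * nm p ∧ nm p ≤ 2 * Q ∧ nm p ≤ P) →
      RB j q (2 * a) P s m U X Λ C₁ →
      ∑ u ∈ rows U, ‖∑ p ∈ B, ω i p * sx u p * Am ψ (D * p) ω S a X' t u *
          ∏ i' ∈ T, slot P (ω i') u‖ ^ 2 ≤
        C * w4 D ^ (1 + m) * Λ * (1 + |t|) ^ C₁ * (X' * P ^ (m + 1)) := by
  obtain ⟨C, hC, H⟩ := sum_twist_in ha (show a < 2 * a by linarith) hC₁ 1
  refine ⟨C, hC, ?_⟩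
  intro P U X Λ s m ψ D ω S T i X' t Q B hP hΛ hs h hST hiS hiT hT hX' hX hQ hQP hB hR
  have hw : 0 ≤ w4 D := zero_le_one.trans (one_le_w4 D)
  have hXQ : X' * Q * P ^ m ≤ X' * P ^ (m + 1) := by
    rw [pow_succ', ← mul_assoc]
    gcongr
  have key := H (rows U) B
    (fun u p (n : Pr) => ((∏ i' ∈ T, slot P (ω i') u) * (ω i p * sx u p)) *
      (cf ψ (D * p) ω S n * sx u n)) (fun n => nm n) 3 (fun _ => X') (fun p => X' * Q / nm p) t
    (w4 D ^ (1 + m) * Λ * (X' * P ^ (m + 1)))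
    (fun u _ p hp => ((h.sub h.tw (h.prim.mul (hB p hp).2.1) le_rfl).adm hq u).of_le
      fun n => (norm_mul _ _).le)
    (fun p hp => ⟨hX', div_pos (mul_pos hX' hQ) (nm_pos (hB p hp).1.ne_zero),
      redA_log hX' hQ (hB p hp).2.2.2.1 (hB p hp).2.2.2.2.1⟩) (by
      intro τ θ hθ
      have h1 := hR ψ D (Function.update ω i fun p => if p ∈ B then θ p * ω i p * conj (ψ p) else 0)
        (insert i S) T (X' * Q) τ
        ⟨h.tw, h.prim, redA_wt hq h.tw h.wt i B hθ, by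
          have := h.card
          rw [Finset.card_insert_of_notMem hiS]
          omega⟩
        (Finset.disjoint_insert_left.2 ⟨hiT, hST⟩) hT (mul_pos hX' hQ) (hXQ.trans hX)
      refine le_trans (le_of_eq (Finset.sum_congr rfl fun u _ => ?_)) (h1.trans ?_)
      · rw [redA_id hq h hiS (fun p hp => ⟨(hB p hp).1, (hB p hp).2.1, (hB p hp).2.2.1,
          (hB p hp).2.2.2.2.2⟩) hθ (by linarith) (mul_pos hX' hQ), neg_mul, norm_neg,
          Finset.sum_mul]
        have e : ∏ i' ∈ T, slot P (Function.update ω i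
            (fun p => if p ∈ B then θ p * ω i p * conj (ψ p) else 0) i') u =
            ∏ i' ∈ T, slot P (ω i') u :=
          Finset.prod_congr rfl fun i' hi' => by
            rw [Function.update_of_ne (ne_of_mem_of_not_mem hi' hiT)]
        rw [e]
        congr 2
        refine Finset.sum_congr rfl fun p _ => ?_
        rw [redA_SS, ← Am_eq_SS]
        ring
      · rw [mul_right_comm (w4 D ^ (1 + m) * Λ) (X' * P ^ (m + 1))]
        exact mul_le_mul_of_nonneg_left hXQ (by positivity))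
  refine le_trans (le_of_eq (Finset.sum_congr rfl fun u _ => ?_)) (key.trans (le_of_eq ?_))
  · congr 2
    refine Finset.sum_congr rfl fun p _ => ?_
    rw [redA_SS, ← Am_eq_SS]
    ring
  · ring

end Crest.Agent.R17.M1
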