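import Crest.Agent.R17.M1.CubeB
import Crest.Agent.R17.M1.SupI

/-!
Row 17, block M1: `StF` with one centre.
-/

set_option autoImplicit false

namespace Crest.Agent.R17.M1

open scoped ComplexConjugate

variable {j : ℕ}

/-- the bracket of `StF` -/
noncomputable def br (X K R : ℝ) : ℝ :=
  X * K + K ^ 2 * R ^ 2 + X ^ (1 / 2 : ℝ) * K * R ^ (5 / 2 : ℝ) + X ^ (4 / 3 : ℝ) * K ^ (1 / 3 : ℝ) * R

theorem br_mono {X K R R' c : ℝ} (hX : 0 ≤ X) (hK : 0 ≤ K) (hR : 0 ≤ R) (hc : 1 ≤ c)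
    (h : R ≤ c * R') : br X K R ≤ c ^ 3 * br X K R' := by
  have hc0 : 0 < c := by linarith
  have hR' : 0 ≤ R' := nonneg_of_mul_nonneg_right (hR.trans h) hc0
  have h1 : 1 ≤ c ^ 3 := one_le_pow₀ hc
  have h2 : R ^ 2 ≤ c ^ 3 * R' ^ 2 := by
    calc R ^ 2 ≤ (c * R') ^ 2 := by gcongr
      _ = c ^ 2 * R' ^ 2 := mul_pow _ _ _
      _ ≤ c ^ 3 * R' ^ 2 := by gcongr; norm_num
  have h3 : R ^ (5 / 2 : ℝ) ≤ c ^ 3 * R' ^ (5 / 2 : ℝ) := by
    calc R ^ (5 / 2 : ℝ) ≤ (c * R') ^ (5 / 2 : ℝ) := by gcongr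
      _ = c ^ (5 / 2 : ℝ) * R' ^ (5 / 2 : ℝ) := Real.mul_rpow hc0.le hR'
      _ ≤ c ^ ((3 : ℕ) : ℝ) * R' ^ (5 / 2 : ℝ) := by gcongr; norm_num
      _ = c ^ 3 * R' ^ (5 / 2 : ℝ) := by rw [Real.rpow_natCast]
  have h4 : R ≤ c ^ 3 * R' := by
    refine h.trans ?_
    gcongr
    exact le_self_pow₀ hc (by norm_num)
  have h5 : X * K ≤ c ^ 3 * (X * K) := le_mul_of_one_le_left (by positivity) h1
  unfold br
  calc _ ≤ c ^ 3 * (X * K) + K ^ 2 * (c ^ 3 * R' ^ 2) +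
        X ^ (1 / 2 : ℝ) * K * (c ^ 3 * R' ^ (5 / 2 : ℝ)) +
        X ^ (4 / 3 : ℝ) * K ^ (1 / 3 : ℝ) * (c ^ 3 * R') := by
        gcongr ?_ + K ^ 2 * ?_ + X ^ (1 / 2 : ℝ) * K * ?_ + X ^ (4 / 3 : ℝ) * K ^ (1 / 3 : ℝ) * ?_
    _ = _ := by ring

theorem t0_br_ge {X K R : ℝ} (hX : 0 ≤ X) (hK : 0 ≤ K) (hR : 0 ≤ R) : X * K ≤ br X K R := by
  unfold br
  have : 0 ≤ K ^ 2 * R ^ 2 + X ^ (1 / 2 : ℝ) * K * R ^ (5 / 2 : ℝ) +
    X ^ (4 / 3 : ℝ) * K ^ (1 / 3 : ℝ) * R := by positivity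
  linarith

open Classical in
/-- the coefficients of the theta sum marked by `r` -/
noncomputable def t0d (ψ : O → ℂ) (k r : O) (n : Pr) : ℂ :=
  if r ∣ (n : O) then tau0 n * al n * ψ n * conj (sx k n) else 0

theorem t0_adm {q : O} (hq : Lev q) {ψ : O → ℂ} (hψ : IsTw q ψ) (c : ℂ) (k r : O) :
    Adm (fun n : Pr => c * t0d ψ k r n) (fun n => nm n) 3 := by
  obtain ⟨C, -, h⟩ := adm_O (θ := 1 / 6) (σ := 3) (by norm_num)
  refine (h (fun n : Pr => (n : O)) _ ‖c‖ Subtype.val_injective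
    (fun n hn => absurd hn (Pr_prim n).ne_zero) (fun n _ => ?_) (norm_nonneg _)).1
  rw [norm_mul]
  refine mul_le_mul_of_nonneg_left ?_ (norm_nonneg _)
  unfold t0d
  split_ifs
  · rw [norm_mul, norm_mul, norm_mul, Complex.norm_conj]
    have h0 := nm_nonneg (n : O)
    calc _ ≤ nm n ^ (1 / 6 : ℝ) * 1 * 1 * 1 := by
          gcongr
          · exact norm_tau0_le _
          · exact norm_al_le _
          · exact hψ.norm_le hq.1 _
          · exact norm_sx_le _ _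
      _ = _ := by ring
  · rw [norm_zero]
    exact Real.rpow_nonneg (nm_nonneg _) _

theorem t0_block (hF : StF) {q : O} (hq : Lev q) {a ε W : ℝ} (ha : 0 < a) (hε : 0 < ε)
    (hW : 0 < W) : ∃ C m : ℝ, 0 < C ∧ 1 ≤ m ∧ ∀ (Z K X Q t : ℝ) (ψ : O → ℂ) (Rs A : Finset O)
      (c : O → ℂ), IsTw q ψ → 1 ≤ K → K ≤ Z → 1 ≤ X → X ≤ Z → 1 ≤ Q → Q ≤ Z →
      (∀ r ∈ Rs, Prim r ∧ Squarefree r ∧ IsCoprime r q ∧ nm r ≤ Q ∧ Q ≤ 2 * nm r) →
      (∀ r, ‖c r‖ ≤ W) → (∀ k ∈ A, k ≠ 0 ∧ nm k ≤ K) →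
      ∑ k ∈ A, ‖∑ r ∈ Rs, SS (fun n : Pr => c r * t0d ψ k r n) (fun n => nm n) a X t‖ ^ 2 ≤
        C * (Z ^ ε * br X K Q) * (1 + |t|) ^ m := by
  obtain ⟨CF, h₁⟩ := hF q (2 * a) ε hq (by positivity) hε
  have hm : (1 : ℝ) ≤ max CF 1 := le_max_right _ _
  obtain ⟨C₂, hC₂, h₂⟩ := sum_twist_in (m := max CF 1) ha (show a < 2 * a by linarith)
    (by linarith) 1
  refine ⟨C₂ * (W ^ 2 * max CF 1), max CF 1, by positivity, hm,
    fun Z K X Q t ψ Rs A c hψ hK hKZ hX hXZ hQ hQZ hRs hc hA => ?_⟩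
  have hQ0 : 0 < Q := by linarith
  have hX0 : 0 < X := by linarith
  have hZ0 : 0 < Z := by linarith
  have hbr : 0 ≤ br X K Q := le_trans (by positivity) (t0_br_ge hX0.le (by linarith) hQ0.le)
  have h₃ := h₂ A Rs (fun k r (n : Pr) => c r * t0d ψ k r n) (fun n => nm n) 3 (fun _ => X)
    (fun r => X / Q * nm r) t (W ^ 2 * max CF 1 * (Z ^ ε * br X K Q))
    (fun k _ r _ => t0_adm hq hψ _ k r) (fun r hr => ?_) fun τ θ hθ => ?_
  · refine h₃.trans (le_of_eq ?_)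
    ring
  · obtain ⟨h1, -, -, h2, h3⟩ := hRs r hr
    have h4 := nm_pos h1.ne_zero
    refine ⟨hX0, by positivity, ?_⟩
    have h5 : X / (X / Q * nm r) = Q / nm r := by field_simp
    rw [h5, abs_of_nonneg (Real.log_nonneg ((one_le_div h4).2 h2))]
    have h6 : Q / nm r ≤ 2 := (div_le_iff₀ h4).2 h3
    have h7 := Real.log_le_sub_one_of_pos (div_pos hQ0 h4)
    linarith
  · have hWc : (W : ℂ) ≠ 0 := by exact_mod_cast hW.ne'
    have h4 : ∀ k, ∑ r ∈ Rs, θ r * SS (fun n : Pr => c r * t0d ψ k r n) (fun n => nm n) (2 * a)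
        (X / Q * nm r) τ = W * TT ψ (2 * a) (X / Q) τ Rs (fun r => θ r * c r / W) k := by
      intro k
      rw [TT, Finset.mul_sum]
      refine Finset.sum_congr rfl fun r _ => ?_
      simp only [SS, t0d, mul_assoc (c r), tsum_mul_left, ite_mul, zero_mul]
      field_simp
    have h5 := h₁ ψ Z K (X / Q) Q τ Rs A (fun r => θ r * c r / W) hψ hK hKZ hQ hQZ
      (by
        rw [inv_eq_one_div]
        gcongr)
      ((div_le_self hX0.le hQ).trans hXZ)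
      (fun r hr => ⟨(hRs r hr).1, (hRs r hr).2.1, (hRs r hr).2.2.1, (hRs r hr).2.2.2.1⟩)
      (fun r => by
        rw [norm_div, norm_mul, Complex.norm_real, Real.norm_of_nonneg hW.le, div_le_one hW]
        calc ‖θ r‖ * ‖c r‖ ≤ 1 * W := by
              gcongr
              · exact hθ r
              · exact hc r
          _ = W := one_mul W) hA
    rw [div_mul_cancel₀ _ hQ0.ne'] at h5
    simp only [h4, norm_mul, mul_pow, Complex.norm_real, Real.norm_of_nonneg hW.le]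
    rw [← Finset.mul_sum]
    have h6 : 1 ≤ 1 + |τ| := by linarith [abs_nonneg τ]
    calc _ ≤ W ^ 2 * (CF * Z ^ ε * (1 + |τ|) ^ CF * br X K Q) := by
          gcongr
          exact h5
      _ ≤ W ^ 2 * (max CF 1 * Z ^ ε * (1 + |τ|) ^ max CF 1 * br X K Q) := by
          gcongr
          · exact le_max_left _ _
          · exact le_max_left _ _
      _ = _ := by ring

/-- Recipe.  `X ≤ 1`: `norm_TH_le`, `card_le_of_nm_le`.  `X ≥ 1`: `mk_eq_sum_dvd`, so that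
`TH = ∑_{r ∈ Rs} SS (c k r) nm a X t` with `c k r n = if r ∣ n then c r · tau0 n · al n · ψ n ·
conj (sx k n) else 0` (`Adm` at `σ = 3` by `adm_O`).  Split `Rs` by `blk r = ν < nblk Z`
(`norm_sum_sq_le`, `nblk_le`); in a block put `Q = 2 · 2^ν ≤ 2 R`, `N = X / Q`, and use
`sum_twist_in` (`b = 2 a`, `Y r = X`, `Y' r = N · N r`, `D = 1`): `∑_r θ r · SS … = (1+j)^j · TT ψ (2a) N τ
Rs_ν c' k` with `c' r = θ r · c r / (1+j)^j`.  `StF` at width `2 a` with `Z := 2 Z`, `P := Q`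
(`(2Z)⁻¹ ≤ N ≤ 2 Z`, `N Q = X`), its constant replaced by `max C 1`; `br_mono`. -/
theorem term0 (hF : StF) (j : ℕ) {q : O} (hq : Lev q) {a δ : ℝ} (ha : 0 < a) (hδ : 0 < δ) :
    ∃ C : ℝ, 1 ≤ C ∧ ∀ (Z K X P R t : ℝ) (ψ : O → ℂ) (ω : Fin j → O → ℂ) (S : Finset (Fin j))
      (A : Finset O), IsTw q ψ → Wt q P ω → 1 ≤ P → P ^ S.card ≤ R → R ≤ Z → 1 ≤ K → K ≤ Z →
      0 < X → X ≤ Z → (∀ k ∈ A, k ≠ 0 ∧ nm k ≤ K) →
      ∑ k ∈ A, ‖TH ψ ω S a X t k‖ ^ 2 ≤ C * Z ^ δ * (1 + |t|) ^ C * br X K R := by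
  classical
  obtain ⟨C₁, hC₁, h₁⟩ := norm_TH_le j hq ha
  have hε : 0 < δ / 3 := by positivity
  obtain ⟨C₂, m, hC₂, hm, h₂⟩ := t0_block hF hq ha hε (W := (1 + j : ℝ) ^ j) (by positivity)
  obtain ⟨C₃, hC₃, h₃⟩ := nblk_le hε
  set Cb : ℝ := C₃ ^ 2 * C₂ * 2 ^ (δ / 3) * 2 ^ 3 with hCb
  have hCb0 : 0 < Cb := by positivity
  have hCa0 : 0 < 11 * C₁ ^ 2 := by positivity
  refine ⟨11 * C₁ ^ 2 + Cb + m, by linarith,
    fun Z K X P R t ψ ω S A hψ hω hP hPR hRZ hK hKZ hX hXZ hA => ?_⟩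
  have hR : 1 ≤ R := (one_le_pow₀ hP).trans hPR
  have hZ : 1 ≤ Z := hR.trans hRZ
  have ht : 1 ≤ 1 + |t| := by linarith [abs_nonneg t]
  have hbr := t0_br_ge hX.le (by linarith : 0 ≤ K) (by linarith : 0 ≤ R)
  have hbr0 : 0 ≤ br X K R := le_trans (by positivity) hbr
  rcases le_total X 1 with hX1 | hX1
  · have h4 := card_le_of_nm_le (by linarith : 0 ≤ K) hA
    calc _ ≤ ∑ _k ∈ A, (C₁ * X) ^ 2 := by
          gcongr with k
          exact h₁ P ψ ω S X t k hψ hω hX hX1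
      _ = A.card * (C₁ * X) ^ 2 := by rw [Finset.sum_const, nsmul_eq_mul]
      _ ≤ 11 * K * (C₁ * X) ^ 2 := by gcongr
      _ = 11 * C₁ ^ 2 * X * 1 * (X * K) := by ring
      _ ≤ _ := by
        gcongr
        · linarith
        · exact hX1.trans (Real.one_le_rpow hZ hδ.le)
        · exact Real.one_le_rpow ht (by linarith)
  obtain ⟨Rs, c, hRs, hc, hmk⟩ := mk_eq_sum_dvd hω hP S
  have hTH : ∀ k, TH ψ ω S a X t k = ∑ ν ∈ Rs.image blk, ∑ r ∈ Rs with blk r = ν,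
      SS (fun n : Pr => c r * t0d ψ k r n) (fun n => nm n) a X t := by
    intro k
    rw [Finset.sum_fiberwise_of_maps_to fun r hr => Finset.mem_image_of_mem blk hr]
    unfold SS TH
    rw [← Summable.tsum_finsetSum fun r _ => ((t0_adm hq hψ (c r) k r).summable_SS ha hX t).of_norm]
    refine tsum_congr fun n => ?_
    rw [hmk n (Pr_prim n).ne_zero, Finset.mul_sum, Finset.sum_mul]
    refine Finset.sum_congr rfl fun r _ => ?_
    unfold t0d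
    split_ifs <;> ring
  have hcard : ((Rs.image blk).card : ℝ) ≤ C₃ * Z ^ (δ / 3) := by
    refine le_trans ?_ (h₃ Z hZ)
    have : Rs.image blk ⊆ Finset.range (nblk Z) := by
      intro ν hν
      obtain ⟨r, hr, rfl⟩ := Finset.mem_image.1 hν
      exact Finset.mem_range.2 (blk_lt_nblk ((hRs r hr).2.2.2.trans (hPR.trans hRZ)))
    exact_mod_cast (Finset.card_le_card this).trans (Finset.card_range _).le
  have hblk : ∀ ν ∈ Rs.image blk, ∑ k ∈ A, ‖∑ r ∈ Rs with blk r = ν,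
      SS (fun n : Pr => c r * t0d ψ k r n) (fun n => nm n) a X t‖ ^ 2 ≤
      C₂ * ((2 * Z) ^ (δ / 3) * (2 ^ 3 * br X K R)) * (1 + |t|) ^ m := by
    intro ν hν
    obtain ⟨r₀, hr₀, hν₀⟩ := Finset.mem_image.1 hν
    have h4 : (2 : ℝ) ^ ν ≤ R := by
      rw [← hν₀]
      exact (blk_le (hRs r₀ hr₀).1.ne_zero).trans ((hRs r₀ hr₀).2.2.2.trans hPR)
    have h5 : (1 : ℝ) ≤ 2 ^ ν := one_le_pow₀ (by norm_num)
    refine (h₂ (2 * Z) K X (2 * 2 ^ ν) t ψ _ A c hψ hK (by linarith) hX1 (by linarith)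
      (by linarith) (by linarith) (fun r hr => ?_) hc hA).trans ?_
    · obtain ⟨h6, rfl⟩ := Finset.mem_filter.1 hr
      have h7 := blk_le (hRs r h6).1.ne_zero
      exact ⟨(hRs r h6).1, (hRs r h6).2.1, (hRs r h6).2.2.1, (lt_blk r).le, by linarith⟩
    · gcongr
      exact br_mono hX.le (by linarith) (by linarith) (by norm_num) (by linarith)
  have hZ3 : Z ^ δ = Z ^ (δ / 3) * Z ^ (δ / 3) * Z ^ (δ / 3) := by
    rw [← Real.rpow_add (by linarith), ← Real.rpow_add (by linarith)]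
    congr 1
    ring
  calc _ ≤ ∑ k ∈ A, ((Rs.image blk).card * ∑ ν ∈ Rs.image blk, ‖∑ r ∈ Rs with blk r = ν,
        SS (fun n : Pr => c r * t0d ψ k r n) (fun n => nm n) a X t‖ ^ 2) := by
        refine Finset.sum_le_sum fun k _ => ?_
        rw [hTH]
        exact norm_sum_sq_le _ _
    _ = (Rs.image blk).card * ∑ ν ∈ Rs.image blk, ∑ k ∈ A, ‖∑ r ∈ Rs with blk r = ν,
        SS (fun n : Pr => c r * t0d ψ k r n) (fun n => nm n) a X t‖ ^ 2 := by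
        rw [← Finset.mul_sum, Finset.sum_comm]
    _ ≤ (Rs.image blk).card * ∑ _ν ∈ Rs.image blk,
        C₂ * ((2 * Z) ^ (δ / 3) * (2 ^ 3 * br X K R)) * (1 + |t|) ^ m := by
        gcongr with ν hν
        exact hblk ν hν
    _ = (Rs.image blk).card * ((Rs.image blk).card *
        (C₂ * ((2 * Z) ^ (δ / 3) * (2 ^ 3 * br X K R)) * (1 + |t|) ^ m)) := by
        rw [Finset.sum_const, nsmul_eq_mul]
    _ ≤ C₃ * Z ^ (δ / 3) * (C₃ * Z ^ (δ / 3) *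
        (C₂ * ((2 * Z) ^ (δ / 3) * (2 ^ 3 * br X K R)) * (1 + |t|) ^ m)) := by gcongr
    _ = Cb * Z ^ δ * (1 + |t|) ^ m * br X K R := by
        rw [Real.mul_rpow (by norm_num) (by linarith), hZ3, hCb]
        ring
    _ ≤ _ := by
        gcongr <;> linarith

end Crest.Agent.R17.M1
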