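import Crest.Agent.R17.M1.Mk
import Crest.Agent.R17.M1.Elem

/-!
Row 17, block M1: trivial bounds and monotonicity.
-/

set_option autoImplicit false

namespace Crest.Agent.R17.M1

open scoped ComplexConjugate

variable {j : ℕ}

theorem Ok.sub {q : O} {P : ℝ} {s : ℕ} {ψ : O → ℂ} {D : O} {ω : Fin j → O → ℂ} {S : Finset (Fin j)}
    (h : Ok q P s ψ D ω S) {ψ' : O → ℂ} {D' : O} {S' : Finset (Fin j)} (hψ : IsTw q ψ')
    (hD : Prim D') (hS : S' ⊆ S) : Ok q P s ψ' D' ω S' :=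
  ⟨hψ, hD, h.wt, (Finset.card_le_card hS).trans h.card⟩

/-! ### trivial bounds -/

section
variable {q : O} {P : ℝ} {s : ℕ} {ψ : O → ℂ} {D : O} {ω : Fin j → O → ℂ} {S : Finset (Fin j)}

theorem Ok.norm_cf_le (h : Ok q P s ψ D ω S) (hq : Lev q) (n : O) : ‖cf ψ D ω S n‖ ≤ wj j n := by
  rw [cf, norm_mul, norm_mul, norm_mul]
  have h1 := norm_mu_le n
  have h2 := h.tw.norm_le hq.1 n
  have h3 := norm_one_le D n
  have h4 := norm_mk_le h.wt S n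
  calc ‖mu n‖ * ‖ψ n‖ * ‖one D n‖ * ‖M1.mk ω S n‖ ≤ 1 * 1 * 1 * wj j n := by gcongr
    _ = wj j n := by ring

/-- `admP_LN`, `wj_le` -/
theorem Ok.admP (h : Ok q P s ψ D ω S) (hq : Lev q) {a X : ℝ} (ha : 0 < a) (hX : 0 < X) (t : ℝ) :
    AdmP (col ψ D ω S a X t) := by
  obtain ⟨C, -, hC⟩ := wj_le j one_pos
  refine admP_LN (c := cf ψ D ω S) (M := C) (θ := 1) ha hX t (fun n _ h0 => ?_)
    fun n hn => (h.norm_cf_le hq n).trans (hC n hn.ne_zero)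
  rw [cf] at h0
  have h1 := left_ne_zero_of_mul (left_ne_zero_of_mul h0)
  refine ⟨by_contra fun hs => left_ne_zero_of_mul h1 (by rw [mu, if_neg hs]), ?_⟩
  have h2 : IsCoprime n q := h.tw.ne_zero.1 (right_ne_zero_of_mul h1)
  exact h2.of_isCoprime_of_dvd_right ((show (2 : O) ∣ 72 from ⟨36, by norm_num⟩).trans hq.2)

theorem Am_eq_SS (ψ : O → ℂ) (D : O) (ω : Fin j → O → ℂ) (S : Finset (Fin j)) (a X t : ℝ) (u : O) :
    Am ψ D ω S a X t u = SS (fun n : Pr => cf ψ D ω S n * sx u n) (fun n => nm n) a X t := by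
  simp only [Am, Sp, SS, col, sj_false]
  exact tsum_congr fun n => by ring

/-- `adm_O` -/
theorem Ok.adm (h : Ok q P s ψ D ω S) (hq : Lev q) (u : O) :
    Adm (fun n : Pr => cf ψ D ω S n * sx u n) (fun n => nm n) 3 := by
  obtain ⟨C, hC0, hC⟩ := wj_le j one_pos
  obtain ⟨C', -, H⟩ := adm_O (θ := 1) (σ := 3) (by norm_num)
  refine (H (fun n : Pr => (n : O)) (fun n : Pr => cf ψ D ω S n * sx u n) C Subtype.val_injective
    (fun n hn => absurd hn (Pr_prim n).ne_zero) (fun n hn => ?_) hC0.le).1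
  rw [norm_mul]
  exact (mul_le_of_le_one_right (norm_nonneg _) (norm_sx_le _ _)).trans
    ((h.norm_cf_le hq n).trans (hC n hn))

end

/-- `sum_LN_O` at the exponent `θ + δ` -/
theorem col_sum_le (j : ℕ) {q : O} (hq : Lev q) {a δ : ℝ} (ha : 0 < a) (hδ : 0 < δ) (θ : ℝ) :
    ∃ C : ℝ, 0 < C ∧ ∀ (P : ℝ) (s : ℕ) (ψ : O → ℂ) (D : O) (ω : Fin j → O → ℂ)
      (S : Finset (Fin j)) (X t : ℝ), Ok q P s ψ D ω S → 0 < X →
      ∑' n : Pr, ‖col ψ D ω S a X t n‖ * nm n ^ θ ≤ C * X ^ (1 + θ + δ) := by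
  obtain ⟨C, hC0, hC⟩ := wj_le j hδ
  obtain ⟨C', hC', H⟩ := sum_LN_O ha (θ + δ)
  refine ⟨C' * C, by positivity, fun P s ψ D ω S X t h hX => ?_⟩
  have h1 := (H (fun n : Pr => (n : O)) (fun n : Pr => cf ψ D ω S n * ((nm n ^ θ : ℝ) : ℂ)) C X t
    Subtype.val_injective (fun n hn => absurd hn (Pr_prim n).ne_zero) (fun n hn => by
      have h0 := nm_pos hn
      rw [norm_mul, Complex.norm_real, Real.norm_of_nonneg (by positivity), Real.rpow_add h0]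
      calc ‖cf ψ D ω S n‖ * nm n ^ θ ≤ C * nm n ^ δ * nm n ^ θ := by
            gcongr
            exact (h.norm_cf_le hq n).trans (hC n hn)
        _ = _ := by ring) hC0.le hX).2
  rw [show 1 + θ + δ = θ + δ + 1 by ring]
  refine le_of_eq_of_le (tsum_congr fun n => ?_) h1
  have h0 := nm_pos (Pr_prim n).ne_zero
  rw [col, norm_mul, norm_mul, norm_mul, Complex.norm_real, Real.norm_of_nonneg (by positivity)]
  ring

theorem norm_Am_le (j : ℕ) {q : O} (hq : Lev q) {a : ℝ} (ha : 0 < a) :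
    ∃ C : ℝ, 0 < C ∧ ∀ (P : ℝ) (s : ℕ) (ψ : O → ℂ) (D : O) (ω : Fin j → O → ℂ)
      (S : Finset (Fin j)) (X t : ℝ) (u : O), Ok q P s ψ D ω S → 0 < X → X ≤ 1 →
      ‖Am ψ D ω S a X t u‖ ≤ C * X := by
  obtain ⟨C, hC, H⟩ := col_sum_le j hq ha one_pos 0
  refine ⟨C, hC, fun P s ψ D ω S X t u h hX hX1 => ?_⟩
  have h1 := H P s ψ D ω S X t h hX
  have h2 := (h.admP hq ha hX t).dec 0
  have h3 : ∀ n : Pr, ‖col ψ D ω S a X t n * sj false (sx u n)‖ ≤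
      ‖col ψ D ω S a X t n‖ * nm n ^ (0 : ℝ) := fun n => by
    rw [norm_mul, Real.rpow_zero, sj_false]
    exact mul_le_mul_of_nonneg_left (norm_sx_le _ _) (norm_nonneg _)
  refine (tsum_of_norm_bounded h2.hasSum h3).trans (h1.trans ?_)
  refine mul_le_mul_of_nonneg_left ?_ hC.le
  calc X ^ (1 + 0 + 1 : ℝ) ≤ X ^ (1 : ℝ) := Real.rpow_le_rpow_of_exponent_ge hX hX1 (by norm_num)
    _ = X := Real.rpow_one X

/-- `‖col n‖² ≤ C N(n)^(δ/2) ‖col n‖` -/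
theorem l2_col_le (j : ℕ) {q : O} (hq : Lev q) {a δ : ℝ} (ha : 0 < a) (hδ : 0 < δ) :
    ∃ C : ℝ, 0 < C ∧ ∀ (Z P : ℝ) (s : ℕ) (ψ : O → ℂ) (D : O) (ω : Fin j → O → ℂ)
      (S : Finset (Fin j)) (X t : ℝ), Ok q P s ψ D ω S → 1 ≤ Z → 0 < X → X ≤ Z →
      l2 (col ψ D ω S a X t) ≤ C * Z ^ δ * X := by
  obtain ⟨C, hC, H⟩ := col_sum_le j hq ha (half_pos hδ) (δ / 2)
  obtain ⟨C', hC', H'⟩ := wj_le j (half_pos hδ)
  refine ⟨C' * C, by positivity, fun Z P s ψ D ω S X t h hZ hX hXZ => ?_⟩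
  have h1 := H P s ψ D ω S X t h hX
  have h2 := ((h.admP hq ha hX t).dec (δ / 2)).mul_left C'
  have h3 : ∀ n : Pr, ‖col ψ D ω S a X t n‖ ^ 2 ≤
      C' * (‖col ψ D ω S a X t n‖ * nm n ^ (δ / 2)) := fun n => by
    have h4 : ‖col ψ D ω S a X t n‖ ≤ C' * nm n ^ (δ / 2) := by
      rw [col, norm_mul]
      exact (mul_le_of_le_one_right (norm_nonneg _) (norm_LN_le_one _ _ _ _)).trans
        ((h.norm_cf_le hq n).trans (H' n (Pr_prim n).ne_zero))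
    calc ‖col ψ D ω S a X t n‖ ^ 2 = ‖col ψ D ω S a X t n‖ * ‖col ψ D ω S a X t n‖ := sq _
      _ ≤ ‖col ψ D ω S a X t n‖ * (C' * nm n ^ (δ / 2)) := by gcongr
      _ = _ := by ring
  have h5 : l2 (col ψ D ω S a X t) ≤ C' * ∑' n : Pr, ‖col ψ D ω S a X t n‖ * nm n ^ (δ / 2) := by
    rw [l2, ← tsum_mul_left]
    exact (h2.of_nonneg_of_le (fun n => by positivity) h3).tsum_le_tsum h3 h2
  refine h5.trans ?_
  rw [show 1 + δ / 2 + δ / 2 = δ + 1 by ring, Real.rpow_add hX, Real.rpow_one] at h1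
  calc C' * ∑' n : Pr, ‖col ψ D ω S a X t n‖ * nm n ^ (δ / 2) ≤ C' * (C * (X ^ δ * X)) := by gcongr
    _ ≤ C' * (C * (Z ^ δ * X)) := by gcongr
    _ = _ := by ring

/-- take `δ (A - 1) ≥ 6`; `col_sum_le` with `θ = A`, `δ = 1` -/
theorem tail_col_le (j : ℕ) {q : O} (hq : Lev q) {a δ : ℝ} (ha : 0 < a) (hδ : 0 < δ) :
    ∃ (A : ℕ) (C : ℝ), 2 ≤ A ∧ 0 < C ∧ ∀ (Z P : ℝ) (s : ℕ) (ψ : O → ℂ) (D : O) (ω : Fin j → O → ℂ)
      (S : Finset (Fin j)) (X t : ℝ), Ok q P s ψ D ω S → 1 ≤ Z → 0 < X → X ≤ Z →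
      tail A (col ψ D ω S a X t) X (Z ^ δ) ≤ C * X := by
  obtain ⟨A, hA⟩ := exists_nat_ge (6 / δ + 2)
  have hA6 : 6 / δ ≤ (A : ℝ) - 1 := by linarith
  have hA2 : (2 : ℝ) ≤ A := by
    have : 0 < 6 / δ := by positivity
    linarith
  obtain ⟨C, hC, H⟩ := col_sum_le j hq ha one_pos (A : ℝ)
  refine ⟨A, 8 * C ^ 2, by exact_mod_cast hA2, by positivity,
    fun Z P s ψ D ω S X t h hZ hX hXZ => ?_⟩
  have hZ0 : 0 < Z := by linarith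
  have h1 := H P s ψ D ω S X t h hX
  have h2 : ∑' n : Pr, ‖col ψ D ω S a X t n‖ * (nm n / X) ^ A ≤ C * X ^ 2 := by
    have e1 : ∀ n : Pr, ‖col ψ D ω S a X t n‖ * (nm n / X) ^ A =
        ‖col ψ D ω S a X t n‖ * nm n ^ (A : ℝ) * (X ^ A)⁻¹ := fun n => by
      rw [Real.rpow_natCast, div_pow, div_eq_mul_inv, mul_assoc]
    simp only [e1, tsum_mul_right]
    rw [show 1 + (A : ℝ) + 1 = ((A + 2 : ℕ) : ℝ) by push_cast; ring, Real.rpow_natCast,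
      pow_add] at h1
    rw [← div_eq_mul_inv, div_le_iff₀ (by positivity)]
    exact h1.trans (le_of_eq (by ring))
  have h3 : 0 ≤ ∑' n : Pr, ‖col ψ D ω S a X t n‖ * (nm n / X) ^ A :=
    tsum_nonneg fun n => by
      have := nm_nonneg (n : O)
      positivity
  have h4 : Z ^ δ / (Z ^ δ) ^ A ≤ (Z ^ 6)⁻¹ := by
    rw [← Real.rpow_natCast, ← Real.rpow_mul hZ0.le, ← Real.rpow_sub hZ0, ← Real.rpow_natCast,
      ← Real.rpow_neg hZ0.le]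
    refine Real.rpow_le_rpow_of_exponent_le hZ ?_
    rw [div_le_iff₀ hδ] at hA6
    push_cast
    linarith
  have h5 : (1 + X) ^ 3 ≤ (2 * Z) ^ 3 := by
    gcongr
    linarith
  have h6 : X ^ 3 ≤ Z ^ 3 := by gcongr
  rw [tail]
  calc Z ^ δ / (Z ^ δ) ^ A * (1 + X) ^ 3 *
        (∑' n : Pr, ‖col ψ D ω S a X t n‖ * (nm n / X) ^ A) ^ 2
      ≤ (Z ^ 6)⁻¹ * (2 * Z) ^ 3 * (C * X ^ 2) ^ 2 := by gcongr
    _ = (Z ^ 6)⁻¹ * (2 * Z) ^ 3 * (C ^ 2 * X * X ^ 3) := by ring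
    _ ≤ (Z ^ 6)⁻¹ * (2 * Z) ^ 3 * (C ^ 2 * X * Z ^ 3) := by gcongr
    _ = 8 * C ^ 2 * X := by field_simp; norm_num

/-- the base of the induction -/
theorem PB_base (j : ℕ) {q : O} (hq : Lev q) {a : ℝ} (ha : 0 < a) : ∃ C : ℝ, 1 ≤ C ∧
    ∀ (P : ℝ) (s : ℕ) (U X : ℝ), 0 ≤ U → X ≤ 1 → PB j q a P s U X (C * U) 0 := by
  obtain ⟨C, hC, H⟩ := norm_Am_le j hq ha
  refine ⟨11 * C ^ 2 + 1, le_add_of_nonneg_left (by positivity),
    fun P s U X hU hX ψ ω S X' t h h0 h1 => ?_⟩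
  have h2 : X' ≤ 1 := h1.trans hX
  have h3 : ∀ u ∈ rows U, ‖Am ψ 1 ω S a X' t u‖ ^ 2 ≤ C ^ 2 * X' := fun u _ => by
    calc ‖Am ψ 1 ω S a X' t u‖ ^ 2 ≤ (C * X') ^ 2 := by
          gcongr
          exact H P s ψ 1 ω S X' t u h h0 h2
      _ = C ^ 2 * X' * X' := by ring
      _ ≤ C ^ 2 * X' * 1 := by gcongr
      _ = _ := mul_one _
  refine (Finset.sum_le_card_nsmul _ _ _ h3).trans ?_
  rw [nsmul_eq_mul, Real.rpow_zero, mul_one]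
  calc ((rows U).card : ℝ) * (C ^ 2 * X') ≤ 11 * U * (C ^ 2 * X') := by
        gcongr
        exact card_rows_le hU
    _ = 11 * C ^ 2 * U * X' := by ring
    _ ≤ _ := by
        gcongr
        linarith

/-! ### monotonicity -/

theorem triv_pow {C₁ C₁' : ℝ} (hC : C₁ ≤ C₁') (t : ℝ) : (1 + |t|) ^ C₁ ≤ (1 + |t|) ^ C₁' :=
  Real.rpow_le_rpow_of_exponent_le (le_add_of_nonneg_right (abs_nonneg t)) hC

theorem PB.mono {q : O} {a P U U' X X' Λ Λ' C₁ C₁' : ℝ} {s s' : ℕ} (h : PB j q a P s U X Λ C₁)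
    (hs : s' ≤ s) (hU : U' ≤ U) (hX : X' ≤ X) (h0 : 0 ≤ Λ) (hΛ : Λ ≤ Λ') (hC : C₁ ≤ C₁') :
    PB j q a P s' U' X' Λ' C₁' := by
  intro ψ ω S Y t hok hY hYX
  have h1 := h ψ ω S Y t ⟨hok.tw, hok.prim, hok.wt, hok.card.trans hs⟩ hY (hYX.trans hX)
  refine (Finset.sum_le_sum_of_subset_of_nonneg (rows_mono hU) fun _ _ _ => by positivity).trans
    (h1.trans ?_)
  have h2 := triv_pow hC t
  have h3 : 0 ≤ Λ' := h0.trans hΛ
  gcongr

theorem MB.mono {q : O} {a P U U' X X' Λ Λ' C₁ C₁' : ℝ} {s s' : ℕ} (h : MB j q a P s U X Λ C₁)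
    (hs : s' ≤ s) (hU : U' ≤ U) (hX : X' ≤ X) (h0 : 0 ≤ Λ) (hΛ : Λ ≤ Λ') (hC : C₁ ≤ C₁') :
    MB j q a P s' U' X' Λ' C₁' := by
  intro ψ D ω S Y t hok hY hYX
  have h1 := h ψ D ω S Y t ⟨hok.tw, hok.prim, hok.wt, hok.card.trans hs⟩ hY (hYX.trans hX)
  refine (Finset.sum_le_sum_of_subset_of_nonneg (rows_mono hU) fun _ _ _ => by positivity).trans
    (h1.trans ?_)
  have h2 := triv_pow hC t
  have h3 : 0 ≤ Λ' := h0.trans hΛ
  have h4 : 0 ≤ w4 D := zero_le_one.trans (one_le_w4 D)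
  gcongr

theorem MB.of_lt {q : O} {a P U X Λ C₁ : ℝ} {s : ℕ} (hU : U < 1) (h0 : 0 ≤ Λ) :
    MB j q a P s U X Λ C₁ := by
  intro ψ D ω S Y t _ hY _
  have h4 : 0 ≤ w4 D := zero_le_one.trans (one_le_w4 D)
  rw [rows_eq_empty hU, Finset.sum_empty]
  positivity

theorem RB.mono {q : O} {a P U X Λ Λ' C₁ C₁' : ℝ} {s m : ℕ} (h : RB j q a P s m U X Λ C₁)
    (hP : 0 ≤ P) (h0 : 0 ≤ Λ) (hΛ : Λ ≤ Λ') (hC : C₁ ≤ C₁') : RB j q a P s m U X Λ' C₁' := by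
  intro ψ D ω S T Y t hok hd hT hY hYX
  refine (h ψ D ω S T Y t hok hd hT hY hYX).trans ?_
  have h2 := triv_pow hC t
  have h3 : 0 ≤ Λ' := h0.trans hΛ
  have h4 : 0 ≤ w4 D := zero_le_one.trans (one_le_w4 D)
  gcongr

theorem MB.rb {q : O} {a P U X Λ C₁ : ℝ} {s : ℕ} (h : MB j q a P s U X Λ C₁) :
    RB j q a P s 0 U X Λ C₁ := by
  intro ψ D ω S T Y t hok _ hT hY hYX
  rw [Finset.card_eq_zero] at hT
  subst hT
  simp only [Finset.prod_empty, mul_one, pow_zero, add_zero, pow_one, Nat.sub_zero] at hok hYX ⊢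
  exact h ψ D ω S Y t hok hY hYX

end Crest.Agent.R17.M1
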